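import Mathlib

/-! Arithmetic of exponents for the singular-configuration bound. -/

namespace Vale.Agent.P050

/-- Invariants of a triple: common kernel dimension `m` and pairwise kernel dimensions. -/
structure St where
  m : ℕ
  k12 : ℕ
  k13 : ℕ
  k23 : ℕ

/-- Pattern of a fourth form relative to a triple. -/
structure Pat where
  a : ℕ
  v12 : ℕ
  v13 : ℕ
  v23 : ℕ
  r1 : ℕ
  r2 : ℕ
  r3 : ℕ

/-- Constraints satisfied by every realised pattern. -/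
structure Feas (n : ℕ) (s : St) (p : Pat) : Prop where
  am : p.a ≤ s.m
  a12 : p.a ≤ p.v12
  a13 : p.a ≤ p.v13
  a23 : p.a ≤ p.v23
  v12 : p.v12 + s.m ≤ s.k12 + p.a
  v13 : p.v13 + s.m ≤ s.k13 + p.a
  v23 : p.v23 + s.m ≤ s.k23 + p.a
  p1 : p.v12 + p.v13 ≤ p.r1 + p.a
  p2 : p.v12 + p.v23 ≤ p.r2 + p.a
  p3 : p.v13 + p.v23 ≤ p.r3 + p.a
  w12 : p.r1 + p.r2 + s.k12 ≤ n + 2 * p.v12
  w13 : p.r1 + p.r3 + s.k13 ≤ n + 2 * p.v13
  w23 : p.r2 + p.r3 + s.k23 ≤ n + 2 * p.v23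
  n0 : s.k12 + s.k13 + s.k23 ≤ n + 2 * s.m

/-- The exponent of the probability of a pattern. -/
noncomputable def ex (n : ℕ) (s : St) (p : Pat) : ℝ :=
  let a : ℝ := p.a
  let x : ℝ := p.v12 - a
  let y : ℝ := p.v13 - a
  let z : ℝ := p.v23 - a
  let q1 : ℝ := p.r1 - a - x - y
  let q2 : ℝ := p.r2 - a - x - z
  let q3 : ℝ := p.r3 - a - y - z
  a * s.m - a * n - a * (a + 1) / 2 + x * (s.k12 - x - n) + y * (s.k13 - y - n)
    + z * (s.k23 - z - n) + (x + y + z) * (x + y + z - 1) / 2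
    - (q1 * (q1 + 1) + q2 * (q2 + 1) + q3 * (q3 + 1)) / 2

/-- total degeneracy -/
noncomputable def dg (s : St) : ℝ := (s.k12 : ℝ) + s.k13 + s.k23 - 2 * s.m

noncomputable def phs (n : ℕ) (s : St) : ℝ :=
  let m : ℝ := s.m
  let b : ℝ := s.k12 - m
  let c : ℝ := s.k13 - m
  let d : ℝ := s.k23 - m
  m * n / 2 - m * (m - 1) / 4 + (b * (b + 1) + c * (c + 1) + d * (d + 1)) / 4

/-- face potential (with coefficient `e` of the squared degeneracy) -/
noncomputable def fc (n : ℕ) (e : ℝ) (s : St) : ℝ :=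
  let m : ℝ := s.m
  let b : ℝ := s.k12 - m
  let c : ℝ := s.k13 - m
  let d : ℝ := s.k23 - m
  phs n s - (b ^ 2 + c ^ 2 + d ^ 2) / 8 - m * (b + c) / 4 + e * dg s ^ 2

/-- carried potential -/
noncomputable def cr (n : ℕ) (e : ℝ) (s : St) : ℝ :=
  phs n s + (s.m : ℝ) ^ 2 / 4 + e * dg s ^ 2

def St.s12 (s : St) (p : Pat) : St := ⟨p.v12, s.k12, p.r1, p.r2⟩
def St.s13 (s : St) (p : Pat) : St := ⟨p.v13, s.k13, p.r1, p.r3⟩
def St.s23 (s : St) (p : Pat) : St := ⟨p.v23, s.k23, p.r2, p.r3⟩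

lemma lin_aux {n : ℕ} (hn : 0 < n) {u n0 : ℕ} {D : ℝ} (hD : D = n - n0) (hu : u ≤ n) :
    (u : ℝ) * (1 - n0) / 2 ≤ 1 / (2 * n) * D ^ 2 := by
  have hn' : (0 : ℝ) < n := by exact_mod_cast hn
  rcases Nat.eq_zero_or_pos n0 with h | h
  · subst h
    have : (u : ℝ) ≤ n := by exact_mod_cast hu
    rw [hD]; simp only [Nat.cast_zero, sub_zero, mul_one]
    rw [show 1 / (2 * (n : ℝ)) * n ^ 2 = n / 2 by field_simp]
    linarith
  · have h1 : (1 : ℝ) ≤ n0 := by exact_mod_cast h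
    have h2 : (u : ℝ) * (1 - n0) / 2 ≤ 0 := by
      have : (0 : ℝ) ≤ u := by positivity
      nlinarith
    have : 0 ≤ 1 / (2 * (n : ℝ)) * D ^ 2 := by positivity
    linarith

lemma sq3 {t D s1 s2 : ℝ} (h0 : 0 ≤ t) (h1 : t ≤ D + s1 + s2) :
    t ^ 2 ≤ 3 * (D ^ 2 + s1 ^ 2 + s2 ^ 2) := by
  have : t ^ 2 ≤ (D + s1 + s2) ^ 2 := by gcongr
  nlinarith [sq_nonneg (D - s1), sq_nonneg (D - s2), sq_nonneg (s1 - s2)]

/-- real version of `phs` in terms of excess dimensions -/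
noncomputable def ph (n m b c d : ℝ) : ℝ :=
  m * n / 2 - m * (m - 1) / 4 + (b * (b + 1) + c * (c + 1) + d * (d + 1)) / 4

lemma step_real0 {n a u x y z al be ga q1 q2 q3 n0 : ℝ}
    (hn : n = a + u + x + y + z + al + be + ga + n0) :
    a * (a + u) - a * n - a * (a + 1) / 2 + x * (a + u + al - n) + y * (a + u + be - n)
      + z * (a + u + ga - n) + (x + y + z) * (x + y + z - 1) / 2
      - (q1 * (q1 + 1) + q2 * (q2 + 1) + q3 * (q3 + 1)) / 2
      + ph n (a + x) (u + al) (y + q1) (z + q2) + ph n (a + y) (u + be) (x + q1) (z + q3)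
      + ph n (a + z) (u + ga) (x + q2) (y + q3)
      = ph n (a + u) (x + al) (y + be) (z + ga) + u / 2 * (2 * a + u + 1 - n0)
        - (x * (be + ga + n0 - q1 - q2) + y * (al + ga + n0 - q1 - q3)
          + z * (al + be + n0 - q2 - q3)) / 2 := by
  subst hn
  simp only [ph]
  ring

lemma step_real {a u x y z al be ga q1 q2 q3 n0 e d c : ℝ}
    (ha : 0 ≤ a) (hu : 0 ≤ u) (hx : 0 ≤ x) (hy : 0 ≤ y) (hz : 0 ≤ z) (hal : 0 ≤ al)
    (hbe : 0 ≤ be) (hga : 0 ≤ ga) (hq1 : 0 ≤ q1) (hq2 : 0 ≤ q2) (hq3 : 0 ≤ q3)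
    (W12 : q1 + q2 ≤ be + ga + n0) (W13 : q1 + q3 ≤ al + ga + n0) (W23 : q2 + q3 ≤ al + be + n0)
    (hl : u * (1 - n0) / 2 ≤ c * (a + u + x + y + z + al + be + ga) ^ 2)
    (he : 0 ≤ e) (hd : 0 ≤ d) (hed : 3 * e + 3 * d ≤ 1 / 8) :
    u / 2 * (2 * a + u + 1 - n0)
        - (x * (be + ga + n0 - q1 - q2) + y * (al + ga + n0 - q1 - q3)
          + z * (al + be + n0 - q2 - q3)) / 2
      + ((a + x) ^ 2 / 4 + e * (a + u + x + y + z + al + q1 + q2) ^ 2)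
      + (- ((u + be) ^ 2 + (x + q1) ^ 2 + (z + q3) ^ 2) / 8 - (a + y) * (u + be + (x + q1)) / 4
        + d * (a + u + x + y + z + be + q1 + q3) ^ 2)
      + (- ((u + ga) ^ 2 + (x + q2) ^ 2 + (y + q3) ^ 2) / 8 - (a + z) * (u + ga + (x + q2)) / 4
        + d * (a + u + x + y + z + ga + q2 + q3) ^ 2)
      ≤ (a + u) ^ 2 / 4 + (3 * e + 6 * d + c) * (a + u + x + y + z + al + be + ga) ^ 2 := by
  have e1 := mul_le_mul_of_nonneg_left
    (sq3 (t := a + u + x + y + z + al + q1 + q2) (D := a + u + x + y + z + al + be + ga)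
      (s1 := q1) (s2 := q2) (by positivity) (by linarith)) he
  have e2 := mul_le_mul_of_nonneg_left
    (sq3 (t := a + u + x + y + z + be + q1 + q3) (D := a + u + x + y + z + al + be + ga)
      (s1 := q1) (s2 := q3) (by positivity) (by linarith)) hd
  have e3 := mul_le_mul_of_nonneg_left
    (sq3 (t := a + u + x + y + z + ga + q2 + q3) (D := a + u + x + y + z + al + be + ga)
      (s1 := q2) (s2 := q3) (by positivity) (by linarith)) hd
  have f1 : (3 * e + 3 * d) * q1 ^ 2 ≤ 1 / 8 * q1 ^ 2 := by gcongr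
  have f2 : (3 * e + 3 * d) * q2 ^ 2 ≤ 1 / 8 * q2 ^ 2 := by gcongr
  have f3 : (3 * d) * q3 ^ 2 ≤ 1 / 8 * q3 ^ 2 := by gcongr; linarith
  have g1 := mul_nonneg hx (sub_nonneg.2 W12)
  have g2 := mul_nonneg hy (sub_nonneg.2 W13)
  have g3 := mul_nonneg hz (sub_nonneg.2 W23)
  have key : 0 ≤ (be ^ 2 + 2 * u * be + 2 * x * q1 + z ^ 2 + 2 * z * q3 + ga ^ 2 + 2 * u * ga
      + 2 * x * q2 + y ^ 2 + 2 * y * q3) / 8 + a * (be + q1 + ga + q2) / 4
      + y * (u + be + x + q1) / 4 + z * (u + ga + x + q2) / 4 := by positivity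
  generalize (a + u + x + y + z + al + be + ga) ^ 2 = D at *
  generalize (a + u + x + y + z + al + q1 + q2) ^ 2 = D1 at *
  generalize (a + u + x + y + z + be + q1 + q3) ^ 2 = D2 at *
  generalize (a + u + x + y + z + ga + q2 + q3) ^ 2 = D3 at *
  linarith

theorem step_ineq {n : ℕ} (hn : 0 < n) {s : St} {p : Pat} (h : Feas n s p) {e d : ℝ}
    (he : 0 ≤ e) (hd : 0 ≤ d) (hed : 3 * e + 3 * d ≤ 1 / 8) :
    ex n s p + cr n e (s.s12 p) + fc n d (s.s13 p) + fc n d (s.s23 p)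
      ≤ cr n (3 * e + 6 * d + 1 / (2 * n)) s := by
  obtain ⟨m, k12, k13, k23⟩ := s
  obtain ⟨a, v12, v13, v23, r1, r2, r3⟩ := p
  obtain ⟨am, a12, a13, a23, h12, h13, h23, p1, p2, p3, w12, w13, w23, hn0⟩ := h
  simp only at *
  obtain ⟨u, rfl⟩ := Nat.exists_eq_add_of_le am
  obtain ⟨x, rfl⟩ := Nat.exists_eq_add_of_le a12
  obtain ⟨y, rfl⟩ := Nat.exists_eq_add_of_le a13
  obtain ⟨z, rfl⟩ := Nat.exists_eq_add_of_le a23
  obtain ⟨al, rfl⟩ : ∃ al, k12 = a + u + x + al := ⟨k12 - (a + u + x), by omega⟩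
  obtain ⟨be, rfl⟩ : ∃ al, k13 = a + u + y + al := ⟨k13 - (a + u + y), by omega⟩
  obtain ⟨ga, rfl⟩ : ∃ al, k23 = a + u + z + al := ⟨k23 - (a + u + z), by omega⟩
  obtain ⟨q1, rfl⟩ : ∃ q, r1 = a + x + y + q := ⟨r1 - (a + x + y), by omega⟩
  obtain ⟨q2, rfl⟩ : ∃ q, r2 = a + x + z + q := ⟨r2 - (a + x + z), by omega⟩
  obtain ⟨q3, rfl⟩ : ∃ q, r3 = a + y + z + q := ⟨r3 - (a + y + z), by omega⟩
  obtain ⟨n0, hn0'⟩ : ∃ n0, n = a + u + x + y + z + al + be + ga + n0 :=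
    ⟨n - (a + u + x + y + z + al + be + ga), by omega⟩
  have hl := lin_aux hn (u := u) (n0 := n0)
    (D := (a : ℝ) + u + x + y + z + al + be + ga) (by rw [hn0']; push_cast; ring) (by omega)
  have W12 : (q1 : ℝ) + q2 ≤ be + ga + n0 := by exact_mod_cast (by omega : q1 + q2 ≤ be + ga + n0)
  have W13 : (q1 : ℝ) + q3 ≤ al + ga + n0 := by exact_mod_cast (by omega : q1 + q3 ≤ al + ga + n0)
  have W23 : (q2 : ℝ) + q3 ≤ al + be + n0 := by exact_mod_cast (by omega : q2 + q3 ≤ al + be + n0)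
  have hnr : (n : ℝ) = a + u + x + y + z + al + be + ga + n0 := by rw [hn0']; push_cast; ring
  have h0 := step_real0 (q1 := (q1 : ℝ)) (q2 := q2) (q3 := q3) hnr
  have h1 := step_real (Nat.cast_nonneg a) (Nat.cast_nonneg u) (Nat.cast_nonneg x)
    (Nat.cast_nonneg y) (Nat.cast_nonneg z) (Nat.cast_nonneg al) (Nat.cast_nonneg be)
    (Nat.cast_nonneg ga) (Nat.cast_nonneg q1) (Nat.cast_nonneg q2) (Nat.cast_nonneg q3)
    W12 W13 W23 hl he hd hed
  have E0 : ex n ⟨a + u, a + u + x + al, a + u + y + be, a + u + z + ga⟩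
      ⟨a, a + x, a + y, a + z, a + x + y + q1, a + x + z + q2, a + y + z + q3⟩ =
      a * (a + u) - a * n - a * (a + 1) / 2 + x * (a + u + al - n) + y * (a + u + be - n)
      + z * (a + u + ga - n) + (x + y + z) * (x + y + z - 1) / 2
      - (q1 * (q1 + 1) + q2 * (q2 + 1) + q3 * (q3 + 1)) / 2 := by
    simp only [ex]; push_cast; ring
  have E1 : cr n e ⟨a + x, a + u + x + al, a + x + y + q1, a + x + z + q2⟩ =
      ph n (a + x) (u + al) (y + q1) (z + q2)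
        + ((a + x) ^ 2 / 4 + e * (a + u + x + y + z + al + q1 + q2) ^ 2) := by
    simp only [cr, phs, dg, ph]; push_cast; ring
  have E2 : fc n d ⟨a + y, a + u + y + be, a + x + y + q1, a + y + z + q3⟩ =
      ph n (a + y) (u + be) (x + q1) (z + q3)
        + (- ((u + be) ^ 2 + (x + q1) ^ 2 + (z + q3) ^ 2) / 8 - (a + y) * (u + be + (x + q1)) / 4
        + d * (a + u + x + y + z + be + q1 + q3) ^ 2) := by
    simp only [fc, phs, dg, ph]; push_cast; ring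
  have E3 : fc n d ⟨a + z, a + u + z + ga, a + x + z + q2, a + y + z + q3⟩ =
      ph n (a + z) (u + ga) (x + q2) (y + q3)
        + (- ((u + ga) ^ 2 + (x + q2) ^ 2 + (y + q3) ^ 2) / 8 - (a + z) * (u + ga + (x + q2)) / 4
        + d * (a + u + x + y + z + ga + q2 + q3) ^ 2) := by
    simp only [fc, phs, dg, ph]; push_cast; ring
  have E4 : cr n (3 * e + 6 * d + 1 / (2 * n)) ⟨a + u, a + u + x + al, a + u + y + be,
      a + u + z + ga⟩ = ph n (a + u) (x + al) (y + be) (z + ga) + ((a + u) ^ 2 / 4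
        + (3 * e + 6 * d + 1 / (2 * n)) * (a + u + x + y + z + al + be + ga) ^ 2) := by
    simp only [cr, phs, dg, ph]; push_cast; ring
  simp only [St.s12, St.s13, St.s23]
  rw [E0, E1, E2, E3, E4]
  linarith

end Vale.Agent.P050
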