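import Vale.Agent.P050.Arith

/-! Face bounds and the root inequality. -/

namespace Vale.Agent.P050

/-- Constraints satisfied by every realised state. -/
structure SFeas (n : ℕ) (s : St) : Prop where
  m12 : s.m ≤ s.k12
  m13 : s.m ≤ s.k13
  m23 : s.m ≤ s.k23
  n0 : s.k12 + s.k13 + s.k23 ≤ n + 2 * s.m

lemma nat_mul_pred (t : ℕ) : (0 : ℝ) ≤ (t : ℝ) * (t - 1) := by
  rcases Nat.eq_zero_or_pos t with h | h
  · simp [h]
  · have : (1 : ℝ) ≤ t := by exact_mod_cast h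
    have : (0 : ℝ) ≤ (t : ℝ) - 1 := by linarith
    positivity

lemma face3_real {a u x y z al be ga t1 t2 t3 : ℝ}
    (ha : 0 ≤ a) (hu : 0 ≤ u) (hx : 0 ≤ x) (hy : 0 ≤ y) (hz : 0 ≤ z) (hal : 0 ≤ al)
    (hbe : 0 ≤ be) (hga : 0 ≤ ga) (h1 : 0 ≤ t1) (h2 : 0 ≤ t2) (h3 : 0 ≤ t3)
    (e1 : al + t1 + u = x + a) (e2 : be + t2 + u = y + a) (e3 : ga + t3 + u = z + a) :
    0 ≤ u / 2 * (a - u) + ((x + al) * t1 / 4 + (al - x) ^ 2 / 8)
      + ((y + be) * t2 / 4 + (be - y) ^ 2 / 8) + ((z + ga) * t3 / 4 + (ga - z) ^ 2 / 8)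
      + (a + u) * (z + ga) / 4 := by
  rcases le_total u a with h | h
  · have : 0 ≤ a - u := by linarith
    positivity
  · obtain ⟨j, hj, rfl⟩ : ∃ j, 0 ≤ j ∧ u = a + j := ⟨u - a, by linarith, by ring⟩
    have l1 : j ^ 2 ≤ (al - x) ^ 2 := by
      rw [← neg_sq (al - x)]; gcongr; linarith
    have l2 : j ^ 2 ≤ (be - y) ^ 2 := by
      rw [← neg_sq (be - y)]; gcongr; linarith
    have l3 : j ^ 2 ≤ (ga - z) ^ 2 := by
      rw [← neg_sq (ga - z)]; gcongr; linarith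
    have l4 : (a + (a + j)) * j ≤ (a + (a + j)) * (z + ga) := by gcongr; linarith
    have p1 : 0 ≤ (x + al) * t1 := by positivity
    have p2 : 0 ≤ (y + be) * t2 := by positivity
    have p3 : 0 ≤ (z + ga) * t3 := by positivity
    nlinarith [sq_nonneg j]

theorem face3_ineq {n r : ℕ} (hn : 0 < n) (hr : n = 2 * r) {s : St} {p : Pat} (h : Feas n s p)
    (hr1 : p.r1 = r) (hr2 : p.r2 = r) (hr3 : p.r3 = r) :
    ex n s p + 3 * (r * (r + 1) / 2) ≤ fc n (1 / (2 * n)) s := by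
  obtain ⟨m, k12, k13, k23⟩ := s
  obtain ⟨a, v12, v13, v23, r1, r2, r3⟩ := p
  obtain ⟨am, a12, a13, a23, h12, h13, h23, p1, p2, p3, w12, w13, w23, hn0⟩ := h
  simp only at *
  subst hr1 hr2 hr3
  obtain ⟨u, rfl⟩ := Nat.exists_eq_add_of_le am
  obtain ⟨x, rfl⟩ := Nat.exists_eq_add_of_le a12
  obtain ⟨y, rfl⟩ := Nat.exists_eq_add_of_le a13
  obtain ⟨z, rfl⟩ := Nat.exists_eq_add_of_le a23
  obtain ⟨al, rfl⟩ : ∃ al, k12 = a + u + x + al := ⟨k12 - (a + u + x), by omega⟩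
  obtain ⟨be, rfl⟩ : ∃ al, k13 = a + u + y + al := ⟨k13 - (a + u + y), by omega⟩
  obtain ⟨ga, rfl⟩ : ∃ al, k23 = a + u + z + al := ⟨k23 - (a + u + z), by omega⟩
  obtain ⟨t1, ht1⟩ : ∃ t, al + t + u = x + a := ⟨x + a - al - u, by omega⟩
  obtain ⟨t2, ht2⟩ : ∃ t, be + t + u = y + a := ⟨y + a - be - u, by omega⟩
  obtain ⟨t3, ht3⟩ : ∃ t, ga + t + u = z + a := ⟨z + a - ga - u, by omega⟩
  obtain ⟨n0, hn0'⟩ : ∃ n0, n = a + u + x + y + z + al + be + ga + n0 :=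
    ⟨n - (a + u + x + y + z + al + be + ga), by omega⟩
  have hl := lin_aux hn (u := u) (n0 := n0)
    (D := (a : ℝ) + u + x + y + z + al + be + ga) (by rw [hn0']; push_cast; ring) (by omega)
  have hnr : (n : ℝ) = a + u + x + y + z + al + be + ga + n0 := by rw [hn0']; push_cast; ring
  have hrr : (r3 : ℝ) = (a + u + x + y + z + al + be + ga + n0) / 2 := by
    rw [← hnr, hr]; push_cast; ring
  have e1 : (al : ℝ) + t1 + u = x + a := by exact_mod_cast ht1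
  have e2 : (be : ℝ) + t2 + u = y + a := by exact_mod_cast ht2
  have e3 : (ga : ℝ) + t3 + u = z + a := by exact_mod_cast ht3
  have k := face3_real (Nat.cast_nonneg a) (Nat.cast_nonneg u) (Nat.cast_nonneg x)
    (Nat.cast_nonneg y) (Nat.cast_nonneg z) (Nat.cast_nonneg al) (Nat.cast_nonneg be)
    (Nat.cast_nonneg ga) (Nat.cast_nonneg t1) (Nat.cast_nonneg t2) (Nat.cast_nonneg t3) e1 e2 e3
  have n1 := nat_mul_pred t1
  have n2 := nat_mul_pred t2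
  have n3 := nat_mul_pred t3
  have E : fc n (1 / (2 * n)) ⟨a + u, a + u + x + al, a + u + y + be, a + u + z + ga⟩
      - ex n ⟨a + u, a + u + x + al, a + u + y + be, a + u + z + ga⟩
        ⟨a, a + x, a + y, a + z, r3, r3, r3⟩ - 3 * (r3 * (r3 + 1) / 2) =
      1 / (2 * n) * ((a : ℝ) + u + x + y + z + al + be + ga) ^ 2 - u * (1 - n0) / 2
       + (u / 2 * (a - u) + ((x + al) * t1 / 4 + (al - x) ^ 2 / 8)
      + ((y + be) * t2 / 4 + (be - y) ^ 2 / 8) + ((z + ga) * t3 / 4 + (ga - z) ^ 2 / 8)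
      + (a + u) * (z + ga) / 4) + (t1 * (t1 - 1) + t2 * (t2 - 1) + t3 * (t3 - 1)) / 4 := by
    simp only [fc, ex, phs, dg]
    push_cast
    generalize (1 / (2 * (n : ℝ))) = c
    have f1 : (t1 : ℝ) = x + a - al - u := by linarith
    have f2 : (t2 : ℝ) = y + a - be - u := by linarith
    have f3 : (t3 : ℝ) = z + a - ga - u := by linarith
    rw [hnr, hrr, f1, f2, f3]
    ring
  linarith

theorem face2_ineq {n r k : ℕ} (hr : n = 2 * r) {p : Pat} (h : Feas n ⟨k, k, k, n⟩ p)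
    (hr1 : p.r1 = r) (hr2 : p.r2 = r) (hr3 : p.r3 = r) (h23 : p.v23 = r) (h12 : p.v12 = p.a)
    (h13 : p.v13 = p.a) :
    ex n ⟨k, k, k, n⟩ p + 2 * (r * (r + 1) / 2) ≤ (k : ℝ) ^ 2 / 8 + k / 4 := by
  obtain ⟨a, v12, v13, v23, r1, r2, r3⟩ := p
  obtain ⟨am, a12, a13, a23, -, -, -, p1, p2, p3, w12, w13, w23, hn0⟩ := h
  simp only at *
  subst hr1 hr2 hr3 h23 h12 h13
  obtain ⟨t, ht⟩ : ∃ t, k + t = 2 * v13 := ⟨2 * v13 - k, by omega⟩
  have h1 : (v13 : ℝ) = (k + t) / 2 := by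
    have : (k : ℝ) + t = 2 * v13 := by exact_mod_cast ht
    linarith
  have n1 := nat_mul_pred t
  have : (0 : ℝ) ≤ k * t := by positivity
  have : (0 : ℝ) ≤ t ^ 2 := by positivity
  simp only [ex]
  rw [hr]; push_cast
  rw [h1]
  nlinarith

lemma fc_lower {n : ℕ} {s : St} (h : SFeas n s) {e : ℝ} (he : 0 ≤ e) {k : ℕ}
    (hk : k = s.k12 ∨ k = s.k13 ∨ k = s.k23) : (k : ℝ) ^ 2 / 8 + k / 4 ≤ fc n e s := by
  obtain ⟨m, k12, k13, k23⟩ := s
  obtain ⟨h1, h2, h3, h4⟩ := h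
  simp only at *
  obtain ⟨b, rfl⟩ := Nat.exists_eq_add_of_le h1
  obtain ⟨c, rfl⟩ := Nat.exists_eq_add_of_le h2
  obtain ⟨d, rfl⟩ := Nat.exists_eq_add_of_le h3
  obtain ⟨n0, rfl⟩ : ∃ n0, n = m + b + c + d + n0 := ⟨n - (m + b + c + d), by omega⟩
  have hm : (0 : ℝ) ≤ m := by positivity
  have hb : (0 : ℝ) ≤ b := by positivity
  have hc : (0 : ℝ) ≤ c := by positivity
  have hd : (0 : ℝ) ≤ d := by positivity
  have h0 : (0 : ℝ) ≤ n0 := by positivity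
  have : 0 ≤ e * dg ⟨m, m + b, m + c, m + d⟩ ^ 2 := by positivity
  simp only [fc, phs]
  generalize e * dg ⟨m, m + b, m + c, m + d⟩ ^ 2 = t at *
  push_cast
  have := mul_nonneg hm hb
  have := mul_nonneg hm hc
  have := mul_nonneg hm hd
  have := mul_nonneg hm h0
  have := sq_nonneg (m : ℝ)
  have := sq_nonneg (b : ℝ)
  have := sq_nonneg (c : ℝ)
  have := sq_nonneg (d : ℝ)
  rcases hk with rfl | rfl | rfl <;> push_cast <;> nlinarith

lemma fc_nonneg {n : ℕ} {s : St} (h : SFeas n s) {e : ℝ} (he : 0 ≤ e) : 0 ≤ fc n e s :=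
  le_trans (by positivity) (fc_lower h he (Or.inl rfl))

lemma fc_le_cr {n : ℕ} {s : St} (h : SFeas n s) (e : ℝ) : fc n e s ≤ cr n e s := by
  obtain ⟨m, k12, k13, k23⟩ := s
  obtain ⟨h1, h2, h3, h4⟩ := h
  simp only at *
  obtain ⟨b, rfl⟩ := Nat.exists_eq_add_of_le h1
  obtain ⟨c, rfl⟩ := Nat.exists_eq_add_of_le h2
  simp only [fc, cr]
  push_cast
  have : (0 : ℝ) ≤ m * (b + c) := by positivity
  nlinarith [sq_nonneg (b : ℝ), sq_nonneg (c : ℝ), sq_nonneg ((k23 : ℝ) - m), sq_nonneg (m : ℝ)]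

/-- cost of a triple state -/
noncomputable def cost3 (n : ℕ) (s : St) : ℝ :=
  let m : ℝ := s.m
  let b : ℝ := s.k12 - m
  let c : ℝ := s.k13 - m
  let d : ℝ := s.k23 - m
  m * n + m + (b * (b + 1) + c * (c + 1) + d * (d + 1)) / 2

lemma root_ineq (n : ℕ) {s : St} (h : SFeas n s) {e d : ℝ} (he : 0 ≤ e) (hd : 0 ≤ d)
    (hed : e + d ≤ 1 / 32) : fc n d s + cr n e s ≤ cost3 n s := by
  obtain ⟨m, k12, k13, k23⟩ := s
  obtain ⟨h1, h2, h3, h4⟩ := h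
  simp only at *
  obtain ⟨b, rfl⟩ := Nat.exists_eq_add_of_le h1
  obtain ⟨c, rfl⟩ := Nat.exists_eq_add_of_le h2
  obtain ⟨f, rfl⟩ := Nat.exists_eq_add_of_le h3
  have hD : dg ⟨m, m + b, m + c, m + f⟩ ^ 2 ≤ 4 * (m ^ 2 + b ^ 2 + c ^ 2 + f ^ 2) := by
    simp only [dg]; push_cast
    nlinarith [sq_nonneg ((m : ℝ) - b), sq_nonneg ((m : ℝ) - c), sq_nonneg ((m : ℝ) - f),
      sq_nonneg ((b : ℝ) - c), sq_nonneg ((b : ℝ) - f), sq_nonneg ((c : ℝ) - f)]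
  have h5 : (e + d) * dg ⟨m, m + b, m + c, m + f⟩ ^ 2
      ≤ 1 / 32 * (4 * (m ^ 2 + b ^ 2 + c ^ 2 + f ^ 2)) := by gcongr
  simp only [fc, cr, phs, cost3]
  generalize dg ⟨m, m + b, m + c, m + f⟩ ^ 2 = t at *
  push_cast
  have : (0 : ℝ) ≤ m * (b + c) := by positivity
  have : (0 : ℝ) ≤ m := by positivity
  nlinarith [sq_nonneg (m : ℝ)]

end Vale.Agent.P050
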