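import Vale.Agent.P050.Quad

/-! Uniform averages over finite types. -/

namespace Vale.Agent.P050

open Finset

variable {α β : Type*} [Fintype α] [Fintype β]

/-- uniform average -/
noncomputable def av (f : α → ℝ) : ℝ := (∑ a, f a) / Fintype.card α

lemma av_mono {f g : α → ℝ} (h : ∀ a, f a ≤ g a) : av f ≤ av g :=
  div_le_div_of_nonneg_right (sum_le_sum fun a _ => h a) (Nat.cast_nonneg _)

lemma av_congr {f g : α → ℝ} (h : ∀ a, f a = g a) : av f = av g := by rw [funext h]

lemma av_nonneg {f : α → ℝ} (h : ∀ a, 0 ≤ f a) : 0 ≤ av f :=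
  div_nonneg (sum_nonneg fun a _ => h a) (Nat.cast_nonneg _)

lemma av_const [Nonempty α] (c : ℝ) : av (fun _ : α => c) = c := by
  have : (Fintype.card α : ℝ) ≠ 0 := by exact_mod_cast Fintype.card_ne_zero
  simp [av]

lemma av_add (f g : α → ℝ) : av (fun a => f a + g a) = av f + av g := by
  simp [av, sum_add_distrib, add_div]

lemma av_sub (f g : α → ℝ) : av (fun a => f a - g a) = av f - av g := by
  simp [av, sum_sub_distrib, sub_div]

lemma av_mul_left (c : ℝ) (f : α → ℝ) : av (fun a => c * f a) = c * av f := by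
  simp [av, ← mul_sum, mul_div_assoc]

lemma av_mul_right (c : ℝ) (f : α → ℝ) : av (fun a => f a * c) = av f * c := by
  simp only [mul_comm _ c, av_mul_left]

lemma av_sum {γ : Type*} (s : Finset γ) (f : γ → α → ℝ) :
    av (fun a => ∑ i ∈ s, f i a) = ∑ i ∈ s, av (f i) := by
  simp only [av]
  rw [sum_comm, sum_div]

lemma av_comm (f : α → β → ℝ) : av (fun a => av (f a)) = av (fun b => av (fun a => f a b)) := by
  simp only [av, ← sum_div]
  rw [sum_comm, div_div, div_div, mul_comm]

lemma av_prod (f : α × β → ℝ) : av f = av (fun a => av (fun b => f (a, b))) := by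
  simp only [av, ← sum_div, Fintype.sum_prod_type, Fintype.card_prod, div_div]
  push_cast
  rw [mul_comm]

lemma av_equiv (e : α ≃ β) (f : β → ℝ) : av (fun a => f (e a)) = av f := by
  simp only [av, Equiv.sum_comp e f, Fintype.card_congr e]

lemma av_le_const [Nonempty α] {f : α → ℝ} {c : ℝ} (h : ∀ a, f a ≤ c) : av f ≤ c :=
  (av_mono h).trans (av_const c).le

lemma abs_av_le (f : α → ℝ) : |av f| ≤ av (fun a => |f a|) := by
  simp only [av, abs_div, Nat.abs_cast]
  exact div_le_div_of_nonneg_right (abs_sum_le_sum_abs _ _) (Nat.cast_nonneg _)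

lemma av_ite (P : α → Prop) [DecidablePred P] :
    av (fun a => if P a then (1 : ℝ) else 0) = nv P / Fintype.card α := by
  rw [av, nv_eq_sum]; push_cast; rfl

lemma av_sq_le [Nonempty α] (f : α → ℝ) : av f ^ 2 ≤ av (fun a => f a ^ 2) := by
  have h := av_nonneg (f := fun a => (f a - av f) ^ 2) fun a => sq_nonneg _
  have e : av (fun a => (f a - av f) ^ 2) = av (fun a => f a ^ 2) - av f ^ 2 := by
    rw [av_congr (g := fun a => (f a ^ 2 - (2 * av f) * f a) + av f ^ 2) fun a => by ring,
      av_add, av_sub, av_mul_left, av_const]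
    ring
  linarith

lemma av_add_left {G : Type*} [AddGroup G] [Fintype G] (c : G) (f : G → ℝ) :
    av (fun a => f (c + a)) = av f := av_equiv (Equiv.addLeft c) f

lemma av_add_right {G : Type*} [AddGroup G] [Fintype G] (c : G) (f : G → ℝ) :
    av (fun a => f (a + c)) = av f := av_equiv (Equiv.addRight c) f

lemma av_sub_left {G : Type*} [AddGroup G] [Fintype G] (c : G) (f : G → ℝ) :
    av (fun a => f (c - a)) = av f := av_equiv (Equiv.subLeft c) f

lemma av_pi_prod {ι : Type*} [Fintype ι] [DecidableEq ι] (f : ι → α → ℝ) :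
    av (fun x : ι → α => ∏ i, f i (x i)) = ∏ i, av (f i) := by
  simp only [av, prod_div_distrib, prod_univ_sum, Fintype.piFinset_univ, prod_const, card_univ,
    Fintype.card_fun]
  push_cast
  rfl

lemma av_fin_succ {k : ℕ} (f : (Fin (k + 1) → α) → ℝ) :
    av f = av (fun a => av (fun x : Fin k → α => f (Fin.cons a x))) := by
  rw [← av_equiv (Fin.consEquiv fun _ => α) f, av_prod]
  rfl

lemma av_update {ι : Type*} [Fintype ι] [DecidableEq ι] [Nonempty α] (i : ι)
    (f : (ι → α) → ℝ) : av f = av (fun x => av (fun u => f (Function.update x i u))) := by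
  let e : (ι → α) × α ≃ (ι → α) × α :=
    ⟨fun p => (Function.update p.1 i p.2, p.1 i), fun p => (Function.update p.1 i p.2, p.1 i),
      fun p => by simp, fun p => by simp⟩
  have h1 := av_equiv e (fun p => f p.1)
  rw [av_prod, av_prod] at h1
  simp only [av_const] at h1
  exact h1.symm

end Vale.Agent.P050
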