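import Vale.Agent.P050.Lag4
import Vale.Agent.P050.Av

/-! The affine chart of symmetric matrices. -/

namespace Vale.Agent.P050

open Module Submodule Finset Matrix

variable {F : Type*} [Field F] {ι : Type*} [Fintype ι] [DecidableEq ι]

/-- symmetric matrices, by their entries -/
abbrev Sy (ι F : Type*) := Sym2 ι → F

def mat (x : Sy ι F) : Matrix ι ι F := Matrix.of fun i j => x s(i, j)

omit [Field F] [Fintype ι] [DecidableEq ι] in
lemma mat_symm (x : Sy ι F) : (mat x)ᵀ = mat x := by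
  ext i j; simp [mat, Sym2.eq_swap]

omit [Fintype ι] [DecidableEq ι] in
lemma mat_sub (x y : Sy ι F) : mat (x - y) = mat x - mat y := rfl

omit [Fintype ι] [DecidableEq ι] in
lemma mat_add (x y : Sy ι F) : mat (x + y) = mat x + mat y := rfl

omit [Fintype ι] [DecidableEq ι] in
lemma mat_neg (x : Sy ι F) : mat (-x) = -mat x := rfl

omit [Fintype ι] [DecidableEq ι] in
lemma mat_smul (c : F) (x : Sy ι F) : mat (c • x) = c • mat x := rfl

omit [Field F] [Fintype ι] [DecidableEq ι] in
lemma mat_inj {x y : Sy ι F} (h : mat x = mat y) : x = y := by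
  funext e
  induction e using Sym2.ind with
  | _ i j => exact congrFun (congrFun h i) j

def ofSym (M : Matrix ι ι F) (h : Mᵀ = M) : Sy ι F :=
  Sym2.lift ⟨fun i j => M i j, fun i j => (congrFun (congrFun h i) j).symm⟩

omit [Field F] [Fintype ι] [DecidableEq ι] in
lemma mat_ofSym (M : Matrix ι ι F) (h : Mᵀ = M) : mat (ofSym M h) = M := rfl

/-- the standard symplectic form -/
def om (ι F : Type*) [Field F] [Fintype ι] : LinearMap.BilinForm F ((ι → F) × (ι → F)) :=
  LinearMap.mk₂ F (fun a b => a.2 ⬝ᵥ b.1 - a.1 ⬝ᵥ b.2)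
    (fun a b c => by simp [add_dotProduct]; ring) (fun c a b => by simp [mul_sub])
    (fun a b c => by simp [dotProduct_add]; ring) (fun c a b => by simp [mul_sub])

omit [DecidableEq ι] in
lemma om_apply (a b : (ι → F) × (ι → F)) : om ι F a b = a.2 ⬝ᵥ b.1 - a.1 ⬝ᵥ b.2 := rfl

lemma om_sp : Sp (om ι F) (Fintype.card ι) := by
  refine ⟨fun v => by rw [om_apply, dotProduct_comm, sub_self], ⟨fun a h => ?_, fun a h => ?_⟩, ?_⟩
  · ext i
    · simpa [om_apply] using h (0, Pi.single i 1)
    · simpa [om_apply] using h (Pi.single i 1, 0)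
  · ext i
    · simpa [om_apply] using h (0, Pi.single i 1)
    · simpa [om_apply] using h (Pi.single i 1, 0)
  · simp [two_mul]

/-- graph of a symmetric matrix -/
def gr (x : Sy ι F) : Submodule F ((ι → F) × (ι → F)) := (mat x).mulVecLin.graph

omit [DecidableEq ι] in
lemma mem_gr {x : Sy ι F} {a : (ι → F) × (ι → F)} : a ∈ gr x ↔ a.2 = mat x *ᵥ a.1 := Iff.rfl

/-- corank -/
noncomputable def cork (x : Sy ι F) : ℕ := dm (LinearMap.ker (mat x).mulVecLin)

omit [DecidableEq ι] in
lemma dm_gr_inf (x y : Sy ι F) : dm (gr x ⊓ gr y) = cork (x - y) := by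
  have hinj : Function.Injective (LinearMap.id.prod (mat x).mulVecLin) :=
    fun u v h => congrArg Prod.fst h
  have : gr x ⊓ gr y = (LinearMap.ker (mat (x - y)).mulVecLin).map
      (LinearMap.id.prod (mat x).mulVecLin) := by
    ext a
    simp only [Submodule.mem_inf, mem_gr, Submodule.mem_map, LinearMap.mem_ker, mulVecLin_apply,
      mat_sub, sub_mulVec, sub_eq_zero]
    constructor
    · rintro ⟨h1, h2⟩
      exact ⟨a.1, h1 ▸ h2, Prod.ext rfl h1.symm⟩
    · rintro ⟨u, hu, rfl⟩
      exact ⟨rfl, hu⟩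
  rw [this, dm, cork, dm]
  exact (Submodule.equivMapOfInjective _ hinj _).finrank_eq.symm

omit [DecidableEq ι] in
lemma gr_lag (x : Sy ι F) : Lag (om ι F) (Fintype.card ι) (gr x) := by
  constructor
  · intro a ha b hb
    rw [mem_gr] at ha hb
    rw [om_apply, ha, hb, dotProduct_mulVec, ← mulVec_transpose, mat_symm, sub_self]
  · have := dm_gr_inf x x
    rw [inf_idem, sub_self] at this
    rw [this, cork]
    have : (mat (0 : Sy ι F)).mulVecLin = 0 := by
      rw [show mat (0 : Sy ι F) = 0 from rfl]; simp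
    rw [this, LinearMap.ker_zero, dm]
    simp

lemma gr_inj {x y : Sy ι F} (h : gr x = gr y) : x = y := by
  apply mat_inj
  ext i j
  have : (Pi.single j 1, mat x *ᵥ Pi.single j 1) ∈ gr y := h ▸ mem_gr.2 rfl
  simpa using congrFun (mem_gr.1 this) i

lemma cork_eq_zero {x : Sy ι F} : cork x = 0 ↔ (mat x).det ≠ 0 := by
  rw [cork, dm, Submodule.finrank_eq_zero, ne_eq, ← Matrix.exists_mulVec_eq_zero_iff,
    LinearMap.ker_eq_bot']
  simp only [mulVecLin_apply, not_exists, not_and]
  exact ⟨fun h v hv h0 => hv (h v h0), fun h v h0 => by_contra fun hv => h v hv h0⟩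

variable [Fintype F]

omit [Field F] in
lemma card_Sy : (Fintype.card (Sy ι F) : ℝ)
    = qp F ((Fintype.card ι : ℝ) * (Fintype.card ι + 1) / 2) := by
  rw [Fintype.card_fun, Sym2.card, Nat.cast_pow, ← qp_nat, Nat.cast_choose_two]
  congr 1
  push_cast
  ring

lemma nv_gr_le (P : Submodule F ((ι → F) × (ι → F)) → Prop) :
    nv (fun y : Sy ι F => P (gr y)) ≤ nv (fun L => Lag (om ι F) (Fintype.card ι) L ∧ P L) := by
  classical
  unfold nv
  refine card_le_card_of_injOn gr (fun y hy => ?_) fun x _ y _ h => gr_inj h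
  simp only [coe_filter, mem_univ, true_and, Set.mem_ofPred_eq] at hy ⊢
  exact ⟨gr_lag y, hy⟩

open Classical in
/-- all patterns with entries at most `n` -/
noncomputable def PS (n : ℕ) : Finset Pat :=
  (Fintype.piFinset fun _ : Fin 7 => range (n + 1)).image
    fun f => ⟨f 0, f 1, f 2, f 3, f 4, f 5, f 6⟩

/-- the constant in the counting lemma -/
noncomputable def KK (n : ℕ) : ℝ := (PS n).card * 6 ^ n

lemma KK_nonneg (n : ℕ) : 0 ≤ KK n := by unfold KK; positivity

omit [Fintype F] in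
lemma pat_mem_PS (A B C : Submodule F ((ι → F) × (ι → F))) (y : Sy ι F) :
    pat A B C (gr y) ∈ PS (Fintype.card ι) := by
  classical
  have h : ∀ X, dm (X ⊓ gr y) < Fintype.card ι + 1 := fun X =>
    Nat.lt_succ_of_le (((gr_lag y).iso.mono inf_le_right).dim_le om_sp)
  refine mem_image.2 ⟨![dm (A ⊓ B ⊓ C ⊓ gr y), dm (A ⊓ B ⊓ gr y), dm (A ⊓ C ⊓ gr y),
    dm (B ⊓ C ⊓ gr y), dm (A ⊓ gr y), dm (B ⊓ gr y), dm (C ⊓ gr y)], ?_, rfl⟩
  rw [Fintype.mem_piFinset]
  intro i
  fin_cases i <;> exact mem_range.2 (h _)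

/-- state of a triple of symmetric matrices -/
noncomputable def sx (x y z : Sy ι F) : St := st (gr x) (gr y) (gr z)

/-- pattern of a fourth symmetric matrix -/
noncomputable def px (x y z w : Sy ι F) : Pat := pat (gr x) (gr y) (gr z) (gr w)

theorem av_pat (h2 : (2 : F) ≠ 0) (x y z : Sy ι F) :
    av (fun w => qp F (- ex (Fintype.card ι) (sx x y z) (px x y z w))) ≤ KK (Fintype.card ι) := by
  classical
  have hpos : (0 : ℝ) < Fintype.card (Sy ι F) := by rw [card_Sy]; exact qp_pos _
  rw [av, div_le_iff₀ hpos,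
    ← sum_fiberwise_of_maps_to (s := univ) (t := PS (Fintype.card ι)) (g := px x y z)
      fun w _ => pat_mem_PS _ _ _ w, KK, mul_assoc, ← nsmul_eq_mul]
  refine sum_le_card_nsmul _ _ _ fun p _ => ?_
  rw [sum_congr rfl (g := fun _ => qp F (- ex (Fintype.card ι) (sx x y z) p))
    fun w hw => by rw [(mem_filter.1 hw).2], sum_const, nsmul_eq_mul]
  have h1 := cnt_pat h2 om_sp (gr_lag x) (gr_lag y) (gr_lag z) p
  have h3 : ((univ.filter fun w => px x y z w = p).card : ℝ) ≤
      nv (fun L => Lag (om ι F) (Fintype.card ι) L ∧ pat (gr x) (gr y) (gr z) L = p) := by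
    have := nv_gr_le (F := F) (ι := ι) (fun L => pat (gr x) (gr y) (gr z) L = p)
    have e : (univ.filter fun w => px x y z w = p).card
        = nv (fun w : Sy ι F => pat (gr x) (gr y) (gr z) (gr w) = p) := by
      unfold nv px; congr
    rw [e]
    exact_mod_cast this
  refine le_trans (mul_le_mul_of_nonneg_right (h3.trans h1) (qp_pos _).le) (le_of_eq ?_)
  rw [card_Sy, mul_assoc, ← qp_add, sx]
  congr 2
  ring

lemma av_le_of_pat (h2 : (2 : F) ≠ 0) (x y z : Sy ι F) {f : Sy ι F → ℝ} {c : ℝ}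
    (h : ∀ w, f w ≤ qp F (c - ex (Fintype.card ι) (sx x y z) (px x y z w))) :
    av f ≤ KK (Fintype.card ι) * qp F c := by
  refine (av_mono h).trans ?_
  simp only [sub_eq_add_neg, qp_add]
  rw [av_mul_left, mul_comm]
  exact mul_le_mul_of_nonneg_right (av_pat h2 x y z) (qp_pos c).le

omit [Fintype F] in
lemma px_feas (x y z w : Sy ι F) : Feas (Fintype.card ι) (sx x y z) (px x y z w) :=
  pat_feas om_sp (gr_lag x).iso (gr_lag y).iso (gr_lag z).iso (gr_lag w).iso

omit [Fintype F] in
lemma sx_feas (x y z : Sy ι F) : SFeas (Fintype.card ι) (sx x y z) :=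
  st_feas om_sp (gr_lag x).iso (gr_lag y).iso (gr_lag z).iso

/-- The step of the recursion. -/
theorem av_step (h2 : (2 : F) ≠ 0) (hn : 0 < Fintype.card ι) (x y z : Sy ι F) {e d : ℝ}
    (he : 0 ≤ e) (hd : 0 ≤ d) (hed : 3 * e + 3 * d ≤ 1 / 8) :
    av (fun w => qp F (cr (Fintype.card ι) e (sx x y w)) * qp F (fc (Fintype.card ι) d (sx x z w))
      * qp F (fc (Fintype.card ι) d (sx y z w)))
      ≤ KK (Fintype.card ι)
        * qp F (cr (Fintype.card ι) (3 * e + 6 * d + 1 / (2 * Fintype.card ι)) (sx x y z)) := by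
  refine av_le_of_pat h2 x y z fun w => ?_
  rw [← qp_add, ← qp_add]
  refine qp_mono ?_
  have := step_ineq hn (px_feas x y z w) he hd hed
  have e1 : (sx x y z).s12 (px x y z w) = sx x y w := rfl
  have e2 : (sx x y z).s13 (px x y z w) = sx x z w := rfl
  have e3 : (sx x y z).s23 (px x y z w) = sx y z w := rfl
  rw [e1, e2, e3] at this
  linarith

lemma av_cork (h2 : (2 : F) ≠ 0) (x : Sy ι F) :
    av (fun w => qp F ((cork (x - w) : ℝ) * (cork (x - w) + 1) / 2)) ≤ KK (Fintype.card ι) := by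
  have := av_le_of_pat h2 x x x (c := 0)
    (f := fun w => qp F ((cork (x - w) : ℝ) * (cork (x - w) + 1) / 2)) fun w => qp_mono (by
      simp only [ex, sx, px, st, pat, inf_idem, (gr_lag x).dim, dm_gr_inf]
      apply le_of_eq; ring)
  simpa [qp_zero] using this

lemma av_cost (h2 : (2 : F) ≠ 0) (x y : Sy ι F) :
    av (fun w => qp F (cost3 (Fintype.card ι) (sx x y w)))
      ≤ KK (Fintype.card ι) * qp F ((cork (x - y) : ℝ) * (cork (x - y) + 1) / 2) := by
  refine av_le_of_pat h2 x y y fun w => qp_mono ?_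
  simp only [ex, cost3, sx, px, st, pat, inf_idem, inf_assoc, (gr_lag y).dim, dm_gr_inf]
  apply le_of_eq; ring

open Classical in
lemma av_sing (h2 : (2 : F) ≠ 0) :
    av (fun w : Sy ι F => if (mat w).det = 0 then (1 : ℝ) else 0)
      ≤ KK (Fintype.card ι) / Fintype.card F := by
  have h := av_cork (ι := ι) h2 0
  have hq := two_le_q (F := F)
  rw [le_div_iff₀ (by linarith), ← av_mul_right]
  refine le_trans (av_mono fun w => ?_) ((av_sub_left 0
    (fun w => qp F ((cork w : ℝ) * (cork w + 1) / 2))).symm.le.trans h)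
  split_ifs with hw
  · have : cork w ≠ 0 := fun h => cork_eq_zero.1 h hw
    have h1 : (1 : ℝ) ≤ cork w := by exact_mod_cast Nat.one_le_iff_ne_zero.2 this
    rw [one_mul, ← qp_one]
    exact qp_mono (by nlinarith)
  · simpa using (qp_pos _).le

end Vale.Agent.P050
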