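import Mathlib

/-! The triangulation: eight points, twelve faces, eighteen edges. -/

namespace Vale.Agent.P050

/-- the points of each face -/
def fv : Fin 12 → Fin 3 → Fin 8 :=
  ![![0, 1, 2], ![0, 2, 3], ![1, 2, 3], ![0, 3, 4], ![1, 3, 4], ![0, 4, 5], ![1, 4, 5],
    ![0, 1, 6], ![5, 1, 6], ![0, 6, 7], ![5, 6, 7], ![0, 5, 7]]

abbrev Cor := Fin 12 × Fin 3

def ea : Fin 18 → Fin 8 := ![0, 0, 0, 0, 0, 0, 0, 1, 1, 1, 1, 1, 2, 3, 4, 5, 5, 6]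
def eb : Fin 18 → Fin 8 := ![1, 2, 3, 4, 5, 6, 7, 2, 3, 4, 5, 6, 3, 4, 5, 6, 7, 7]

/-- the two sides of an edge, each given by the opposite corner -/
def sd : Fin 18 → Fin 2 → Cor :=
  ![![(0, 2), (7, 2)], ![(0, 1), (1, 2)], ![(1, 1), (3, 2)], ![(3, 1), (5, 2)],
    ![(5, 1), (11, 2)], ![(7, 1), (9, 2)], ![(9, 1), (11, 1)], ![(0, 0), (2, 2)],
    ![(2, 1), (4, 2)], ![(4, 1), (6, 2)], ![(6, 1), (8, 2)], ![(7, 0), (8, 0)],
    ![(1, 0), (2, 0)], ![(3, 0), (4, 0)], ![(5, 0), (6, 0)], ![(8, 1), (10, 2)],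
    ![(10, 1), (11, 0)], ![(9, 0), (10, 0)]]

/-- the edge opposite to a corner -/
def eo : Fin 12 → Fin 3 → Fin 18 :=
  ![![7, 1, 0], ![12, 2, 1], ![12, 8, 7], ![13, 3, 2], ![13, 9, 8], ![14, 4, 3], ![14, 10, 9],
    ![11, 5, 0], ![11, 15, 10], ![17, 6, 5], ![17, 16, 15], ![16, 6, 4]]

def si : Fin 12 → Fin 3 → Fin 2 :=
  ![![0, 0, 0], ![0, 0, 1], ![1, 0, 1], ![0, 0, 1], ![1, 0, 1], ![0, 0, 1], ![1, 0, 1],
    ![0, 0, 1], ![1, 0, 1], ![0, 0, 1], ![1, 0, 1], ![1, 1, 1]]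

/-- the face across the edge opposite to a corner -/
def ac : Fin 12 → Fin 3 → Fin 12 :=
  ![![2, 1, 7], ![2, 3, 0], ![1, 4, 0], ![4, 5, 1], ![3, 6, 2], ![6, 11, 3], ![5, 8, 4],
    ![8, 9, 0], ![7, 10, 6], ![10, 11, 7], ![9, 11, 8], ![10, 9, 5]]

def sdE : Fin 18 × Fin 2 ≃ Cor where
  toFun p := sd p.1 p.2
  invFun c := (eo c.1 c.2, si c.1 c.2)
  left_inv := by decide +kernel
  right_inv := by decide +kernel

lemma eo_sd : ∀ e s, eo (sd e s).1 (sd e s).2 = e := by decide +kernel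

lemma eo_ends : ∀ j k, (fv j (k + 1) = ea (eo j k) ∧ fv j (k + 2) = eb (eo j k)) ∨
    (fv j (k + 1) = eb (eo j k) ∧ fv j (k + 2) = ea (eo j k)) := by decide +kernel

lemma ea_ne_eb : ∀ e, ea e ≠ eb e := by decide +kernel

lemma edge_simple : ∀ e e', e' ≠ e → (ea e' ≠ eb e ∧ eb e' ≠ eb e) ∨
    (ea e' ≠ ea e ∧ eb e' ≠ ea e) := by decide +kernel

lemma prod_cor {M : Type*} [CommMonoid M] (f : Cor → M) :
    ∏ c, f c = ∏ e, (f (sd e 0) * f (sd e 1)) := by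
  rw [← Equiv.prod_comp sdE, Fintype.prod_prod_type]
  exact Finset.prod_congr rfl fun e _ => Fin.prod_univ_two _

end Vale.Agent.P050
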