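import Vale.Agent.P050.Face
import Vale.Agent.P050.Tri

/-! The bound for singular configurations. -/

namespace Vale.Agent.P050

open Module Submodule Finset Matrix

variable {F : Type*} [Field F] [Fintype F] {ι : Type*} [Fintype ι] [DecidableEq ι]

/-- face weight -/
noncomputable def fw (x y z : Sy ι F) : ℝ :=
  qp F (fc (Fintype.card ι) (1 / Fintype.card ι) (sx x y z))

/-- carried weight -/
noncomputable def cw (c : ℝ) (x y z : Sy ι F) : ℝ :=
  qp F (cr (Fintype.card ι) (c / Fintype.card ι) (sx x y z))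

omit [DecidableEq ι] in
lemma fw_pos (x y z : Sy ι F) : 0 < fw x y z := qp_pos _

omit [DecidableEq ι] in
lemma cw_swap (c : ℝ) (x y z : Sy ι F) : cw c x y z = cw c x z y := by
  unfold cw
  congr 1
  simp only [cr, phs, dg, sx, st, inf_comm (gr z) (gr y), inf_right_comm (gr x) (gr z) (gr y)]
  ring

lemma chain (h2 : (2 : F) ≠ 0) (hn : 40000 ≤ Fintype.card ι) (c c' : ℝ) (k : ℕ) (hc0 : 0 ≤ c)
    (hc : c ≤ 1000) (hc' : c' = 3 * c + 13 / 2) (x y z : Sy ι F) {G : Sy ι F → ℝ}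
    (hG : ∀ w, G w ≤ KK (Fintype.card ι) ^ k * cw c x y w) :
    av (fun w => G w * fw x z w * fw y z w)
      ≤ KK (Fintype.card ι) ^ (k + 1) * cw c' x y z := by
  have hM : 0 ≤ KK (Fintype.card ι) ^ k := pow_nonneg (KK_nonneg _) k
  rw [hc', pow_succ]
  generalize KK (Fintype.card ι) ^ k = M at *
  have hn' : (40000 : ℝ) ≤ Fintype.card ι := by exact_mod_cast hn
  have h := av_step h2 (by omega) x y z (e := c / Fintype.card ι) (d := 1 / Fintype.card ι)
    (by positivity) (by positivity) (by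
      rw [← mul_add, ← add_div, ← mul_div_assoc, div_le_iff₀ (by linarith)]; linarith)
  have e : 3 * (c / Fintype.card ι) + 6 * (1 / Fintype.card ι) + 1 / (2 * (Fintype.card ι : ℝ))
      = (3 * c + 13 / 2) / Fintype.card ι := by
    field_simp; ring
  rw [e] at h
  rw [mul_assoc]
  refine le_trans (av_mono fun w => ?_) (le_trans (av_mul_left M _).le
    (mul_le_mul_of_nonneg_left h hM))
  have := mul_le_mul_of_nonneg_right (hG w) (mul_pos (fw_pos x z w) (fw_pos y z w)).le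
  simp only [cw, fw] at this ⊢
  linarith

theorem degen_nested (h2 : (2 : F) ≠ 0) (hn : 40000 ≤ Fintype.card ι) :
    av (fun x0 : Sy ι F => av fun x1 => av fun x2 => fw x0 x1 x2 * av fun x3 =>
      (av fun x4 => (av fun x5 => (av fun x6 => (av fun x7 =>
        fw x0 x5 x7 * fw x0 x6 x7 * fw x5 x6 x7) * fw x0 x1 x6 * fw x5 x1 x6)
        * fw x0 x4 x5 * fw x1 x4 x5) * fw x0 x3 x4 * fw x1 x3 x4) * fw x0 x2 x3 * fw x1 x2 x3)
      ≤ KK (Fintype.card ι) ^ 7 := by
  have hK := KK_nonneg (Fintype.card ι)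
  have hn' : (40000 : ℝ) ≤ Fintype.card ι := by exact_mod_cast hn
  refine av_le_const fun x0 => ?_
  have k : ∀ x1 x2 : Sy ι F, (av fun x3 =>
      (av fun x4 => (av fun x5 => (av fun x6 => (av fun x7 =>
        fw x0 x5 x7 * fw x0 x6 x7 * fw x5 x6 x7) * fw x0 x1 x6 * fw x5 x1 x6)
        * fw x0 x4 x5 * fw x1 x4 x5) * fw x0 x3 x4 * fw x1 x3 x4) * fw x0 x2 x3 * fw x1 x2 x3)
      ≤ KK (Fintype.card ι) ^ 5 * cw (2059 / 2) x0 x1 x2 := by
    intro x1 x2
    refine chain h2 hn 341 _ 4 (by norm_num) (by norm_num) (by norm_num) x0 x1 x2 fun x3 => ?_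
    refine chain h2 hn (223 / 2) _ 3 (by norm_num) (by norm_num) (by norm_num) x0 x1 x3
      fun x4 => ?_
    refine chain h2 hn 35 _ 2 (by norm_num) (by norm_num) (by norm_num) x0 x1 x4 fun x5 => ?_
    rw [cw_swap]
    refine chain h2 hn (19 / 2) _ 1 (by norm_num) (by norm_num) (by norm_num) x0 x5 x1
      fun x6 => ?_
    refine chain h2 hn 1 _ 0 (by norm_num) (by norm_num) (by norm_num) x0 x5 x6 fun x7 => ?_
    rw [pow_zero, one_mul]
    exact qp_mono (fc_le_cr (sx_feas _ _ _) _)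
  have k2 : ∀ x1 x2 : Sy ι F, fw x0 x1 x2 * cw (2059 / 2) x0 x1 x2
      ≤ qp F (cost3 (Fintype.card ι) (sx x0 x1 x2)) := by
    intro x1 x2
    rw [fw, cw, ← qp_add]
    refine qp_mono (root_ineq _ (sx_feas _ _ _) (by positivity) (by positivity) ?_)
    rw [← add_div, div_le_iff₀ (by linarith)]; linarith
  calc _ ≤ av fun x1 => KK (Fintype.card ι) ^ 6
        * qp F ((cork (x0 - x1) : ℝ) * (cork (x0 - x1) + 1) / 2) := by
        refine av_mono fun x1 => ?_
        refine le_trans (av_mono (g := fun x2 => KK (Fintype.card ι) ^ 5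
          * qp F (cost3 (Fintype.card ι) (sx x0 x1 x2))) fun x2 => ?_) ?_
        · refine (mul_le_mul_of_nonneg_left (k x1 x2) (fw_pos _ _ _).le).trans ?_
          rw [mul_left_comm]
          exact mul_le_mul_of_nonneg_left (k2 x1 x2) (by positivity)
        · rw [av_mul_left, pow_succ _ 5, mul_assoc]
          exact mul_le_mul_of_nonneg_left (av_cost h2 x0 x1) (by positivity)
    _ ≤ _ := by
        rw [av_mul_left, pow_succ _ 6]
        exact mul_le_mul_of_nonneg_left (av_cork h2 x0) (by positivity)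

theorem degen_flat (h2 : (2 : F) ≠ 0) (hn : 40000 ≤ Fintype.card ι) :
    av (fun x : Fin 8 → Sy ι F => ∏ j, fw (x (fv j 0)) (x (fv j 1)) (x (fv j 2)))
      ≤ KK (Fintype.card ι) ^ 7 := by
  refine le_trans (le_of_eq ?_) (degen_nested h2 hn)
  have e : ∀ x : Fin 8 → Sy ι F, ∏ j, fw (x (fv j 0)) (x (fv j 1)) (x (fv j 2)) =
      fw (x 0) (x 1) (x 2) * (fw (x 0) (x 5) (x 7) * fw (x 0) (x 6) (x 7) * fw (x 5) (x 6) (x 7)
        * fw (x 0) (x 1) (x 6) * fw (x 5) (x 1) (x 6) * fw (x 0) (x 4) (x 5) * fw (x 1) (x 4) (x 5)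
        * fw (x 0) (x 3) (x 4) * fw (x 1) (x 3) (x 4) * fw (x 0) (x 2) (x 3)
        * fw (x 1) (x 2) (x 3)) := by
    intro x
    simp [Fin.prod_univ_succ, fv]
    left
    ring
  simp only [← av_mul_left, ← av_mul_right, e]
  iterate 8 (rw [av_fin_succ]; refine av_congr fun _ => ?_)
  refine Eq.trans (av_congr fun x => ?_) (av_const (α := Fin 0 → Sy ι F) _)
  rfl

end Vale.Agent.P050
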