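import Vale.Agent.P050.Av

/-! From a weighted kernel to a finite simple graph. -/

namespace Vale.Agent.P050

open Finset

/-- homomorphism density of an edge list in a weighted kernel -/
noncomputable def tW {X V E : Type*} [Fintype X] [Fintype V] [DecidableEq V] [Fintype E]
    (a b : E → V) (p : X → ℝ) (W : X → X → ℝ) : ℝ :=
  ∑ x : V → X, (∏ v, p (x v)) * ∏ e, W (x (a e)) (x (b e))

lemma sum_prod_one {X I : Type*} [Fintype X] [Fintype I] [DecidableEq I] {p : X → ℝ}
    (hp : ∑ x, p x = 1) : ∑ ξ : I → X, ∏ i, p (ξ i) = 1 := by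
  rw [← Fintype.piFinset_univ, ← prod_univ_sum]; simp [hp]

lemma marg {X V I : Type*} [Fintype X] [Fintype V] [DecidableEq V] [Fintype I] [DecidableEq I]
    {p : X → ℝ} (hp : ∑ x, p x = 1) {f : V → I} (hf : Function.Injective f) (h : (V → X) → ℝ) :
    ∑ ξ : I → X, (∏ i, p (ξ i)) * h (fun v => ξ (f v)) = ∑ x : V → X, (∏ v, p (x v)) * h x := by
  classical
  have e1 : ∀ ξ : I → X, h (fun v => ξ (f v))
      = ∑ x : V → X, (∏ i, ∏ v, if f v = i then (if ξ i = x v then (1 : ℝ) else 0) else 1) * h x := by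
    intro ξ
    rw [sum_eq_single (fun v => ξ (f v))]
    · rw [prod_eq_one, one_mul]
      intro i _
      refine prod_eq_one fun v _ => ?_
      split_ifs with h1 h2
      · rfl
      · exact absurd (by rw [← h1]) h2
      · rfl
    · intro x _ hx
      obtain ⟨v, hv⟩ := Function.ne_iff.1 hx
      rw [prod_eq_zero (mem_univ (f v)), zero_mul]
      exact prod_eq_zero (mem_univ v) (by simp [hv.symm])
    · simp
  simp only [e1, mul_sum]
  rw [sum_comm]
  refine sum_congr rfl fun x _ => ?_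
  simp only [← mul_assoc, ← sum_mul, ← prod_mul_distrib]
  congr 1
  rw [← Fintype.piFinset_univ, ← prod_univ_sum (fun _ => univ)
    (fun i y => p y * ∏ v, if f v = i then (if y = x v then (1 : ℝ) else 0) else 1),
    ← prod_subset (subset_univ (univ.image f)), prod_image fun _ _ _ _ h => hf h]
  · refine prod_congr rfl fun v _ => ?_
    simp [hf.eq_iff]
  · intro i _ hi
    have : ∀ v, f v ≠ i := fun v hv => hi (mem_image.2 ⟨v, mem_univ _, hv⟩)
    simp [this, hp]

/-- the graph given by a set of pairs -/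
def grf {I : Type*} (η : Sym2 I → Bool) : SimpleGraph I where
  Adj u v := u ≠ v ∧ η s(u, v) = true
  symm := ⟨fun u v h => ⟨h.1.symm, by rw [Sym2.eq_swap]; exact h.2⟩⟩
  loopless := ⟨fun _ h => h.1 rfl⟩

section
variable {X I : Type*} [Fintype X] [Fintype I] [DecidableEq I] (p : X → ℝ) (W : X → X → ℝ)
  (hs : ∀ x y, W x y = W y x)

/-- weight of an outcome of the random experiment -/
noncomputable def wt (z : (I → X) × (Sym2 I → Bool)) : ℝ :=
  (∏ i, p (z.1 i)) * ∏ P, (if z.2 P then Sym2.lift ⟨fun i j => W (z.1 i) (z.1 j), fun _ _ => hs _ _⟩ P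
    else 1 - Sym2.lift ⟨fun i j => W (z.1 i) (z.1 j), fun _ _ => hs _ _⟩ P)

omit [Fintype X] [DecidableEq I] in
lemma wt_nonneg (hp : ∀ x, 0 ≤ p x) (h0 : ∀ x y, 0 ≤ W x y) (h1 : ∀ x y, W x y ≤ 1)
    (z : (I → X) × (Sym2 I → Bool)) : 0 ≤ wt p W hs z := by
  refine mul_nonneg (prod_nonneg fun i _ => hp _) (prod_nonneg fun P _ => ?_)
  induction P using Sym2.ind with
  | _ i j => split_ifs <;> simp [h0, h1]

open Classical in
lemma wt_inj {V E : Type*} [Fintype V] [DecidableEq V] [Fintype E] {a b : E → V}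
    (hab : ∀ e, a e ≠ b e) (hinj : Function.Injective fun e => s(a e, b e))
    (hp : ∑ x, p x = 1) {f : V → I} (hf : Function.Injective f) :
    ∑ z, wt p W hs z * (if ∀ e, (grf z.2).Adj (f (a e)) (f (b e)) then 1 else 0) = tW a b p W := by
  rw [tW, ← marg hp hf, Fintype.sum_prod_type]
  refine sum_congr rfl fun ξ _ => ?_
  simp only [wt, mul_assoc, ← mul_sum]
  congr 1
  have hi : Function.Injective fun e => s(f (a e), f (b e)) := fun e e' h =>
    hinj (Sym2.map.injective hf (by simpa using h))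
  have e1 : ∀ η : Sym2 I → Bool, (if ∀ e, (grf η).Adj (f (a e)) (f (b e)) then (1 : ℝ) else 0)
      = ∏ P, if P ∈ univ.image (fun e => s(f (a e), f (b e))) then (if η P then 1 else 0)
        else 1 := by
    intro η
    rw [prod_ite_mem, univ_inter, prod_image fun _ _ _ _ h => hi h, prod_ite_zero]
    simp [grf, hf.eq_iff, hab]
  simp only [e1, ← prod_mul_distrib]
  rw [← Fintype.piFinset_univ, ← prod_univ_sum (fun _ => univ) (fun P (y : Bool) =>
    (if y then Sym2.lift ⟨fun i j => W (ξ i) (ξ j), fun _ _ => hs _ _⟩ P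
      else 1 - Sym2.lift ⟨fun i j => W (ξ i) (ξ j), fun _ _ => hs _ _⟩ P) *
    if P ∈ univ.image (fun e => s(f (a e), f (b e))) then (if y then 1 else 0) else 1),
    ← prod_subset (subset_univ (univ.image (fun e => s(f (a e), f (b e))))),
    prod_image fun _ _ _ _ h => hi h]
  · refine prod_congr rfl fun e _ => ?_
    have : s(f (a e), f (b e)) ∈ univ.image (fun e => s(f (a e), f (b e))) :=
      mem_image.2 ⟨e, mem_univ _, rfl⟩
    simp only [if_pos this]
    simp
  · intro P _ hP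
    simp only [if_neg hP]
    simp

lemma wt_sum (hp : ∑ x, p x = 1) : ∑ z : (I → X) × (Sym2 I → Bool), wt p W hs z = 1 := by
  have := wt_inj (I := I) p W hs (V := Empty) (E := Empty) (a := id) (b := id) (fun e => e.elim)
    (fun e => e.elim) hp (f := Empty.elim) (fun e => e.elim)
  simpa [tW] using this

end

open Classical in
lemma av_noninj {V I : Type*} [Fintype V] [DecidableEq V] [Fintype I] [Nonempty I] :
    av (fun f : V → I => if Function.Injective f then (0 : ℝ) else 1)
      ≤ (Fintype.card V : ℝ) ^ 2 / Fintype.card I := by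
  have h1 : ∀ u w : V, av (fun f : V → I => if u ≠ w ∧ f u = f w then (1 : ℝ) else 0)
      ≤ 1 / Fintype.card I := by
    intro u w
    by_cases h : u = w
    · simp [h, av_const]
    rw [av_update u]
    refine av_le_const fun f => ?_
    rw [av_ite]
    gcongr
    exact_mod_cast nv_le_one (P := fun y => u ≠ w ∧ Function.update f u y u
      = Function.update f u y w) fun y y' hy hy' => by
        simp only [Function.update_self, Function.update_of_ne (Ne.symm h)] at hy hy'
        exact hy.2.trans hy'.2.symm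
  refine le_trans (av_mono (g := fun f => ∑ u, ∑ w, if u ≠ w ∧ f u = f w then (1 : ℝ) else 0)
    fun f => ?_) ?_
  · have hn : ∀ u w, (0 : ℝ) ≤ if u ≠ w ∧ f u = f w then (1 : ℝ) else 0 := fun u w => by
      split_ifs <;> norm_num
    split_ifs with h
    · exact sum_nonneg fun u _ => sum_nonneg fun w _ => hn u w
    · obtain ⟨u, w, h1, h2⟩ := Function.not_injective_iff.1 h
      refine le_trans ?_ (single_le_sum (fun u _ => sum_nonneg fun w _ => hn u w) (mem_univ u))
      refine le_trans ?_ (single_le_sum (fun w _ => hn u w) (mem_univ w))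
      simp [h1, h2]
  · simp only [av_sum]
    refine (sum_le_sum fun u _ => sum_le_sum fun w _ => h1 u w).trans (le_of_eq ?_)
    simp [sq, div_eq_mul_inv, mul_assoc]

open Classical in
/-- homomorphism density of an edge list in a graph -/
noncomputable def tG {V E I : Type*} [Fintype V] [DecidableEq V] [Fintype I] (a b : E → V)
    (G : SimpleGraph I) : ℝ :=
  av fun f : V → I => if ∀ e, G.Adj (f (a e)) (f (b e)) then 1 else 0

lemma exp_tG {X I V E : Type*} [Fintype X] [Fintype I] [DecidableEq I] [Nonempty I] [Fintype V]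
    [DecidableEq V] [Fintype E] {p : X → ℝ} {W : X → X → ℝ} (hs : ∀ x y, W x y = W y x)
    (hp0 : ∀ x, 0 ≤ p x) (hp : ∑ x, p x = 1) (h0 : ∀ x y, 0 ≤ W x y) (h1 : ∀ x y, W x y ≤ 1)
    {a b : E → V} (hab : ∀ e, a e ≠ b e) (hinj : Function.Injective fun e => s(a e, b e)) :
    |∑ z : (I → X) × (Sym2 I → Bool), wt p W hs z * tG a b (grf z.2) - tW a b p W|
      ≤ (Fintype.card V : ℝ) ^ 2 / Fintype.card I := by
  classical
  have t0 : 0 ≤ tW a b p W := sum_nonneg fun x _ =>
    mul_nonneg (prod_nonneg fun _ _ => hp0 _) (prod_nonneg fun _ _ => h0 _ _)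
  have t1 : tW a b p W ≤ 1 := by
    rw [← sum_prod_one (I := V) hp]
    exact sum_le_sum fun x _ => mul_le_of_le_one_right (prod_nonneg fun _ _ => hp0 _)
      (prod_le_one (fun _ _ => h0 _ _) fun _ _ => h1 _ _)
  simp only [tG, ← av_mul_left]
  rw [← av_sum, ← av_const (α := V → I) (tW a b p W), ← av_sub]
  refine (abs_av_le _).trans (le_trans (av_mono fun f => ?_) av_noninj)
  split_ifs with hf
  · have := wt_inj p W hs hab hinj hp hf
    rw [abs_nonpos_iff, sub_eq_zero]
    convert this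
  · have key : ∀ c : (I → X) × (Sym2 I → Bool) → ℝ, (∀ z, 0 ≤ c z) → (∀ z, c z ≤ 1) →
        |∑ z, wt p W hs z * c z - tW a b p W| ≤ 1 := by
      intro c c0 c1
      have s0 : (0 : ℝ) ≤ ∑ z, wt p W hs z * c z :=
        sum_nonneg fun z _ => mul_nonneg (wt_nonneg p W hs hp0 h0 h1 z) (c0 z)
      have s1 : ∑ z, wt p W hs z * c z ≤ 1 := by
        refine le_trans ?_ (wt_sum (I := I) p W hs hp).le
        exact sum_le_sum fun z _ => mul_le_of_le_one_right (wt_nonneg p W hs hp0 h0 h1 z) (c1 z)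
      rw [abs_le]
      constructor <;> linarith
    exact key _ (fun z => by split_ifs <;> norm_num) (fun z => by split_ifs <;> norm_num)

open Filter Topology in
theorem sample {X V E : Type*} [Fintype X] [Fintype V]
    [DecidableEq V] [Fintype E] {p : X → ℝ} {W : X → X → ℝ} (hs : ∀ x y, W x y = W y x)
    (hp0 : ∀ x, 0 ≤ p x) (hp : ∑ x, p x = 1) (h0 : ∀ x y, 0 ≤ W x y) (h1 : ∀ x y, W x y ≤ 1)
    {a b : E → V} (hab : ∀ e, a e ≠ b e) (hinj : Function.Injective fun e => s(a e, b e))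
    (m : ℕ) (h : tW a b p W < tW (fun _ : Unit => (0 : Fin 2)) (fun _ => 1) p W ^ m) :
    ∃ N, 0 < N ∧ ∃ G : SimpleGraph (Fin N),
      tG a b G < tG (fun _ : Unit => (0 : Fin 2)) (fun _ => 1) G ^ m := by
  set ρ := tW (fun _ : Unit => (0 : Fin 2)) (fun _ => 1) p W with hρ
  have hd : ∀ c : ℝ, Tendsto (fun N : ℕ => c / (N : ℝ)) atTop (𝓝 0) :=
    tendsto_const_div_atTop_nhds_zero_nat
  have l1 : Tendsto (fun N : ℕ => max (ρ - 2 ^ 2 / (N : ℝ)) 0 ^ m
      - (Fintype.card V : ℝ) ^ 2 / N) atTop (𝓝 (ρ ^ m)) := by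
    have ρ0 : 0 ≤ ρ := sum_nonneg fun x _ =>
      mul_nonneg (prod_nonneg fun _ _ => hp0 _) (prod_nonneg fun _ _ => h0 _ _)
    have := ((((hd (2 ^ 2)).const_sub ρ).max (tendsto_const_nhds (x := 0))).pow m).sub
      (hd ((Fintype.card V : ℝ) ^ 2))
    simpa [ρ0] using this
  obtain ⟨N, hN1, hN0⟩ := ((l1.eventually (lt_mem_nhds h)).and (eventually_gt_atTop 0)).exists
  refine ⟨N, hN0, ?_⟩
  by_contra hc
  push Not at hc
  have : Nonempty (Fin N) := ⟨⟨0, hN0⟩⟩
  have e1 := exp_tG (I := Fin N) hs hp0 hp h0 h1 hab hinj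
  have e2 := exp_tG (I := Fin N) (a := fun _ : Unit => (0 : Fin 2)) (b := fun _ => 1)
    hs hp0 hp h0 h1 (fun _ => by decide) (fun _ _ _ => rfl)
  have tn : ∀ G : SimpleGraph (Fin N), 0 ≤ tG (fun _ : Unit => (0 : Fin 2)) (fun _ => 1) G :=
    fun G => av_nonneg fun f => by split_ifs <;> norm_num
  have J := Real.pow_arith_mean_le_arith_mean_pow univ (wt (I := Fin N) p W hs)
    (fun z => tG (fun _ : Unit => (0 : Fin 2)) (fun _ => 1) (grf z.2))
    (fun z _ => wt_nonneg p W hs hp0 h0 h1 z) (wt_sum p W hs hp) (fun z _ => tn _) m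
  have J2 := sum_le_sum (s := univ) fun (z : (Fin N → X) × (Sym2 (Fin N) → Bool)) _ =>
    mul_le_mul_of_nonneg_left (hc (grf z.2)) (wt_nonneg p W hs hp0 h0 h1 z)
  simp only [Fintype.card_fin, Nat.cast_ofNat] at e1 e2
  have J3 : max (ρ - 2 ^ 2 / (N : ℝ)) 0 ^ m ≤ (∑ z : (Fin N → X) × (Sym2 (Fin N) → Bool),
      wt p W hs z * tG (fun _ : Unit => (0 : Fin 2)) (fun _ => 1) (grf z.2)) ^ m := by
    refine pow_le_pow_left₀ (le_max_right _ _) (max_le ?_ ?_) m
    · linarith [(abs_le.1 e2).1]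
    · exact sum_nonneg fun z _ => mul_nonneg (wt_nonneg p W hs hp0 h0 h1 z) (tn _)
  linarith [(abs_le.1 e1).2]

end Vale.Agent.P050
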