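import Vale.Agent.P050.Zed
import Vale.Agent.P050.Sample

/-! The weighted kernel violating the inequality. -/

namespace Vale.Agent.P050

open Finset

noncomputable def piL (τ : ℝ) (l m : Lab) : ℝ := (cor l m).elim 0 fun c => τ ^ gam c

def beL (l m : Lab) : Out → Fin 12 → SignType := (cor l m).elim (fun _ _ => 0) bv

noncomputable def pl (τ : ℝ) (l : Lab) : ℝ := τ ^ alp l / ∑ m, τ ^ alp m

variable {τ : ℝ} {Ω : Type} [Fintype Ω] [Nonempty Ω]

noncomputable def pX (τ : ℝ) (x : Lab × (Fin 12 → Ω)) : ℝ := pl τ x.1 / Fintype.card (Fin 12 → Ω)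

noncomputable def WX (τ : ℝ) (U : SignType → Ω → Ω → ℝ) (x y : Lab × (Fin 12 → Ω)) : ℝ :=
  ∑ o, ow (piL τ x.1 y.1) o * ∏ d, U (beL x.1 y.1 o d) (x.2 d) (y.2 d)

lemma piL_nonneg (h0 : 0 < τ) (l m : Lab) : 0 ≤ piL τ l m := by
  unfold piL
  cases cor l m <;> simp only [Option.elim] <;> positivity

lemma piL_le (h0 : 0 < τ) (h1 : τ ≤ 1) (l m : Lab) : piL τ l m ≤ 1 := by
  unfold piL
  cases cor l m
  · simp
  · exact pow_le_one₀ h0.le h1

lemma good_beL (π : ℝ) (l m : Lab) : Good π (beL l m) := by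
  unfold beL
  cases cor l m
  · exact good_zero π
  · exact good_bv π _

lemma ZZ_pos (h0 : 0 < τ) : 0 < ∑ m, τ ^ alp m :=
  sum_pos (fun _ _ => pow_pos h0 _) univ_nonempty

lemma pl_pos (h0 : 0 < τ) (l : Lab) : 0 < pl τ l := div_pos (pow_pos h0 _) (ZZ_pos h0)

lemma sum_pl (h0 : 0 < τ) : ∑ l, pl τ l = 1 := by
  simp only [pl, ← sum_div]
  exact div_self (ZZ_pos h0).ne'

lemma sum_pX (h0 : 0 < τ) : ∑ x : Lab × (Fin 12 → Ω), pX τ x = 1 := by
  have : (Fintype.card (Fin 12 → Ω) : ℝ) ≠ 0 := by exact_mod_cast Fintype.card_ne_zero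
  simp only [Fintype.sum_prod_type, pX, sum_const, card_univ, nsmul_eq_mul,
    mul_div_cancel₀ _ this, sum_pl h0]

omit [Nonempty Ω] in
lemma tW_X {V E : Type} [Fintype V] [DecidableEq V] [Fintype E] [DecidableEq E] (a b : E → V)
    (U : SignType → Ω → Ω → ℝ) : tW a b (pX τ) (WX τ U) = ∑ φ : V → Lab, (∏ v, pl τ (φ v)) *
      ∑ o : E → Out, (∏ e, ow (piL τ (φ (a e)) (φ (b e))) (o e)) *
        ∏ d, av (fun x : V → Ω => ∏ e, U (beL (φ (a e)) (φ (b e)) (o e) d) (x (a e)) (x (b e))) := by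
  rw [tW, ← Equiv.sum_comp (Equiv.arrowProdEquivProdArrow _ _ _).symm, Fintype.sum_prod_type]
  refine sum_congr rfl fun φ _ => ?_
  have e1 : ∀ o : E → Out, ∏ d, av (fun x : V → Ω =>
      ∏ e, U (beL (φ (a e)) (φ (b e)) (o e) d) (x (a e)) (x (b e))) =
      av (fun ω : V → Fin 12 → Ω => ∏ e, ∏ d,
        U (beL (φ (a e)) (φ (b e)) (o e) d) (ω (a e) d) (ω (b e) d)) := by
    intro o
    rw [← av_pi_prod, ← av_equiv (Equiv.piComm _)]
    exact av_congr fun ω => prod_comm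
  simp only [e1, ← av_mul_left]
  rw [← av_sum, ← av_mul_left, av, sum_div]
  refine sum_congr rfl fun ω _ => ?_
  simp only [Equiv.arrowProdEquivProdArrow_symm_apply, pX, WX, prod_div_distrib, prod_const,
    card_univ, prod_univ_sum, Fintype.piFinset_univ, prod_mul_distrib]
  rw [Fintype.card_fun (α := V), Nat.cast_pow]
  ring

lemma tW_edge (h0 : 0 < τ) {U : SignType → Ω → Ω → ℝ} (hU : ∀ b u, av (U b u) = 1) :
    tW (fun _ : Unit => (0 : Fin 2)) (fun _ => 1) (pX τ) (WX τ U) = 1 := by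
  have e : ∀ b, av (fun x : Fin 2 → Ω => U b (x 0) (x 1)) = 1 := by
    intro b
    rw [av_fin_succ]
    refine Eq.trans (av_congr fun u => ?_) (av_const 1)
    rw [av_fin_succ, ← hU b u]
    exact av_congr fun w => av_const (α := Fin 0 → Ω) (U b u w)
  rw [tW_X]
  simp only [univ_unique, prod_singleton, e, prod_const_one, mul_one]
  rw [← sum_prod_one (I := Fin 2) (sum_pl h0)]
  refine sum_congr rfl fun φ _ => ?_
  exact mul_right_eq_self₀.2 (Or.inl ((Equiv.sum_comp (Equiv.funUnique Unit Out)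
    (ow (piL τ (φ 0) (φ 1)))).trans (sum_ow _)))

lemma prod_add_eps {ι : Type*} (s : Finset ι) {A : ι → ℝ} {M ε : ℝ} (h0 : ∀ i, 0 ≤ A i)
    (h1 : ∀ i, A i ≤ M) (hM : 0 ≤ M) (e0 : 0 ≤ ε) (e1 : ε ≤ 1) :
    ∏ i ∈ s, (A i + ε) ≤ ∏ i ∈ s, A i + ε * (M + 2) ^ s.card := by
  classical
  induction s using Finset.induction_on with
  | empty => simpa using e0
  | insert a s ha ih =>
    rw [prod_insert ha, prod_insert ha, card_insert_of_notMem ha, pow_succ]
    have h2 : ∏ i ∈ s, A i ≤ (M + 2) ^ s.card := by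
      rw [← prod_const]
      exact prod_le_prod (fun i _ => h0 i) fun i _ => by linarith [h1 i]
    have h3 := mul_le_mul_of_nonneg_left ih (add_nonneg (h0 a) e0)
    have h4 : (A a + ε) * (ε * (M + 2) ^ s.card) ≤ (M + 1) * (ε * (M + 2) ^ s.card) :=
      mul_le_mul_of_nonneg_right (by linarith [h1 a]) (by positivity)
    have h5 := mul_le_mul_of_nonneg_left h2 e0
    nlinarith

omit [Nonempty Ω] in
lemma tW_H (h0 : 0 < τ) (h1 : τ ≤ 1) {U : SignType → Ω → Ω → ℝ} (hU : ∀ b u v, 0 ≤ U b u v)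
    {ε : ℝ} (e0 : 0 ≤ ε) (e1 : ε ≤ 1) (hG : ∀ b : Fin 12 → Fin 3 → SignType,
      av (fun x : Fin 8 → Ω => ∏ j, av (fun y => ∏ k, U (b j k) (x (fv j k)) y))
        ≤ ∏ e, AA b e + ε) :
    tW pt fa (pX τ) (WX τ U) ≤ ∑ φ : Lab → Lab, (∏ v, pl τ (φ v)) *
      ∑ S, term (fun c => piL τ (φ (pt c)) (φ (fa c))) (fun c => beL (φ (pt c)) (φ (fa c))) S
      + ε * (2 ^ 18 + 2) ^ 12 := by
  have g : ∀ b : Cor → SignType, av (fun x : Lab → Ω => ∏ c, U (b c) (x (pt c)) (x (fa c)))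
      ≤ ∏ e, AA (fun j k => b (j, k)) e + ε := by
    intro b
    refine le_trans (le_of_eq ?_) (hG _)
    rw [← av_equiv (Equiv.sumArrowEquivProdArrow _ _ _).symm, av_prod]
    refine av_congr fun x => ?_
    rw [← av_pi_prod]
    exact av_congr fun y => Fintype.prod_prod_type _
  rw [tW_X, ← one_mul (ε * _), ← sum_prod_one (I := Lab) (sum_pl h0), sum_mul, ← sum_add_distrib]
  refine sum_le_sum fun φ _ => ?_
  rw [← mul_add]
  refine mul_le_mul_of_nonneg_left ?_ (prod_nonneg fun v _ => (pl_pos h0 _).le)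
  have e2 : ∑ o : Cor → Out, ∏ c, ow (piL τ (φ (pt c)) (φ (fa c))) (o c) = 1 := by
    rw [← Fintype.piFinset_univ, ← prod_univ_sum]
    simp only [sum_ow, prod_const_one]
  simp only [term]
  rw [← expand, ← one_mul (ε * _), ← e2, sum_mul, ← sum_add_distrib]
  refine sum_le_sum fun o _ => ?_
  rw [← mul_add]
  refine mul_le_mul_of_nonneg_left ?_
    (prod_nonneg fun c _ => ow_nonneg (piL_nonneg h0 _ _) (piL_le h0 h1 _ _) _)
  refine le_trans (prod_le_prod (fun d _ => av_nonneg fun x => prod_nonneg fun c _ => hU _ _ _)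
    fun d _ => g fun c => beL (φ (pt c)) (φ (fa c)) (o c) d) ?_
  simpa using prod_add_eps univ (M := 2 ^ 18)
    (A := fun d => ∏ e, AA (fun j k => beL (φ (pt (j, k))) (φ (fa (j, k))) (o (j, k)) d) e)
    (fun d => prod_nonneg fun e _ => AA_nonneg _ e) (fun d => by simpa using prod_AA_le _ univ)
    (by norm_num) e0 e1

/-- weight of the identity labeling -/
noncomputable def DD (τ : ℝ) : ℝ := (∏ v, pl τ v) * ∏ c, τ ^ gam c

lemma DD_pos (h0 : 0 < τ) : 0 < DD τ :=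
  mul_pos (prod_pos fun v _ => pl_pos h0 v) (prod_pos fun _ _ => pow_pos h0 _)

lemma weight_le (h0 : 0 < τ) (h1 : τ ≤ 1) {φ : Lab → Lab} (hφ : φ ≠ id) :
    (∏ v, pl τ (φ v)) * ∏ c, piL τ (φ (pt c)) (φ (fa c)) ≤ τ * DD τ := by
  by_cases h : ∀ c, ∃ d, cor (φ (pt c)) (φ (fa c)) = some d
  · choose g hg using h
    have hv := val_ge hφ g hg
    simp only [piL, hg, Option.elim, DD, pl, prod_div_distrib, prod_pow_eq_pow_sum]
    rw [div_mul_eq_mul_div, div_mul_eq_mul_div, ← mul_div_assoc, ← pow_add, ← pow_add, ← pow_succ']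
    exact div_le_div_of_nonneg_right (pow_le_pow_of_le_one h0.le h1 hv)
      (prod_nonneg fun _ _ => (ZZ_pos h0).le)
  · push Not at h
    obtain ⟨c, hc⟩ := h
    have : piL τ (φ (pt c)) (φ (fa c)) = 0 := by
      rw [piL, Option.eq_none_iff_forall_ne_some.2 hc]; rfl
    rw [prod_eq_zero (mem_univ c) this, mul_zero]
    exact (mul_pos h0 (DD_pos h0)).le

lemma main_le (h0 : 0 < τ) (h1 : τ ≤ 1) : ∑ φ : Lab → Lab, (∏ v, pl τ (φ v)) *
      ∑ S, term (fun c => piL τ (φ (pt c)) (φ (fa c))) (fun c => beL (φ (pt c)) (φ (fa c))) S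
      ≤ 1 - DD τ / 2 ^ 36 + Fintype.card (Lab → Lab) * (Fintype.card Cfg * (τ * DD τ)) := by
  have hD := DD_pos h0
  have h := sum_le_add_card (fun φ : Lab → Lab => (∏ v, pl τ (φ v)) * (∑ S,
      term (fun c => piL τ (φ (pt c)) (φ (fa c))) (fun c => beL (φ (pt c)) (φ (fa c))) S - 1)) id
    (M := Fintype.card Cfg * (τ * DD τ)) (by positivity) fun φ hφ => by
      have z := Z_le (π := fun c => piL τ (φ (pt c)) (φ (fa c)))
        (β := fun c => beL (φ (pt c)) (φ (fa c))) (fun c => piL_nonneg h0 _ _)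
        fun c => good_beL _ _ _
      refine (mul_le_mul_of_nonneg_left (sub_le_iff_le_add'.2 z)
        (prod_nonneg fun v _ => (pl_pos h0 _).le)).trans ?_
      rw [mul_left_comm]
      exact mul_le_mul_of_nonneg_left (weight_le h0 h1 hφ) (Nat.cast_nonneg _)
  have e1 : (fun c => beL (pt c) (fa c)) = bv := funext fun c => by rw [beL, cor_self]; rfl
  have e2 : (fun c => piL τ (pt c) (fa c)) = fun c => τ ^ gam c :=
    funext fun c => by rw [piL, cor_self]; rfl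
  simp only [id, e1, e2, Z_id, mul_sub, sum_sub_distrib, mul_one,
    sum_prod_one (I := Lab) (sum_pl h0)] at h
  rw [DD] at h ⊢
  rw [mul_div_assoc]
  linarith

theorem kernel_exists : ∃ (X : Type) (_ : Fintype X) (p : X → ℝ) (W : X → X → ℝ),
    (∀ x y, W x y = W y x) ∧ (∀ x, 0 ≤ p x) ∧ ∑ x, p x = 1 ∧ (∀ x y, 0 ≤ W x y) ∧
    tW pt fa p W < 1 ∧ tW (fun _ : Unit => (0 : Fin 2)) (fun _ => 1) p W = 1 := by
  obtain ⟨N, hN, hN1⟩ : ∃ N : ℝ, N = Fintype.card (Lab → Lab) * Fintype.card Cfg ∧ 0 ≤ N :=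
    ⟨_, rfl, by positivity⟩
  obtain ⟨τ, h0, h1, hτ⟩ : ∃ τ : ℝ, 0 < τ ∧ τ ≤ 1 ∧ N * τ ≤ 1 / 2 ^ 37 := by
    refine ⟨1 / (2 ^ 37 * (N + 1)), by positivity, ?_, ?_⟩
    · rw [div_le_one (by positivity)]; nlinarith
    · rw [mul_one_div, div_le_div_iff₀ (by positivity) (by positivity)]; nlinarith
  have hD := DD_pos h0
  obtain ⟨ε, e0, e1, e2⟩ : ∃ ε : ℝ, 0 < ε ∧ ε ≤ 1 ∧ ε * (2 ^ 18 + 2) ^ 12 < DD τ / 2 ^ 37 := by
    refine ⟨min 1 (DD τ / 2 ^ 38 / (2 ^ 18 + 2) ^ 12), by positivity, min_le_left _ _, ?_⟩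
    refine lt_of_le_of_lt (mul_le_mul_of_nonneg_right (min_le_right _ _) (by positivity)) ?_
    rw [div_mul_cancel₀ _ (by positivity)]
    linarith
  obtain ⟨Ω, _, _, U, hs, hn, ha, hG⟩ := gadget e0
  refine ⟨Lab × (Fin 12 → Ω), inferInstance, pX τ, WX τ U, fun x y => ?_, fun x => ?_,
    sum_pX h0, fun x y => ?_, ?_, tW_edge h0 ha⟩
  · simp only [WX, piL, beL, cor_symm x.1 y.1, hs _ (x.2 _)]
  · exact div_nonneg (pl_pos h0 _).le (Nat.cast_nonneg _)
  · exact sum_nonneg fun o _ => mul_nonneg (ow_nonneg (piL_nonneg h0 _ _) (piL_le h0 h1 _ _) _)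
      (prod_nonneg fun d _ => hn _ _ _)
  · have k1 := tW_H h0 h1 hn e0.le e1 hG
    have k2 := main_le h0 h1
    rw [← mul_assoc, ← hN, ← mul_assoc] at k2
    have k3 := mul_le_mul_of_nonneg_right hτ hD.le
    linarith

theorem graph_exists : ∃ N, 0 < N ∧ ∃ G : SimpleGraph (Fin N),
    tG pt fa G < tG (fun _ : Unit => (0 : Fin 2)) (fun _ => 1) G ^ 36 := by
  obtain ⟨X, _, p, W, hs, hp0, hp, h0, h1, h2⟩ := kernel_exists
  obtain ⟨B, hB, hW⟩ : ∃ B : ℝ, 0 < B ∧ ∀ x y, W x y ≤ B := by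
    have hn : 0 ≤ ∑ x, ∑ y, W x y := sum_nonneg fun x _ => sum_nonneg fun y _ => h0 x y
    refine ⟨1 + ∑ x, ∑ y, W x y, by linarith, fun x y => ?_⟩
    have k1 := single_le_sum (fun y _ => h0 x y) (mem_univ y)
    have k2 := single_le_sum (f := fun x => ∑ y, W x y)
      (fun x _ => sum_nonneg fun y _ => h0 x y) (mem_univ x)
    linarith
  have e : ∀ {V E : Type} [Fintype V] [DecidableEq V] [Fintype E] (a b : E → V),
      tW a b p (fun x y => W x y / B) = tW a b p W / B ^ Fintype.card E := by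
    intro V E _ _ _ a b
    simp only [tW, prod_div_distrib, prod_const, card_univ, sum_div, mul_div_assoc]
  refine sample (p := p) (W := fun x y => W x y / B) (fun x y => by rw [hs]) hp0 hp
    (fun x y => div_nonneg (h0 x y) hB.le) (fun x y => (div_le_one hB).2 (hW x y))
    (fun c => by simp [pt, fa]) (by decide +kernel) 36 ?_
  rw [e, e, h2]
  simp only [Fintype.card_prod, Fintype.card_fin, Fintype.card_unique, pow_one, div_pow, one_pow]
  exact div_lt_div_of_pos_right h1 (by positivity)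

lemma tG_eq {V E I : Type*} [Fintype V] [DecidableEq V] [Fintype I] (a b : E → V)
    (G : SimpleGraph I) : tG a b G = nv (fun f : V → I => ∀ e, G.Adj (f (a e)) (f (b e)))
      / Fintype.card (V → I) :=
  @av_ite _ _ _ (fun _ => Classical.propDecidable _)

/-- the incidence graph of the triangulation -/
def HH : SimpleGraph Lab := SimpleGraph.fromEdgeSet (Set.range fun c : Cor => s(pt c, fa c))

lemma HH_edgeSet : HH.edgeSet = Set.range fun c : Cor => s(pt c, fa c) := by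
  rw [HH, SimpleGraph.edgeSet_fromEdgeSet]
  ext e
  refine ⟨fun h => h.1, fun h => ⟨h, ?_⟩⟩
  obtain ⟨c, rfl⟩ := h
  simp [pt, fa]

lemma HH_card : HH.edgeSet.ncard = 36 := by
  rw [HH_edgeSet, Set.ncard_range_of_injective (by decide +kernel)]
  simp

lemma HH_adj (c : Cor) : HH.Adj (pt c) (fa c) := by
  rw [← SimpleGraph.mem_edgeSet, HH_edgeSet]; exact ⟨c, rfl⟩

lemma HH_adj' {u v : Lab} (h : HH.Adj u v) :
    ∃ c, (pt c = u ∧ fa c = v) ∨ (pt c = v ∧ fa c = u) := by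
  rw [← SimpleGraph.mem_edgeSet, HH_edgeSet] at h
  obtain ⟨c, hc⟩ := h
  exact ⟨c, by simpa using hc⟩

lemma HH_bip : HH.IsBipartite := by
  refine ⟨SimpleGraph.Coloring.mk (Sum.elim (fun _ => 0) (fun _ => 1)) fun {u v} h => ?_⟩
  obtain ⟨c, ⟨rfl, rfl⟩ | ⟨rfl, rfl⟩⟩ := HH_adj' h <;> simp [pt, fa]

lemma tG_H {N : ℕ} (G : SimpleGraph (Fin N)) :
    tG pt fa G = (Nat.card (HH →g G) : ℝ) / (N : ℝ) ^ Fintype.card Lab := by
  classical
  rw [tG_eq, Fintype.card_fun, Fintype.card_fin, Nat.cast_pow]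
  congr 2
  rw [nv, ← Fintype.card_subtype, ← Nat.card_eq_fintype_card]
  refine Nat.card_congr ⟨fun f => ⟨f.1, fun {u v} h => ?_⟩, fun f => ⟨f, fun c => f.map_adj (HH_adj c)⟩,
    fun _ => rfl, fun _ => rfl⟩
  obtain ⟨c, ⟨rfl, rfl⟩ | ⟨rfl, rfl⟩⟩ := HH_adj' h
  · exact f.2 c
  · exact (f.2 c).symm

lemma tG_edge {N : ℕ} (G : SimpleGraph (Fin N)) :
    tG (fun _ : Unit => (0 : Fin 2)) (fun _ => 1) G
      = 2 * (G.edgeSet.ncard : ℝ) / (N : ℝ) ^ 2 := by
  classical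
  rw [tG_eq, Fintype.card_fun, Fintype.card_fin, Fintype.card_fin, Nat.cast_pow]
  congr 1
  have h1 := G.two_mul_card_edgeFinset
  have h2 : G.edgeSet.ncard = G.edgeFinset.card := by
    rw [← Set.ncard_coe_finset, SimpleGraph.coe_edgeFinset]
  have h3 := nv_equiv (finTwoArrowEquiv (Fin N)) (fun z => G.Adj z.1 z.2)
  rw [h2, nv_congr (Q := fun f => G.Adj (finTwoArrowEquiv (Fin N) f).1
    (finTwoArrowEquiv (Fin N) f).2) fun f => by simp, h3]
  have h4 : nv (fun z : Fin N × Fin N => G.Adj z.1 z.2) = 2 * G.edgeFinset.card := by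
    rw [h1, nv]
  rw [h4]; push_cast; rfl

end Vale.Agent.P050
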