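import Vale.Agent.P050.Rs

/-! The kernels and the bounds for one face. -/

namespace Vale.Agent.P050

open Module Submodule Finset Matrix

variable {F : Type*} [Field F] [Fintype F] {r : ℕ}

abbrev Om (F : Type*) (r : ℕ) := Bool × Sy (II r) F

def sgn (σ : Bool) : ℝ := if σ then 1 else -1

open Classical in
/-- the kernels -/
noncomputable def UU (b : SignType) (u v : Om F r) : ℝ :=
  if b = 0 then 1 else if Rs ((b : ℝ) * sgn u.1 * sgn v.1) (u.2 - v.2) then 1 / p0 F r else 0

/-- standing hypotheses -/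
structure Hyp (F : Type*) [Field F] [Fintype F] (r : ℕ) : Prop where
  h2 : (2 : F) ≠ 0
  ev : Even r
  pos : 0 < r
  mu : 1 / 2 ≤ mu F r

lemma Hyp.p0_pos (h : Hyp F r) : 0 < p0 F r :=
  lt_of_lt_of_le (mul_pos (by linarith [h.mu]) (qp_pos _)) (p0_ge h.h2)

lemma Hyp.ip (h : Hyp F r) : 1 / p0 F r ≤ 2 / Vale.Agent.P050.mu F r * qp F (r * (r + 1) / 2) := by
  have h1 := p0_ge (r := r) h.h2
  have hm : 0 < Vale.Agent.P050.mu F r := by linarith [h.mu]
  have h3 : qp F (-(r * (r + 1) / 2)) * qp F (r * (r + 1) / 2) = 1 := by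
    rw [← qp_add, neg_add_cancel, qp_zero]
  rw [div_le_iff₀ h.p0_pos]
  have h4 := mul_le_mul_of_nonneg_left h1
    (a := 2 / Vale.Agent.P050.mu F r * qp F (r * (r + 1) / 2))
    (mul_pos (div_pos two_pos hm) (qp_pos _)).le
  refine le_trans (le_of_eq ?_) h4
  field_simp
  linarith

lemma Hyp.ip' (h : Hyp F r) : 1 / p0 F r ≤ 4 * qp F (r * (r + 1) / 2) := by
  refine h.ip.trans (mul_le_mul_of_nonneg_right ?_ (qp_pos _).le)
  rw [div_le_iff₀ (by linarith [h.mu])]
  linarith [h.mu]

lemma UU_zero (u v : Om F r) : UU 0 u v = 1 := by simp [UU]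

lemma UU_nonneg (h : Hyp F r) (b : SignType) (u v : Om F r) : 0 ≤ UU b u v := by
  have := h.p0_pos
  unfold UU
  split_ifs <;> positivity

lemma UU_symm (h : Hyp F r) (b : SignType) (u v : Om F r) : UU b u v = UU b v u := by
  have : Rs ((b : ℝ) * sgn u.1 * sgn v.1) (u.2 - v.2)
      ↔ Rs ((b : ℝ) * sgn v.1 * sgn u.1) (v.2 - u.2) := by
    rw [mul_right_comm]
    exact ⟨fun k => by simpa using k.neg h.ev, fun k => by simpa using k.neg h.ev⟩
  unfold UU
  rw [propext this]

lemma av_bool (f : Bool → ℝ) : av f = (f true + f false) / 2 := by simp [av]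

lemma beta_cases {b : SignType} (hb : b ≠ 0) (σ : Bool) :
    (b : ℝ) * sgn σ = 1 ∨ (b : ℝ) * sgn σ = -1 := by
  cases b <;> cases σ <;> simp_all [sgn]

lemma UU_av (h : Hyp F r) (b : SignType) (u : Om F r) : av (UU b u) = 1 := by
  classical
  by_cases hb : b = 0
  · subst hb; exact (av_congr (UU_zero u)).trans (av_const 1)
  have e : ∀ δ : ℝ, av (fun w : Sy (II r) F => if Rs δ (u.2 - w) then 1 / p0 F r else 0)
      = nv (Rs (F := F) (r := r) δ) / Fintype.card (Sy (II r) F) * (1 / p0 F r) := by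
    intro δ
    rw [← av_ite, ← av_mul_right, ← av_sub_left u.2]
    exact av_congr fun w => by simp only [sub_sub_cancel]; split_ifs <;> simp
  have hp := h.p0_pos
  have hc : (0 : ℝ) < Fintype.card (Sy (II r) F) := by rw [card_Sy]; exact qp_pos _
  have e2 : (nv (Rs (F := F) (r := r) 1) : ℝ) + nv (Rs (F := F) (r := r) (-1))
      = p0 F r * (2 * Fintype.card (Sy (II r) F)) := by
    rw [p0]; field_simp
  rw [av_prod, av_bool]
  simp only [UU, if_neg hb, e]
  have s1 : sgn true = 1 := rfl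
  have s2 : sgn false = -1 := rfl
  rcases beta_cases hb u.1 with k | k <;> simp only [k, s1, s2, mul_one, mul_neg, neg_neg] <;>
    field_simp <;> linarith

open Classical in
lemma UU_le (h : Hyp F r) {b : SignType} (hb : b ≠ 0) (u v : Om F r) :
    UU b u v ≤ if cork (u.2 - v.2) = r then 1 / p0 F r else 0 := by
  have := h.p0_pos
  simp only [UU, if_neg hb]
  split_ifs with h1 h2
  · rfl
  · exact absurd h1.1 h2
  · positivity
  · rfl

lemma one_le_qp {x : ℝ} (hx : 0 ≤ x) : 1 ≤ qp F x := by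
  rw [← qp_zero (F := F)]; exact qp_mono hx

lemma crude2 (h : Hyp F r) {a b : SignType} (ha : a ≠ 0) (hb : b ≠ 0) (u v : Om F r) :
    av (fun y => UU a u y * UU b v y) ≤ 16 * KK (Fintype.card (II r))
      * qp F ((cork (u.2 - v.2) : ℝ) ^ 2 / 8 + cork (u.2 - v.2) / 4) := by
  classical
  rw [av_prod]
  refine av_le_const fun σ => ?_
  have h1 := av_le_of_pat h.h2 u.2 v.2 v.2
    (f := fun w => UU a u (σ, w) * UU b v (σ, w) * (1 / 16))
    (c := (cork (u.2 - v.2) : ℝ) ^ 2 / 8 + cork (u.2 - v.2) / 4) fun w => by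
      have k1 := UU_le h ha u (σ, w)
      have k2 := UU_le h hb v (σ, w)
      have n1 := UU_nonneg h a u (σ, w)
      have n2 := UU_nonneg h b v (σ, w)
      by_cases c1 : cork (u.2 - w) = r
      swap
      · rw [if_neg c1] at k1
        rw [le_antisymm k1 n1]; simpa using (qp_pos _).le
      by_cases c2 : cork (v.2 - w) = r
      swap
      · rw [if_neg c2] at k2
        rw [le_antisymm k2 n2]; simpa using (qp_pos _).le
      rw [if_pos c1] at k1
      rw [if_pos c2] at k2
      have e : sx u.2 v.2 v.2 = ⟨cork (u.2 - v.2), cork (u.2 - v.2), cork (u.2 - v.2),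
          Fintype.card (II r)⟩ := by
        simp only [sx, st, inf_idem, inf_assoc, (gr_lag v.2).dim, dm_gr_inf]
      have hf := px_feas u.2 v.2 v.2 w
      rw [e] at hf ⊢
      have := face2_ineq (card_II r) hf (by simp only [px, pat, dm_gr_inf, c1])
        (by simp only [px, pat, dm_gr_inf, c2]) (by simp only [px, pat, dm_gr_inf, c2])
        (by simp only [px, pat, inf_idem, dm_gr_inf, c2])
        (by simp only [px, pat, inf_idem, inf_assoc])
        (by simp only [px, pat, inf_idem, inf_assoc])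
      refine le_trans ?_ (qp_mono (x := r * (r + 1) / 2 + r * (r + 1) / 2) (by linarith))
      rw [qp_add]
      have := mul_le_mul (k1.trans h.ip') (k2.trans h.ip') n2 (by have := qp_pos (F := F) (r * (r + 1) / 2); positivity)
      linarith
  rw [av_mul_right] at h1
  linarith

lemma crude3 (h : Hyp F r) {a b c : SignType} (ha : a ≠ 0) (hb : b ≠ 0) (hc : c ≠ 0)
    (u v t : Om F r) :
    av (fun y => UU a u y * UU b v y * UU c t y) ≤ 64 * KK (Fintype.card (II r))
      * qp F (fc (Fintype.card (II r)) (1 / (2 * Fintype.card (II r))) (sx u.2 v.2 t.2)) := by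
  classical
  rw [av_prod]
  refine av_le_const fun σ => ?_
  have h1 := av_le_of_pat h.h2 u.2 v.2 t.2
    (f := fun w => UU a u (σ, w) * UU b v (σ, w) * UU c t (σ, w) * (1 / 64))
    (c := fc (Fintype.card (II r)) (1 / (2 * Fintype.card (II r))) (sx u.2 v.2 t.2)) fun w => by
      have k1 := UU_le h ha u (σ, w)
      have k2 := UU_le h hb v (σ, w)
      have k3 := UU_le h hc t (σ, w)
      have n1 := UU_nonneg h a u (σ, w)
      have n2 := UU_nonneg h b v (σ, w)
      have n3 := UU_nonneg h c t (σ, w)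
      by_cases c1 : cork (u.2 - w) = r
      swap
      · rw [if_neg c1] at k1
        rw [le_antisymm k1 n1]; simpa using (qp_pos _).le
      by_cases c2 : cork (v.2 - w) = r
      swap
      · rw [if_neg c2] at k2
        rw [le_antisymm k2 n2]; simpa using (qp_pos _).le
      by_cases c3 : cork (t.2 - w) = r
      swap
      · rw [if_neg c3] at k3
        rw [le_antisymm k3 n3]; simpa using (qp_pos _).le
      rw [if_pos c1] at k1
      rw [if_pos c2] at k2
      rw [if_pos c3] at k3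
      have := face3_ineq (by rw [card_II]; linarith [h.pos]) (card_II r) (px_feas u.2 v.2 t.2 w)
        (by simp only [px, pat, dm_gr_inf, c1]) (by simp only [px, pat, dm_gr_inf, c2])
        (by simp only [px, pat, dm_gr_inf, c3])
      refine le_trans ?_ (qp_mono (x := r * (r + 1) / 2 + r * (r + 1) / 2 + r * (r + 1) / 2)
        (by linarith))
      rw [qp_add, qp_add]
      have hp := qp_pos (F := F) (r * (r + 1) / 2)
      have := mul_le_mul (mul_le_mul (k1.trans h.ip') (k2.trans h.ip') n2 (by positivity))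
        (k3.trans h.ip') n3 (by positivity)
      linarith
  rw [av_mul_right] at h1
  linarith

/-- the face function -/
noncomputable def Fc (a b c : SignType) (u v t : Om F r) : ℝ :=
  av (fun y => UU a u y * UU b v y * UU c t y)

lemma Fc_nonneg (h : Hyp F r) (a b c : SignType) (u v t : Om F r) : 0 ≤ Fc a b c u v t :=
  av_nonneg fun _ => mul_nonneg (mul_nonneg (UU_nonneg h _ _ _) (UU_nonneg h _ _ _))
    (UU_nonneg h _ _ _)

theorem Fc_crude (h : Hyp F r) (a b c : SignType) (u v t : Om F r) :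
    Fc a b c u v t ≤ (64 * KK (Fintype.card (II r)) + 1)
      * qp F (fc (Fintype.card (II r)) (1 / (2 * Fintype.card (II r))) (sx u.2 v.2 t.2)) := by
  have hK := KK_nonneg (Fintype.card (II r))
  have hf := sx_feas u.2 v.2 t.2
  have he : (0 : ℝ) ≤ 1 / (2 * Fintype.card (II r)) := by positivity
  set E := fc (Fintype.card (II r)) (1 / (2 * Fintype.card (II r))) (sx u.2 v.2 t.2) with hE
  have h1 : 1 ≤ qp F E := one_le_qp (fc_nonneg hf he)
  have h0 : 1 ≤ (64 * KK (Fintype.card (II r)) + 1) * qp F E := by nlinarith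
  have h2 : ∀ k : ℕ, (k = (sx u.2 v.2 t.2).k12 ∨ k = (sx u.2 v.2 t.2).k13 ∨
      k = (sx u.2 v.2 t.2).k23) → 16 * KK (Fintype.card (II r)) * qp F ((k : ℝ) ^ 2 / 8 + k / 4)
        ≤ (64 * KK (Fintype.card (II r)) + 1) * qp F E := by
    intro k hk
    have := qp_mono (F := F) (fc_lower hf he hk)
    have := qp_pos (F := F) ((k : ℝ) ^ 2 / 8 + k / 4)
    nlinarith
  unfold Fc
  by_cases ha : a = 0 <;> by_cases hb : b = 0 <;> by_cases hc : c = 0
  · simpa [ha, hb, hc, UU_zero, av_const] using h0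
  · simp only [ha, hb, UU_zero, one_mul]; rw [UU_av h]; exact h0
  · simp only [ha, hc, UU_zero, one_mul, mul_one]; rw [UU_av h]; exact h0
  · simp only [ha, UU_zero, one_mul]
    exact (crude2 h hb hc v t).trans (h2 _ (Or.inr (Or.inr (dm_gr_inf _ _).symm)))
  · simp only [hb, hc, UU_zero, mul_one]; rw [UU_av h]; exact h0
  · simp only [hb, UU_zero, mul_one]
    exact (crude2 h ha hc u t).trans (h2 _ (Or.inr (Or.inl (dm_gr_inf _ _).symm)))
  · simp only [hc, UU_zero, mul_one]
    exact (crude2 h ha hb u v).trans (h2 _ (Or.inl (dm_gr_inf _ _).symm))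
  · refine (crude3 h ha hb hc u v t).trans ?_
    nlinarith

/-- the sign attached to a pair of states -/
noncomputable def SG (u v : Om F r) : ℝ := sgn u.1 * sgn v.1 * sg (u.2 - v.2)

lemma abs_sgn (σ : Bool) : |sgn σ| = 1 := by cases σ <;> simp [sgn]

lemma abs_SG_le (u v : Om F r) : |SG u v| ≤ 1 := by
  rw [SG, abs_mul, abs_mul, abs_sgn, abs_sgn]; simpa using abs_sg_le _

lemma abs_sign_le (a : SignType) : |(a : ℝ)| ≤ 1 := by cases a <;> simp

lemma fac_nonneg (a b : SignType) (u v : Om F r) : 0 ≤ 1 + (a : ℝ) * b * SG u v := by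
  have : |(a : ℝ) * b * SG u v| ≤ 1 := by
    rw [abs_mul, abs_mul]
    exact mul_le_one₀ (mul_le_one₀ (abs_sign_le a) (abs_nonneg _) (abs_sign_le b)) (abs_nonneg _)
      (abs_SG_le u v)
  linarith [neg_abs_le ((a : ℝ) * b * SG u v)]

lemma UU_ne (h : Hyp F r) {a b : SignType} (ha : a ≠ 0) (hb : b ≠ 0) {u v : Om F r}
    (huv : (mat (u.2 - v.2)).det ≠ 0) {σ τ : Bool} {w : Sy (II r) F} (h1 : UU a u (σ, w) ≠ 0)
    (h2 : UU b v (τ, w) ≠ 0) : (a : ℝ) * b * SG u v = sgn σ * sgn τ := by
  simp only [UU, if_neg ha, if_neg hb, ne_eq, ite_eq_right_iff, Classical.not_imp] at h1 h2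
  have := h1.1.pair h.ev h2.1 (by simpa using huv)
  rw [sub_sub_sub_cancel_right] at this
  rw [SG, this]
  have k1 : (a : ℝ) * sgn u.1 * (a * sgn u.1) = 1 := by
    rcases beta_cases ha u.1 with k | k <;> simp [k]
  have k2 : (b : ℝ) * sgn v.1 * (b * sgn v.1) = 1 := by
    rcases beta_cases hb v.1 with k | k <;> simp [k]
  linear_combination (b * sgn v.1 * (b * sgn v.1) * sgn σ * sgn τ) * k1 + (sgn σ * sgn τ) * k2

/-- the loss factor for generic faces -/
noncomputable def lam (F : Type*) [Fintype F] (r : ℕ) : ℝ := th F ^ r / mu F r ^ 3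

lemma mu_le_one : mu F r ≤ 1 := by
  have := KK_nonneg r
  have : 0 ≤ KK r / Fintype.card F := by positivity
  unfold mu; linarith

lemma one_le_th : 1 ≤ th F := by
  rw [th, le_div_iff₀ one_sub_pos]
  have : (0 : ℝ) ≤ 1 / Fintype.card F := by positivity
  have : (0 : ℝ) ≤ 2 / Fintype.card F := by positivity
  linarith

lemma one_le_lam (h : Hyp F r) : 1 ≤ lam F r := by
  have hm : 0 < mu F r := by linarith [h.mu]
  rw [lam, le_div_iff₀ (by positivity), one_mul]
  exact (pow_le_one₀ hm.le mu_le_one).trans (one_le_pow₀ one_le_th)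

lemma sgn_mul_self (σ : Bool) : sgn σ * sgn σ = 1 := by cases σ <;> simp [sgn]

lemma sum_sigma (h : Hyp F r) {a b : SignType} (ha : a ≠ 0) (hb : b ≠ 0) {u v : Om F r}
    (huv : (mat (u.2 - v.2)).det ≠ 0) (w : Sy (II r) F) (g : Bool → ℝ) {c : ℝ}
    (hg : ∀ σ, UU a u (σ, w) * UU b v (σ, w) * g σ ≤ c) :
    UU a u (true, w) * UU b v (true, w) * g true
      + UU a u (false, w) * UU b v (false, w) * g false ≤ c := by
  by_cases h1 : UU a u (true, w) = 0
  · simpa [h1] using hg false
  by_cases h2 : UU b v (true, w) = 0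
  · simpa [h2] using hg false
  by_cases h3 : UU b v (false, w) = 0
  · simpa [h3] using hg true
  have k1 := UU_ne h ha hb huv h1 h2
  have k2 := UU_ne h ha hb huv h1 h3
  rw [k1] at k2
  norm_num [sgn] at k2

lemma sharp2 (h : Hyp F r) {a b : SignType} (ha : a ≠ 0) (hb : b ≠ 0) {u v : Om F r}
    (huv : (mat (u.2 - v.2)).det ≠ 0) :
    av (fun y => UU a u y * UU b v y) ≤ lam F r * (1 + a * b * SG u v) := by
  classical
  have hl := one_le_lam h
  by_cases hex : ∃ y, UU a u y ≠ 0 ∧ UU b v y ≠ 0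
  swap
  · push Not at hex
    refine le_trans (av_le_const (c := 0) fun y => ?_)
      (mul_nonneg (by linarith) (fac_nonneg a b u v))
    by_cases h1 : UU a u y = 0
    · simp [h1]
    · simp [hex y h1]
  obtain ⟨⟨σ, w⟩, h1, h2⟩ := hex
  rw [UU_ne h ha hb huv h1 h2, sgn_mul_self, av_prod, av_comm]
  have hp := h.p0_pos
  refine le_trans (av_mono (g := fun w => (if cork (u.2 - w) = r ∧ cork (v.2 - w) = r then 1 else 0)
    * ((1 / p0 F r) ^ 2 / 2)) fun w => ?_) ?_
  · rw [av_bool, ← mul_div_assoc]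
    gcongr
    have := sum_sigma h ha hb huv w (fun _ => 1)
      (c := (if cork (u.2 - w) = r ∧ cork (v.2 - w) = r then 1 else 0) * (1 / p0 F r) ^ 2)
      fun σ => by
        have := mul_le_mul (UU_le h ha u (σ, w)) (UU_le h hb v (σ, w)) (UU_nonneg h _ _ _)
          (by split_ifs <;> positivity)
        rw [mul_one]
        refine this.trans (le_of_eq ?_)
        by_cases c1 : cork (u.2 - w) = r <;> by_cases c2 : cork (v.2 - w) = r <;>
          simp [c1, c2, sq]
    simpa using this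
  · rw [av_mul_right, av_ite, card_Sy, card_II]
    have k1 := nv_pair huv
    have k2 := h.ip
    have hm : 0 < mu F r := by linarith [h.mu]
    have e : qp F (r * r) / qp F (((2 * r : ℕ) : ℝ) * ((2 * r : ℕ) + 1) / 2)
        * qp F (r * (r + 1) / 2) ^ 2 = 1 := by
      rw [div_mul_eq_mul_div, div_eq_one_iff_eq (qp_pos _).ne', sq, ← qp_add, ← qp_add]
      congr 1; push_cast; ring
    have hth := pow_pos (th_pos (F := F)) r
    have := qp_pos (F := F) (((2 * r : ℕ) : ℝ) * ((2 * r : ℕ) + 1) / 2)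
    have := qp_pos (F := F) (r * r)
    calc _ ≤ th F ^ r * qp F (r * r) / qp F (((2 * r : ℕ) : ℝ) * ((2 * r : ℕ) + 1) / 2)
          * ((2 / mu F r * qp F (r * (r + 1) / 2)) ^ 2 / 2) := by gcongr
      _ = th F ^ r / mu F r ^ 2 * 2 * (qp F (r * r)
          / qp F (((2 * r : ℕ) : ℝ) * ((2 * r : ℕ) + 1) / 2) * qp F (r * (r + 1) / 2) ^ 2) := by
        ring
      _ ≤ _ := by
        rw [e, mul_one, lam, one_add_one_eq_two]
        gcongr ?_ * 2
        exact div_le_div_of_nonneg_left hth.le (by positivity)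
          (pow_le_pow_of_le_one hm.le mu_le_one (by norm_num))

lemma sharp3 (h : Hyp F r) {a b c : SignType} (ha : a ≠ 0) (hb : b ≠ 0) (hc : c ≠ 0)
    {u v t : Om F r} (huv : (mat (u.2 - v.2)).det ≠ 0) (hut : (mat (u.2 - t.2)).det ≠ 0)
    (hvt : (mat (v.2 - t.2)).det ≠ 0) :
    Fc a b c u v t ≤ lam F r * ((1 + a * b * SG u v) * (1 + a * c * SG u t)
      * (1 + b * c * SG v t)) := by
  classical
  have hl := one_le_lam h
  unfold Fc
  by_cases hex : ∃ y, UU a u y ≠ 0 ∧ UU b v y ≠ 0 ∧ UU c t y ≠ 0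
  swap
  · push Not at hex
    refine le_trans (av_le_const (c := 0) fun y => ?_) (mul_nonneg (by linarith) (mul_nonneg
      (mul_nonneg (fac_nonneg a b u v) (fac_nonneg a c u t)) (fac_nonneg b c v t)))
    by_cases h1 : UU a u y = 0
    · simp [h1]
    by_cases h2 : UU b v y = 0
    · simp [h2]
    · simp [hex y h1 h2]
  obtain ⟨⟨σ, w⟩, h1, h2, h3⟩ := hex
  rw [UU_ne h ha hb huv h1 h2, UU_ne h ha hc hut h1 h3, UU_ne h hb hc hvt h2 h3, sgn_mul_self,
    av_prod, av_comm]
  have hp := h.p0_pos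
  refine le_trans (av_mono (g := fun w => (if cork (u.2 - w) = r ∧ cork (v.2 - w) = r ∧
    cork (t.2 - w) = r then 1 else 0) * ((1 / p0 F r) ^ 3 / 2)) fun w => ?_) ?_
  · rw [av_bool, ← mul_div_assoc]
    gcongr
    exact sum_sigma h ha hb huv w (fun σ => UU c t (σ, w)) fun σ => by
        have := mul_le_mul (mul_le_mul (UU_le h ha u (σ, w)) (UU_le h hb v (σ, w))
          (UU_nonneg h _ _ _) (by split_ifs <;> positivity)) (UU_le h hc t (σ, w))
          (UU_nonneg h _ _ _) (by split_ifs <;> positivity)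
        refine this.trans (le_of_eq ?_)
        by_cases c1 : cork (u.2 - w) = r <;> by_cases c2 : cork (v.2 - w) = r <;>
          by_cases c3 : cork (t.2 - w) = r <;> simp [c1, c2, c3, pow_succ]
  · rw [av_mul_right, av_ite, card_Sy, card_II]
    have k1 := nv_trip h.h2 huv hut hvt
    have k2 := h.ip
    have hm : 0 < mu F r := by linarith [h.mu]
    have e : qp F (r * (r - 1) / 2) / qp F (((2 * r : ℕ) : ℝ) * ((2 * r : ℕ) + 1) / 2)
        * qp F (r * (r + 1) / 2) ^ 3 = 1 := by
      rw [div_mul_eq_mul_div, div_eq_one_iff_eq (qp_pos _).ne', pow_three, ← qp_add, ← qp_add,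
        ← qp_add]
      congr 1; push_cast; ring
    have hth := pow_pos (th_pos (F := F)) r
    have := qp_pos (F := F) (((2 * r : ℕ) : ℝ) * ((2 * r : ℕ) + 1) / 2)
    have := qp_pos (F := F) (r * (r - 1) / 2)
    calc _ ≤ 2 * th F ^ r * qp F (r * (r - 1) / 2)
          / qp F (((2 * r : ℕ) : ℝ) * ((2 * r : ℕ) + 1) / 2)
          * ((2 / mu F r * qp F (r * (r + 1) / 2)) ^ 3 / 2) := by gcongr
      _ = th F ^ r / mu F r ^ 3 * 8 * (qp F (r * (r - 1) / 2)
          / qp F (((2 * r : ℕ) : ℝ) * ((2 * r : ℕ) + 1) / 2) * qp F (r * (r + 1) / 2) ^ 3) := by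
        ring
      _ = _ := by
        rw [e, lam]; ring

theorem Fc_sharp (h : Hyp F r) (a b c : SignType)
    {u v t : Om F r} (huv : (mat (u.2 - v.2)).det ≠ 0) (hut : (mat (u.2 - t.2)).det ≠ 0)
    (hvt : (mat (v.2 - t.2)).det ≠ 0) :
    Fc a b c u v t ≤ lam F r * ((1 + a * b * SG u v) * (1 + a * c * SG u t)
      * (1 + b * c * SG v t)) := by
  have h0 := one_le_lam h
  by_cases ha : a = 0 <;> by_cases hb : b = 0 <;> by_cases hc : c = 0
  · simpa [Fc, ha, hb, hc, UU_zero, av_const] using h0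
  · simp only [Fc, ha, hb, UU_zero, one_mul]; rw [UU_av h]; simpa using h0
  · simp only [Fc, ha, hc, UU_zero, one_mul, mul_one]; rw [UU_av h]; simpa using h0
  · simp only [Fc, ha, UU_zero, one_mul]
    simpa using sharp2 h hb hc hvt
  · simp only [Fc, hb, hc, UU_zero, mul_one]; rw [UU_av h]; simpa using h0
  · simp only [Fc, hb, UU_zero, mul_one]
    simpa using sharp2 h ha hc hut
  · simp only [Fc, hc, UU_zero, mul_one]
    simpa using sharp2 h ha hb huv
  · exact sharp3 h ha hb hc huv hut hvt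

end Vale.Agent.P050
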