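import Vale.Agent.P050.Degen

/-! The gadget lemma. -/

namespace Vale.Agent.P050

open Module Submodule Finset Matrix

lemma resample {Ω ι : Type*} [Fintype Ω] [Nonempty Ω] [Fintype ι] [DecidableEq ι]
    (S : Ω → Ω → ℝ) {η : ℝ}
    (hS : ∀ f g : Ω → ℝ, (∀ x, |f x| ≤ 1) → (∀ x, |g x| ≤ 1) →
      |av fun u => av fun w => S u w * f u * g w| ≤ η)
    {a b : ι} (hab : a ≠ b) (Φ Ψ : (ι → Ω) → ℝ) (hΦ : ∀ x, |Φ x| ≤ 1) (hΨ : ∀ x, |Ψ x| ≤ 1)
    (hΦb : ∀ x w, Φ (Function.update x b w) = Φ x) (hΨa : ∀ x u, Ψ (Function.update x a u) = Ψ x) :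
    |av fun x => S (x a) (x b) * Φ x * Ψ x| ≤ η := by
  rw [av_update b, av_update a]
  refine (abs_av_le _).trans (av_le_const fun x => ?_)
  refine le_trans (le_of_eq ?_) (hS (fun u => Φ (Function.update x a u))
    (fun w => Ψ (Function.update x b w)) (fun _ => hΦ _) (fun _ => hΨ _))
  congr 1
  refine av_congr fun u => av_congr fun w => ?_
  rw [hΦb, Function.update_self, Function.update_of_ne hab, Function.update_self,
    Function.update_comm hab, hΨa]

variable {F : Type*} [Field F] [Fintype F] {r : ℕ}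

omit [Fintype F] in
lemma det_swap (x y : Sy (II r) F) : (mat (x - y)).det = (mat (y - x)).det := by
  rw [← neg_sub y x, mat_neg, det_neg, card_II, pow_mul]
  simp

lemma SG_symm (u v : Om F r) : SG u v = SG v u := by
  simp only [SG, sg, det_swap u.2 v.2]; ring

/-- the cut parameter -/
noncomputable def cutp (F : Type*) [Fintype F] (r : ℕ) : ℝ :=
  √((2 * KK (2 * r) + 4) / Fintype.card F)

lemma SG_cut (h : Hyp F r) (f g : Om F r → ℝ) (hf : ∀ x, |f x| ≤ 1) (hg : ∀ x, |g x| ≤ 1) :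
    |av fun u => av fun w => SG u w * f u * g w| ≤ cutp F r := by
  have : Nonempty (II r) := ⟨Sum.inl ⟨0, h.pos⟩⟩
  rw [av_prod]
  refine (abs_av_le _).trans (av_le_const fun σ => ?_)
  simp only [av_prod]
  rw [av_comm]
  refine (abs_av_le _).trans (av_le_const fun τ => ?_)
  have := sg_cut h.h2 (fun x : Sy (II r) F => sgn σ * f (σ, x)) (fun x => sgn τ * g (τ, x))
    (fun x => by rw [abs_mul, abs_sgn, one_mul]; exact hf _)
    (fun x => by rw [abs_mul, abs_sgn, one_mul]; exact hg _)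
  rw [card_II] at this
  refine Real.abs_le_sqrt (le_trans (le_of_eq ?_) this)
  congr 1
  exact av_congr fun x => av_congr fun y => by simp only [SG]; ring

/-- the sign of an edge -/
noncomputable def Se (x : Fin 8 → Om F r) (e : Fin 18) : ℝ := SG (x (ea e)) (x (eb e))

lemma abs_prod_Se (x : Fin 8 → Om F r) (s : Finset (Fin 18)) : |∏ e ∈ s, Se x e| ≤ 1 := by
  rw [abs_prod]
  exact prod_le_one (fun _ _ => abs_nonneg _) fun _ _ => abs_SG_le _ _

lemma av_prod_Se (h : Hyp F r) {s : Finset (Fin 18)} (hs : s.Nonempty) :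
    |av fun x : Fin 8 → Om F r => ∏ e ∈ s, Se x e| ≤ cutp F r := by
  obtain ⟨e, he⟩ := hs
  have := resample SG (SG_cut h) (ea_ne_eb e)
    (fun x => ∏ e' ∈ (s.erase e).filter (fun e' => ea e' ≠ eb e ∧ eb e' ≠ eb e), Se x e')
    (fun x => ∏ e' ∈ (s.erase e).filter (fun e' => ¬ (ea e' ≠ eb e ∧ eb e' ≠ eb e)), Se x e')
    (fun x => abs_prod_Se x _) (fun x => abs_prod_Se x _)
    (fun x w => prod_congr rfl fun e' he' => by
      have := (mem_filter.1 he').2
      simp only [Se, Function.update_of_ne this.1, Function.update_of_ne this.2])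
    (fun x w => prod_congr rfl fun e' he' => by
      have h1 := mem_filter.1 he'
      have := (edge_simple e e' (ne_of_mem_erase h1.1)).resolve_left h1.2
      simp only [Se, Function.update_of_ne this.1, Function.update_of_ne this.2])
  refine le_trans (le_of_eq ?_) this
  congr 1
  refine av_congr fun x => ?_
  rw [mul_assoc, prod_filter_mul_prod_filter_not, ← mul_prod_erase s _ he]
  rfl

/-- the product of the two signs along one side of an edge -/
noncomputable def cc (b : Fin 12 → Fin 3 → SignType) (c : Cor) : ℝ :=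
  (b c.1 (c.2 + 1) : ℝ) * b c.1 (c.2 + 2)

lemma abs_cc_le (b : Fin 12 → Fin 3 → SignType) (c : Cor) : |cc b c| ≤ 1 := by
  rw [cc, abs_mul]; exact mul_le_one₀ (abs_sign_le _) (abs_nonneg _) (abs_sign_le _)

/-- the main term -/
noncomputable def AA (b : Fin 12 → Fin 3 → SignType) (e : Fin 18) : ℝ :=
  1 + cc b (sd e 0) * cc b (sd e 1)

lemma AA_nonneg (b : Fin 12 → Fin 3 → SignType) (e : Fin 18) : 0 ≤ AA b e := by
  have h1 := abs_le.1 (abs_cc_le b (sd e 0))
  have h2 := abs_le.1 (abs_cc_le b (sd e 1))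
  unfold AA
  nlinarith [mul_nonneg (sub_nonneg.2 h1.2) (sub_nonneg.2 h2.2),
    mul_nonneg (sub_nonneg.2 h1.1) (sub_nonneg.2 h2.1)]

lemma AA_le (b : Fin 12 → Fin 3 → SignType) (e : Fin 18) : AA b e ≤ 2 := by
  have h1 := abs_le.1 (abs_cc_le b (sd e 0))
  have h2 := abs_le.1 (abs_cc_le b (sd e 1))
  unfold AA
  nlinarith [mul_nonneg (sub_nonneg.2 h1.2) (sub_nonneg.2 h2.1),
    mul_nonneg (sub_nonneg.2 h1.1) (sub_nonneg.2 h2.2)]

lemma prod_AA_le (b : Fin 12 → Fin 3 → SignType) (s : Finset (Fin 18)) :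
    ∏ e ∈ s, AA b e ≤ 2 ^ s.card := by
  rw [← prod_const]
  exact prod_le_prod (fun e _ => AA_nonneg b e) fun e _ => AA_le b e

noncomputable def GG (b : Fin 12 → Fin 3 → SignType) (x : Fin 8 → Om F r) : ℝ :=
  ∏ e, ((cc b (sd e 0) + cc b (sd e 1)) * Se x e + AA b e)

lemma GG_nonneg (b : Fin 12 → Fin 3 → SignType) (x : Fin 8 → Om F r) : 0 ≤ GG b x := by
  refine prod_nonneg fun e _ => ?_
  have h1 := abs_le.1 (abs_cc_le b (sd e 0))
  have h2 := abs_le.1 (abs_cc_le b (sd e 1))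
  have h3 : |Se x e| ≤ 1 := abs_SG_le _ _
  have h3 := abs_le.1 h3
  unfold AA
  nlinarith [mul_nonneg (sub_nonneg.2 h3.2) (mul_nonneg (sub_nonneg.2 h1.2) (sub_nonneg.2 h2.2)),
    mul_nonneg (sub_nonneg.2 h3.1) (mul_nonneg (sub_nonneg.2 h1.1) (sub_nonneg.2 h2.1))]

lemma av_GG (h : Hyp F r) (b : Fin 12 → Fin 3 → SignType) :
    av (GG (F := F) (r := r) b) ≤ ∏ e, AA b e + 2 ^ 36 * cutp F r := by
  have hc : 0 ≤ cutp F r := Real.sqrt_nonneg _
  unfold GG
  rw [av_congr fun x => prod_add _ _ _]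
  simp only [prod_mul_distrib]
  rw [av_sum, ← add_sum_erase _ _ (empty_mem_powerset _)]
  refine add_le_add (le_of_eq (by simp [av_const])) ?_
  refine (sum_le_card_nsmul _ _ (2 ^ 18 * cutp F r) fun t ht => ?_).trans ?_
  · have hne : t.Nonempty := nonempty_iff_ne_empty.2 (ne_of_mem_erase ht)
    rw [av_congr (g := fun x => ((∏ e ∈ t, (cc b (sd e 0) + cc b (sd e 1))) *
      ∏ e ∈ univ \ t, AA b e) * ∏ e ∈ t, Se x e) fun x => by ring, av_mul_left]
    refine (le_abs_self _).trans ?_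
    rw [abs_mul]
    refine mul_le_mul ?_ (av_prod_Se h hne) (abs_nonneg _) (by positivity)
    rw [abs_mul, abs_prod, abs_of_nonneg (prod_nonneg fun e _ => AA_nonneg b e)]
    have k1 : ∏ e ∈ t, |cc b (sd e 0) + cc b (sd e 1)| ≤ 2 ^ t.card := by
      rw [← prod_const]
      exact prod_le_prod (fun e _ => abs_nonneg _) fun e _ => (abs_add_le _ _).trans
        (by linarith [abs_cc_le b (sd e 0), abs_cc_le b (sd e 1)])
    refine (mul_le_mul k1 (prod_AA_le b _) (prod_nonneg fun e _ => AA_nonneg b e)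
      (by positivity)).trans (le_of_eq ?_)
    rw [← pow_add, card_univ_sdiff, add_tsub_cancel_of_le (card_le_univ t)]
    simp
  · rw [nsmul_eq_mul, ← mul_assoc]
    gcongr
    have h1 : ((powerset (univ : Finset (Fin 18))).erase ∅).card ≤ 2 ^ 18 :=
      card_erase_le.trans (by simp)
    generalize ((powerset (univ : Finset (Fin 18))).erase ∅).card = m at h1
    have h2 : (m : ℝ) ≤ 2 ^ 18 := by exact_mod_cast h1
    linarith

/-- product of the face functions -/
noncomputable def PF (b : Fin 12 → Fin 3 → SignType) (x : Fin 8 → Om F r) : ℝ :=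
  ∏ j, Fc (b j 0) (b j 1) (b j 2) (x (fv j 0)) (x (fv j 1)) (x (fv j 2))

lemma PF_gen (h : Hyp F r) (b : Fin 12 → Fin 3 → SignType) {x : Fin 8 → Om F r}
    (hx : ∀ e, (mat ((x (ea e)).2 - (x (eb e)).2)).det ≠ 0) :
    PF b x ≤ lam F r ^ 12 * GG b x := by
  have h1 : ∀ j k, (mat ((x (fv j (k + 1))).2 - (x (fv j (k + 2))).2)).det ≠ 0 := by
    intro j k
    rcases eo_ends j k with ⟨e1, e2⟩ | ⟨e1, e2⟩ <;> rw [e1, e2]
    · exact hx _
    · rw [det_swap]; exact hx _
  have h2 : ∀ j k, SG (x (fv j (k + 1))) (x (fv j (k + 2))) = Se x (eo j k) := by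
    intro j k
    rcases eo_ends j k with ⟨e1, e2⟩ | ⟨e1, e2⟩ <;> rw [e1, e2]
    · rfl
    · rw [SG_symm]; rfl
  have h3 : GG b x = ∏ j, ∏ k, (1 + cc b (j, k) * Se x (eo j k)) := by
    rw [← Fintype.prod_prod_type' (f := fun j k => 1 + cc b (j, k) * Se x (eo j k)), prod_cor]
    refine prod_congr rfl fun e _ => ?_
    have : Se x e * Se x e = 1 := by
      have k1 := eta_mul_self (hx e)
      have k2 := sgn_mul_self (x (ea e)).1
      have k3 := sgn_mul_self (x (eb e)).1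
      simp only [Se, SG, sg]
      calc _ = (sgn (x (ea e)).1 * sgn (x (ea e)).1) * (sgn (x (eb e)).1 * sgn (x (eb e)).1)
          * (eta (mat ((x (ea e)).2 - (x (eb e)).2)).det
            * eta (mat ((x (ea e)).2 - (x (eb e)).2)).det) := by ring
        _ = 1 := by rw [k1, k2, k3]; ring
    simp only [eo_sd, AA]
    linear_combination (-(cc b (sd e 0) * cc b (sd e 1))) * this
  rw [h3, show lam F r ^ 12 = ∏ _j : Fin 12, lam F r by simp, ← prod_mul_distrib]
  refine prod_le_prod (fun j _ => Fc_nonneg h _ _ _ _ _ _) fun j _ => ?_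
  refine (Fc_sharp h _ _ _ (h1 j 2) (by rw [det_swap]; exact h1 j 1) (h1 j 0)).trans (le_of_eq ?_)
  have a0 : SG (x (fv j 1)) (x (fv j 2)) = Se x (eo j 0) := h2 j 0
  have a1 : SG (x (fv j 0)) (x (fv j 2)) = Se x (eo j 1) := (SG_symm _ _).trans (h2 j 1)
  have a2 : SG (x (fv j 0)) (x (fv j 1)) = Se x (eo j 2) := h2 j 2
  have c0 : cc b (j, 0) = b j 1 * b j 2 := rfl
  have c1 : cc b (j, 1) = b j 2 * b j 0 := rfl
  have c2 : cc b (j, 2) = b j 0 * b j 1 := rfl
  rw [Fin.prod_univ_three, ← a0, ← a1, ← a2, c0, c1, c2]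
  change lam F r * ((1 + ↑(b j 0) * ↑(b j 1) * SG (x (fv j 0)) (x (fv j 1))) *
    (1 + ↑(b j 0) * ↑(b j 2) * SG (x (fv j 0)) (x (fv j 2))) *
    (1 + ↑(b j 1) * ↑(b j 2) * SG (x (fv j 1)) (x (fv j 2)))) = _
  ring

/-- the constant for singular configurations -/
noncomputable def CD (r : ℕ) : ℝ := (64 * KK (2 * r) + 1) ^ 12 * KK (2 * r) ^ 7

lemma dg_ge {n : ℕ} {s : St} (h : SFeas n s) (h1 : s.k12 ≠ 0 ∨ s.k13 ≠ 0 ∨ s.k23 ≠ 0) :
    1 ≤ dg s := by
  have : 1 + 2 * s.m ≤ s.k12 + s.k13 + s.k23 := by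
    have := h.m12; have := h.m13; have := h.m23
    omega
  have : (1 : ℝ) + 2 * s.m ≤ s.k12 + s.k13 + s.k23 := by exact_mod_cast this
  unfold dg; linarith

lemma PF_deg (h : Hyp F r) (b : Fin 12 → Fin 3 → SignType) {x : Fin 8 → Om F r} {e : Fin 18}
    (hx : (mat ((x (ea e)).2 - (x (eb e)).2)).det = 0) :
    PF b x ≤ (64 * KK (2 * r) + 1) ^ 12 * qp F (-(1 / (4 * r)))
      * ∏ j, fw (x (fv j 0)).2 (x (fv j 1)).2 (x (fv j 2)).2 := by
  have hr : (0 : ℝ) < r := by exact_mod_cast h.pos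
  obtain ⟨j0, hj0⟩ : ∃ j, 1 ≤ dg (sx (x (fv j 0)).2 (x (fv j 1)).2 (x (fv j 2)).2) := by
    have k : ∀ j k, e = eo j k → cork ((x (fv j (k + 1))).2 - (x (fv j (k + 2))).2) ≠ 0 := by
      intro j k he
      rw [ne_eq, cork_eq_zero, not_not]
      rcases eo_ends j k with ⟨e1, e2⟩ | ⟨e1, e2⟩ <;> rw [e1, e2, ← he]
      · exact hx
      · rw [det_swap]; exact hx
    have k2 := k _ _ (eo_sd e 0).symm
    generalize sd e 0 = c at k2
    obtain ⟨j, i⟩ := c
    refine ⟨j, dg_ge (sx_feas _ _ _) ?_⟩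
    simp only [sx, st, dm_gr_inf]
    fin_cases i
    · exact Or.inr (Or.inr k2)
    · refine Or.inr (Or.inl ?_)
      rw [← cork_neg, neg_sub]; exact k2
    · exact Or.inl k2
  have hK := KK_nonneg (2 * r)
  have k3 : ∀ j, Fc (b j 0) (b j 1) (b j 2) (x (fv j 0)) (x (fv j 1)) (x (fv j 2)) ≤
      (64 * KK (2 * r) + 1) * ((if j = j0 then qp F (-(1 / (4 * r))) else 1) *
        fw (x (fv j 0)).2 (x (fv j 1)).2 (x (fv j 2)).2) := by
    intro j
    refine (Fc_crude h _ _ _ _ _ _).trans ?_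
    rw [fw, card_II]
    gcongr
    have e1 : ∀ s : St, fc (2 * r) (1 / (2 * (2 * r : ℕ))) s
        = -(1 / (4 * r)) * dg s ^ 2 + fc (2 * r) (1 / (2 * r : ℕ)) s := by
      intro s
      simp only [fc]; push_cast; field_simp; ring
    rw [e1, qp_add]
    gcongr
    · exact (qp_pos _).le
    have hp : (0 : ℝ) < 1 / (4 * r) := by positivity
    split_ifs with hj
    · subst hj
      exact qp_mono (by nlinarith [mul_le_mul_of_nonneg_left (one_le_pow₀ (n := 2) hj0) hp.le])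
    · refine le_trans (qp_mono ?_) (qp_zero (F := F)).le
      nlinarith [mul_nonneg hp.le
        (sq_nonneg (dg (sx (x (fv j 0)).2 (x (fv j 1)).2 (x (fv j 2)).2)))]
  refine (prod_le_prod (fun j _ => Fc_nonneg h _ _ _ _ _ _) fun j _ => k3 j).trans (le_of_eq ?_)
  rw [prod_mul_distrib, prod_mul_distrib, prod_ite_eq']
  simp [mul_assoc]

theorem av_PF (h : Hyp F r) (hr : 20000 ≤ r) (b : Fin 12 → Fin 3 → SignType) :
    av (PF (F := F) (r := r) b) ≤ lam F r ^ 12 * (∏ e, AA b e + 2 ^ 36 * cutp F r)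
      + CD r * qp F (-(1 / (4 * r))) := by
  have hl := one_le_lam h
  have hK := KK_nonneg (2 * r)
  have hq := qp_pos (F := F) (-(1 / (4 * r)))
  refine le_trans (av_mono (g := fun x => lam F r ^ 12 * GG b x + (64 * KK (2 * r) + 1) ^ 12
    * qp F (-(1 / (4 * r))) * ∏ j, fw (x (fv j 0)).2 (x (fv j 1)).2 (x (fv j 2)).2)
    fun x => ?_) ?_
  · by_cases hx : ∀ e, (mat ((x (ea e)).2 - (x (eb e)).2)).det ≠ 0
    · refine (PF_gen h b hx).trans (le_add_of_nonneg_right ?_)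
      have := prod_pos fun j (_ : j ∈ univ) => fw_pos (x (fv j 0)).2 (x (fv j 1)).2 (x (fv j 2)).2
      positivity
    · push Not at hx
      obtain ⟨e, he⟩ := hx
      refine (PF_deg h b he).trans (le_add_of_nonneg_left ?_)
      have := GG_nonneg b x
      positivity
  · rw [av_add, av_mul_left, av_mul_left]
    refine add_le_add (mul_le_mul_of_nonneg_left (av_GG h b) (by positivity)) ?_
    have k := degen_flat (ι := II r) h.h2 (by rw [card_II]; omega)
    rw [card_II] at k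
    have e : av (fun x : Fin 8 → Om F r => ∏ j, fw (x (fv j 0)).2 (x (fv j 1)).2 (x (fv j 2)).2)
        = av (fun x : Fin 8 → Sy (II r) F => ∏ j, fw (x (fv j 0)) (x (fv j 1)) (x (fv j 2))) := by
      rw [← av_equiv (Equiv.arrowProdEquivProdArrow _ _ _).symm, av_prod]
      exact av_const (α := Fin 8 → Bool) _
    rw [e, CD, mul_right_comm]
    gcongr

open Filter Topology in
lemma err_tendsto (r : ℕ) (hr : 0 < r) (K C D : ℝ) :
    Tendsto (fun q : ℝ => ((((1 + 2 / q) / (1 - 1 / q)) ^ r / (1 - K / q) ^ 3) ^ 12 - 1) * 2 ^ 18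
      + (((1 + 2 / q) / (1 - 1 / q)) ^ r / (1 - K / q) ^ 3) ^ 12 * (2 ^ 36 * √(C / q))
      + D * q ^ (-(1 / (4 * (r : ℝ))))) atTop (𝓝 0) := by
  have h0 : ∀ c : ℝ, Tendsto (fun q : ℝ => c / q) atTop (𝓝 0) := fun c =>
    tendsto_const_nhds.div_atTop tendsto_id
  have h1 : Tendsto (fun q : ℝ => (((1 + 2 / q) / (1 - 1 / q)) ^ r / (1 - K / q) ^ 3) ^ 12)
      atTop (𝓝 1) := by
    have := (((((h0 2).const_add 1).div ((h0 1).const_sub 1) (by norm_num)).pow r).div
      (((h0 K).const_sub 1).pow 3) (by norm_num)).pow 12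
    simpa using this
  have h2 : Tendsto (fun q : ℝ => q ^ (-(1 / (4 * (r : ℝ))))) atTop (𝓝 0) :=
    tendsto_rpow_neg_atTop (by have : (0 : ℝ) < r := by exact_mod_cast hr
                               positivity)
  have := (((h1.sub_const 1).mul_const (2 ^ 18)).add
    (h1.mul (((h0 C).sqrt).const_mul (2 ^ 36)))).add (h2.const_mul D)
  simpa using this

theorem gadget {ε : ℝ} (hε : 0 < ε) : ∃ (Ω : Type) (_ : Fintype Ω) (_ : Nonempty Ω)
    (U : SignType → Ω → Ω → ℝ), (∀ b u v, U b u v = U b v u) ∧ (∀ b u v, 0 ≤ U b u v) ∧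
    (∀ b u, av (U b u) = 1) ∧ ∀ b : Fin 12 → Fin 3 → SignType,
      av (fun x : Fin 8 → Ω => ∏ j, av (fun y => ∏ k, U (b j k) (x (fv j k)) y))
        ≤ ∏ e, AA b e + ε := by
  obtain ⟨r, hr, hev⟩ : ∃ r : ℕ, 20000 ≤ r ∧ Even r := ⟨20000, le_rfl, by decide⟩
  have h1 := (err_tendsto r (by omega) (KK r) (2 * KK (2 * r) + 4) (CD r)).eventually
    (gt_mem_nhds hε)
  have h2 : ∀ᶠ q : ℝ in Filter.atTop, KK r / q < 1 / 2 :=
    (tendsto_const_nhds.div_atTop Filter.tendsto_id).eventually (gt_mem_nhds (by norm_num))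
  obtain ⟨N, hN⟩ := Filter.eventually_atTop.1 (h1.and h2)
  obtain ⟨p, hp, hpp⟩ := Nat.exists_infinite_primes (max ⌈N⌉₊ 3)
  have : Fact p.Prime := ⟨hpp⟩
  obtain ⟨k1, k2⟩ := hN p ((Nat.le_ceil N).trans (by exact_mod_cast le_of_max_le_left hp))
  have h : Hyp (ZMod p) r := by
    refine ⟨?_, hev, by omega, ?_⟩
    · intro h0
      have := (ZMod.natCast_eq_zero_iff 2 p).1 (by exact_mod_cast h0)
      have := Nat.le_of_dvd two_pos this
      have := le_of_max_le_right hp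
      omega
    · rw [mu, ZMod.card]; linarith
  refine ⟨Om (ZMod p) r, inferInstance, inferInstance, UU, UU_symm h, UU_nonneg h, UU_av h,
    fun b => ?_⟩
  have k3 := av_PF h hr b
  have k4 := prod_AA_le b univ
  have k5 := one_le_pow₀ (n := 12) (one_le_lam h)
  simp only [lam, th, mu, cutp, qp, ZMod.card, card_univ, Fintype.card_fin] at k3 k4 k5
  simp only [Fin.prod_univ_three]
  refine le_trans k3 ?_
  nlinarith [mul_le_mul_of_nonneg_left k4 (sub_nonneg.2 k5)]

end Vale.Agent.P050
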