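import Vale.Agent.P050.Arith2

/-! Linear algebra of Lagrangian subspaces and reduction by one vector. -/

namespace Vale.Agent.P050

open Module Submodule

variable {F : Type*} [Field F] {W : Type*} [AddCommGroup W] [Module F W]

/-- dimension of a subspace -/
noncomputable def dm (L : Submodule F W) : ℕ := finrank F L

/-- symplectic space of dimension `2 n` -/
structure Sp (ω : LinearMap.BilinForm F W) (n : ℕ) : Prop where
  alt : ∀ v, ω v v = 0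
  nd : ω.Nondegenerate
  dim : finrank F W = 2 * n

def Isot (ω : LinearMap.BilinForm F W) (L : Submodule F W) : Prop :=
  ∀ u ∈ L, ∀ v ∈ L, ω u v = 0

structure Lag (ω : LinearMap.BilinForm F W) (n : ℕ) (L : Submodule F W) : Prop where
  iso : Isot ω L
  dim : dm L = n

/-- reduction of `L` by the vector `v` -/
def red (ω : LinearMap.BilinForm F W) (L : Submodule F W) (v : W) : Submodule F W :=
  (L ⊓ LinearMap.ker (ω v)) ⊔ span F {v}

variable {ω : LinearMap.BilinForm F W} {n : ℕ}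

lemma Sp.skew (h : Sp ω n) (u v : W) : ω u v = - ω v u := by
  have := h.alt (u + v)
  simp only [map_add, LinearMap.add_apply, h.alt] at this
  linear_combination this

lemma Sp.symm0 (h : Sp ω n) {u v : W} (huv : ω u v = 0) : ω v u = 0 := by
  rw [h.skew, huv, neg_zero]

lemma Sp.refl (h : Sp ω n) : ω.IsRefl := fun _ _ huv => h.symm0 huv

lemma Isot.mono {L M : Submodule F W} (h : Isot ω L) (hM : M ≤ L) : Isot ω M :=
  fun u hu v hv => h u (hM hu) v (hM hv)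

lemma Isot.sup (hs : Sp ω n) {L M : Submodule F W} (hL : Isot ω L) (hM : Isot ω M)
    (h : ∀ u ∈ L, ∀ v ∈ M, ω u v = 0) : Isot ω (L ⊔ M) := by
  intro u hu v hv
  obtain ⟨u1, hu1, u2, hu2, rfl⟩ := mem_sup.1 hu
  obtain ⟨v1, hv1, v2, hv2, rfl⟩ := mem_sup.1 hv
  simp only [map_add, LinearMap.add_apply, hL u1 hu1 v1 hv1, hM u2 hu2 v2 hv2, h u1 hu1 v2 hv2,
    hs.symm0 (h v1 hv1 u2 hu2), add_zero]

lemma isot_span (hs : Sp ω n) (v : W) : Isot ω (span F {v}) := by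
  intro a ha b hb
  obtain ⟨s, rfl⟩ := mem_span_singleton.1 ha
  obtain ⟨t, rfl⟩ := mem_span_singleton.1 hb
  simp [hs.alt]

lemma mem_red_self (L : Submodule F W) (v : W) : v ∈ red ω L v :=
  mem_sup_right (mem_span_singleton_self v)

lemma red_isot (hs : Sp ω n) {L : Submodule F W} (hL : Isot ω L) (v : W) :
    Isot ω (red ω L v) := by
  refine Isot.sup hs (hL.mono inf_le_left) (isot_span hs v) ?_
  intro u hu w hw
  obtain ⟨t, rfl⟩ := mem_span_singleton.1 hw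
  have : ω v u = 0 := hu.2
  simp [hs.symm0 this]

lemma inf_red {M L : Submodule F W} {v : W} (hM : Isot ω M) (hv : v ∈ M) :
    M ⊓ red ω L v = (M ⊓ L) ⊔ span F {v} := by
  apply le_antisymm
  · intro w hw
    obtain ⟨hwM, hw⟩ := mem_inf.1 hw
    obtain ⟨a, ha, b, hb, rfl⟩ := mem_sup.1 hw
    have hbM : b ∈ M := (span_singleton_le_iff_mem v M).2 hv hb
    have haM : a ∈ M := by simpa using M.sub_mem hwM hbM
    exact add_mem_sup ⟨haM, ha.1⟩ hb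
  · refine sup_le ?_ ?_
    · intro w hw
      exact ⟨hw.1, mem_sup_left ⟨hw.2, hM v hv w hw.1⟩⟩
    · exact (span_singleton_le_iff_mem v _).2 ⟨hv, mem_red_self L v⟩

lemma le_red {I L : Submodule F W} {v : W} (hI : I ≤ L) (h : ∀ u ∈ I, ω v u = 0) :
    I ⊔ span F {v} ≤ red ω L v :=
  sup_le_sup_right (fun u hu => ⟨hI hu, h u hu⟩) _

variable [FiniteDimensional F W]

lemma dm_mono {L M : Submodule F W} (h : L ≤ M) : dm L ≤ dm M := Submodule.finrank_mono h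

lemma dm_sup_inf (L M : Submodule F W) : dm (L ⊔ M) + dm (L ⊓ M) = dm L + dm M :=
  finrank_sup_add_finrank_inf_eq L M

lemma eq_of_le_dm {L M : Submodule F W} (h : L ≤ M) (hd : dm M ≤ dm L) : L = M :=
  eq_of_le_of_finrank_le h hd

lemma dm_span_le (v : W) : dm (span F {v}) ≤ 1 := by
  by_cases h : v = 0
  · subst h; rw [dm, span_zero_singleton]; simp
  · exact (finrank_span_singleton h).le

lemma dm_sup_span_le (M : Submodule F W) (v : W) : dm (M ⊔ span F {v}) ≤ dm M + 1 := by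
  have := dm_sup_inf M (span F {v})
  have := dm_span_le (F := F) v
  omega

lemma dm_sup_span {M : Submodule F W} {v : W} (h : v ∉ M) : dm (M ⊔ span F {v}) = dm M + 1 := by
  apply le_antisymm (dm_sup_span_le M v)
  have : M < M ⊔ span F {v} := by
    refine lt_of_le_of_ne le_sup_left fun e => h ?_
    rw [e]; exact mem_sup_right (mem_span_singleton_self v)
  exact Submodule.finrank_lt_finrank_of_lt this

lemma dm_le_top (M : Submodule F W) : dm M ≤ finrank F W := Submodule.finrank_le M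

lemma dm_ker (φ : W →ₗ[F] F) : finrank F W ≤ dm (LinearMap.ker φ) + 1 := by
  have h1 := φ.finrank_range_add_finrank_ker
  have h2 : finrank F (LinearMap.range φ) ≤ 1 := by
    simpa using Submodule.finrank_le (LinearMap.range φ)
  simp only [dm]; omega

lemma dm_inf_ker (M : Submodule F W) (φ : W →ₗ[F] F) :
    dm M ≤ dm (M ⊓ LinearMap.ker φ) + 1 := by
  have := dm_sup_inf M (LinearMap.ker φ)
  have := dm_ker φ
  have := dm_le_top (M ⊔ LinearMap.ker φ)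
  omega

lemma dm_orth (hs : Sp ω n) (M : Submodule F W) : dm (ω.orthogonal M) + dm M = 2 * n := by
  have := LinearMap.BilinForm.finrank_orthogonal hs.nd M
  have h2 := dm_le_top M
  rw [hs.dim] at this h2
  simp only [dm] at *
  omega

lemma Isot.dim_le (hs : Sp ω n) {L : Submodule F W} (h : Isot ω L) : dm L ≤ n := by
  have h1 : L ≤ ω.orthogonal L := fun v hv u hu => h u hu v hv
  have := dm_mono h1
  have := dm_orth hs L
  omega

lemma Lag.orth (hs : Sp ω n) {L : Submodule F W} (h : Lag ω n L) : ω.orthogonal L = L := by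
  symm
  refine eq_of_le_dm (fun v hv u hu => h.iso u hu v hv) ?_
  have := dm_orth hs L
  have := h.dim
  omega

lemma Lag.mem (hs : Sp ω n) {L : Submodule F W} (h : Lag ω n L) {v : W}
    (hv : ∀ u ∈ L, ω u v = 0) : v ∈ L := by
  rw [← h.orth hs]; exact hv

lemma Lag.red (hs : Sp ω n) {L : Submodule F W} (h : Lag ω n L) (v : W) :
    Lag ω n (red ω L v) := by
  refine ⟨red_isot hs h.iso v, le_antisymm ((red_isot hs h.iso v).dim_le hs) ?_⟩
  by_cases hv : v ∈ L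
  · rw [← h.dim]
    exact dm_mono fun u hu => mem_sup_left ⟨hu, h.iso v hv u hu⟩
  · have h1 : v ∉ L ⊓ LinearMap.ker (ω v) := fun hh => hv hh.1
    have := dm_sup_span h1
    have := dm_inf_ker L (ω v)
    have := h.dim
    simp only [Vale.Agent.P050.red]
    omega

lemma dm_inf_red_le (X L : Submodule F W) (v : W) : dm (X ⊓ red ω L v) ≤ dm (X ⊓ L) + 1 := by
  have h1 := dm_sup_inf (X ⊓ red ω L v) (L ⊓ LinearMap.ker (ω v))
  have h2 : dm ((X ⊓ red ω L v) ⊔ (L ⊓ LinearMap.ker (ω v))) ≤ dm (L ⊓ LinearMap.ker (ω v)) + 1 :=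
    le_trans (dm_mono (sup_le inf_le_right le_sup_left)) (dm_sup_span_le _ v)
  have h3 : dm ((X ⊓ red ω L v) ⊓ (L ⊓ LinearMap.ker (ω v))) ≤ dm (X ⊓ L) :=
    dm_mono fun u hu => ⟨hu.1.1, hu.2.1⟩
  omega

/-- state of a triple -/
noncomputable def st (L1 L2 L3 : Submodule F W) : St :=
  ⟨dm (L1 ⊓ L2 ⊓ L3), dm (L1 ⊓ L2), dm (L1 ⊓ L3), dm (L2 ⊓ L3)⟩

/-- pattern of a fourth subspace -/
noncomputable def pat (L1 L2 L3 L : Submodule F W) : Pat :=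
  ⟨dm (L1 ⊓ L2 ⊓ L3 ⊓ L), dm (L1 ⊓ L2 ⊓ L), dm (L1 ⊓ L3 ⊓ L), dm (L2 ⊓ L3 ⊓ L),
    dm (L1 ⊓ L), dm (L2 ⊓ L), dm (L3 ⊓ L)⟩

lemma dm_p (A B C : Submodule F W) : dm (A ⊓ B) + dm (A ⊓ C) ≤ dm A + dm (A ⊓ B ⊓ C) := by
  have h1 := dm_sup_inf (A ⊓ B) (A ⊓ C)
  have h2 : dm (A ⊓ B ⊔ A ⊓ C) ≤ dm A := dm_mono (sup_le inf_le_left inf_le_left)
  have h3 : dm ((A ⊓ B) ⊓ (A ⊓ C)) ≤ dm (A ⊓ B ⊓ C) := dm_mono fun u hu => ⟨hu.1, hu.2.2⟩
  omega

lemma dm_n0 (hs : Sp ω n) {A B C : Submodule F W} (hA : Isot ω A) (hB : Isot ω B)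
    (hC : Isot ω C) : dm (A ⊓ B) + dm (A ⊓ C) + dm (B ⊓ C) ≤ n + 2 * dm (A ⊓ B ⊓ C) := by
  have hI : Isot ω ((A ⊓ C ⊔ B ⊓ C) ⊔ A ⊓ B) := by
    refine Isot.sup hs (hC.mono (sup_le inf_le_right inf_le_right)) (hA.mono inf_le_left) ?_
    intro u hu v hv
    obtain ⟨u1, hu1, u2, hu2, rfl⟩ := mem_sup.1 hu
    simp [hA u1 hu1.1 v hv.1, hB u2 hu2.1 v hv.2]
  have h0 := hI.dim_le hs
  have h1 := dm_sup_inf (A ⊓ C ⊔ B ⊓ C) (A ⊓ B)
  have h2 := dm_sup_inf (A ⊓ C) (B ⊓ C)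
  have h3 : dm ((A ⊓ C) ⊓ (B ⊓ C)) ≤ dm (A ⊓ B ⊓ C) :=
    dm_mono fun u hu => ⟨⟨hu.1.1, hu.2.1⟩, hu.2.2⟩
  have h4 : dm ((A ⊓ C ⊔ B ⊓ C) ⊓ (A ⊓ B)) ≤ dm (A ⊓ B ⊓ C) :=
    dm_mono fun u hu => ⟨hu.2, (sup_le inf_le_right inf_le_right : A ⊓ C ⊔ B ⊓ C ≤ C) hu.1⟩
  omega

lemma st_feas (hs : Sp ω n) {A B C : Submodule F W} (hA : Isot ω A) (hB : Isot ω B)
    (hC : Isot ω C) : SFeas n (st A B C) :=
  ⟨dm_mono inf_le_left, dm_mono fun _ hu => ⟨hu.1.1, hu.2⟩, dm_mono fun _ hu => ⟨hu.1.2, hu.2⟩,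
    dm_n0 hs hA hB hC⟩

omit [FiniteDimensional F W] in
lemma dm_congr {A B : Submodule F W} (h : ∀ u, u ∈ A ↔ u ∈ B) : dm A = dm B := by
  rw [Submodule.ext h]

lemma pat_feas (hs : Sp ω n) {A B C L : Submodule F W} (hA : Isot ω A) (hB : Isot ω B)
    (hC : Isot ω C) (hL : Isot ω L) : Feas n (st A B C) (pat A B C L) := by
  refine ⟨dm_mono inf_le_left, dm_mono fun _ hu => ⟨hu.1.1, hu.2⟩,
    dm_mono fun _ hu => ⟨⟨hu.1.1.1, hu.1.2⟩, hu.2⟩, dm_mono fun _ hu => ⟨⟨hu.1.1.2, hu.1.2⟩, hu.2⟩,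
    ?_, ?_, ?_, ?_, ?_, ?_, ?_, ?_, ?_, dm_n0 hs hA hB hC⟩ <;> simp only [st, pat]
  · have := dm_p (A ⊓ B) C L; omega
  · have := dm_p (A ⊓ C) B L
    rw [dm_congr (A := A ⊓ C ⊓ B) (B := A ⊓ B ⊓ C) (by simp; tauto),
      dm_congr (A := A ⊓ C ⊓ B ⊓ L) (B := A ⊓ B ⊓ C ⊓ L) (by simp; tauto)] at this
    omega
  · have := dm_p (B ⊓ C) A L
    rw [dm_congr (A := B ⊓ C ⊓ A) (B := A ⊓ B ⊓ C) (by simp; tauto),
      dm_congr (A := B ⊓ C ⊓ A ⊓ L) (B := A ⊓ B ⊓ C ⊓ L) (by simp; tauto)] at this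
    omega
  · have := dm_p (A ⊓ L) B C
    rw [dm_congr (A := A ⊓ L ⊓ B) (B := A ⊓ B ⊓ L) (by simp; tauto),
      dm_congr (A := A ⊓ L ⊓ C) (B := A ⊓ C ⊓ L) (by simp; tauto),
      dm_congr (A := A ⊓ L ⊓ B ⊓ C) (B := A ⊓ B ⊓ C ⊓ L) (by simp; tauto)] at this
    omega
  · have := dm_p (B ⊓ L) A C
    rw [dm_congr (A := B ⊓ L ⊓ A) (B := A ⊓ B ⊓ L) (by simp; tauto),
      dm_congr (A := B ⊓ L ⊓ C) (B := B ⊓ C ⊓ L) (by simp; tauto),
      dm_congr (A := B ⊓ L ⊓ A ⊓ C) (B := A ⊓ B ⊓ C ⊓ L) (by simp; tauto)] at this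
    omega
  · have := dm_p (C ⊓ L) A B
    rw [dm_congr (A := C ⊓ L ⊓ A) (B := A ⊓ C ⊓ L) (by simp; tauto),
      dm_congr (A := C ⊓ L ⊓ B) (B := B ⊓ C ⊓ L) (by simp; tauto),
      dm_congr (A := C ⊓ L ⊓ A ⊓ B) (B := A ⊓ B ⊓ C ⊓ L) (by simp; tauto)] at this
    omega
  · have := dm_n0 hs hA hB hL; omega
  · have := dm_n0 hs hA hC hL; omega
  · have := dm_n0 hs hB hC hL; omega

/-- The radical computation for the Maslov form. -/
lemma rad_mem (hs : Sp ω n) {A B C : Submodule F W} (hA : Lag ω n A) (hB : Lag ω n B)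
    (hC : Lag ω n C) {u : W} (hu : u ∈ B) (h : ∀ w ∈ C, w ∈ A ⊔ B → ω u w = 0) :
    u ∈ (A ⊓ B) ⊔ (B ⊓ C) := by
  have h1 : ω.orthogonal (A ⊓ B) = A ⊔ B := by
    symm
    refine eq_of_le_dm (sup_le (fun v hv w hw => hA.iso w hw.1 v hv)
      (fun v hv w hw => hB.iso w hw.2 v hv)) ?_
    have := dm_orth hs (A ⊓ B)
    have := dm_sup_inf A B
    have := hA.dim
    have := hB.dim
    omega
  have h2 : u ∈ (A ⊓ B) ⊔ C := by
    rw [← LinearMap.BilinForm.orthogonal_orthogonal hs.nd hs.refl ((A ⊓ B) ⊔ C)]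
    intro w hw
    refine hs.symm0 (h w (hC.mem hs fun x hx => hw x (mem_sup_right hx)) ?_)
    rw [← h1]
    exact fun x hx => hw x (mem_sup_left hx)
  obtain ⟨a, ha, c, hc, rfl⟩ := mem_sup.1 h2
  exact add_mem_sup ha ⟨by simpa using B.sub_mem hu ha.2, hc⟩

lemma dm_sup3 (hs : Sp ω n) {A B C : Submodule F W} (hA : Lag ω n A) (hB : Lag ω n B)
    (hC : Lag ω n C) : 2 * n ≤ dm (A ⊔ B ⊔ C) + dm (A ⊓ B ⊓ C) := by
  have h1 := dm_orth hs (A ⊔ B ⊔ C)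
  have h2 : dm (ω.orthogonal (A ⊔ B ⊔ C)) ≤ dm (A ⊓ B ⊓ C) := by
    refine dm_mono fun w hw => ⟨⟨hA.mem hs fun x hx => hw x ?_, hB.mem hs fun x hx => hw x ?_⟩,
      hC.mem hs fun x hx => hw x ?_⟩
    · exact mem_sup_left (mem_sup_left hx)
    · exact mem_sup_left (mem_sup_right hx)
    · exact mem_sup_right hx
  omega

end Vale.Agent.P050
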