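import Vale.Agent.P050.Quad

/-! Isotropic vectors of the Maslov form and basic double counting. -/

namespace Vale.Agent.P050

open Module Submodule Finset

variable {F : Type*} [Field F] [Fintype F] {W : Type*} [AddCommGroup W] [Module F W] [Fintype W]
variable {ω : LinearMap.BilinForm F W} {n : ℕ}

/-- real powers of the field size -/
noncomputable def qp (F : Type*) [Fintype F] (x : ℝ) : ℝ := (Fintype.card F : ℝ) ^ x

lemma two_le_q : (2 : ℝ) ≤ Fintype.card F := by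
  exact_mod_cast Fintype.one_lt_card (α := F)

lemma qp_pos (x : ℝ) : 0 < qp F x := Real.rpow_pos_of_pos (by linarith [two_le_q (F := F)]) x

lemma qp_add (x y : ℝ) : qp F (x + y) = qp F x * qp F y :=
  Real.rpow_add (by linarith [two_le_q (F := F)]) x y

lemma qp_mono {x y : ℝ} (h : x ≤ y) : qp F x ≤ qp F y :=
  Real.rpow_le_rpow_of_exponent_le (by linarith [two_le_q (F := F)]) h

omit [Field F] in
lemma qp_nat (k : ℕ) : qp F k = (Fintype.card F : ℝ) ^ k := Real.rpow_natCast _ k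

omit [Field F] in
lemma qp_zero : qp F 0 = 1 := Real.rpow_zero _

omit [Field F] in
lemma qp_one : qp F 1 = Fintype.card F := Real.rpow_one _

lemma nv_mono' {α : Type*} [Fintype α] {P Q : α → Prop} (h : ∀ a, P a → Q a) :
    (nv P : ℝ) ≤ nv Q := by exact_mod_cast nv_mono h

lemma nv_mem' (H : Submodule F W) : (nv (fun v => v ∈ H) : ℝ) = qp F (dm H) := by
  rw [nv_mem, qp_nat]; push_cast; rfl

lemma nv_diff {I M : Submodule F W} (hd : dm I < dm M) :
    qp F (dm M) * (1 - 1 / Fintype.card F) ≤ nv (fun v => v ∈ M ∧ v ∉ I) := by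
  have h1 : nv (fun v => v ∈ M) ≤ nv (fun v => v ∈ M ∧ v ∉ I) + nv (fun v => v ∈ I) :=
    le_trans (nv_mono fun v hv => by tauto) (nv_or _ _)
  have h2 : (nv (fun v => v ∈ M) : ℝ) ≤ nv (fun v => v ∈ M ∧ v ∉ I) + nv (fun v => v ∈ I) := by
    exact_mod_cast h1
  rw [nv_mem', nv_mem'] at h2
  have h3 : qp F (dm I) * Fintype.card F ≤ qp F (dm M) := by
    rw [← qp_one, ← qp_add]
    exact qp_mono (by exact_mod_cast hd)
  have hq := two_le_q (F := F)
  have h4 : qp F (dm I) ≤ qp F (dm M) * (1 / Fintype.card F) := by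
    rw [mul_one_div, le_div_iff₀ (by linarith)]; exact h3
  linarith

lemma nv_diff' {I M : Submodule F W} (hd : dm I < dm M) :
    qp F (dm M) / 2 ≤ nv (fun v => v ∈ M ∧ v ∉ I) := by
  refine le_trans ?_ (nv_diff hd)
  have hq := two_le_q (F := F)
  have : 1 / (Fintype.card F : ℝ) ≤ 1 / 2 := one_div_le_one_div_of_le (by norm_num) hq
  nlinarith [qp_pos (F := F) (dm M)]

lemma dc0 {α β : Type*} [Fintype α] [Fintype β] (S : α → Prop) (r : α → β → Prop) {c : ℝ}
    (h : ∀ a, S a → c ≤ nv (r a)) :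
    nv S * c ≤ ∑ b, (nv (fun a => S a ∧ r a b) : ℝ) := by
  classical
  have h1 := nv_double (fun a b => S a ∧ r a b)
  have h2 : (∑ a, (nv (fun b => S a ∧ r a b) : ℝ)) = ∑ b, (nv (fun a => S a ∧ r a b) : ℝ) := by
    exact_mod_cast h1
  rw [← h2, nv_eq_sum]
  push_cast
  rw [sum_mul]
  refine sum_le_sum fun a _ => ?_
  by_cases ha : S a
  · simpa [ha] using h a ha
  · simp [ha]

lemma sum_ite_nv {β : Type*} [Fintype β] (T : β → Prop) [DecidablePred T] (b : ℝ) :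
    ∑ v, (if T v then b else 0) = nv T * b := by
  rw [nv_eq_sum]; push_cast; rw [sum_mul]
  exact sum_congr rfl fun v _ => by split_ifs <;> simp

lemma dc1 {α β : Type*} [Fintype α] [Fintype β] (S : α → Prop) (r : α → β → Prop)
    (T : β → Prop) {c b : ℝ} (h : ∀ a, S a → c ≤ nv (r a)) (hT : ∀ a v, S a → r a v → T v)
    (hb : ∀ v, T v → (nv (fun a => S a ∧ r a v) : ℝ) ≤ b) : nv S * c ≤ nv T * b := by
  classical
  refine (dc0 S r h).trans ?_
  rw [← sum_ite_nv]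
  refine sum_le_sum fun v _ => ?_
  split_ifs with hv
  · exact hb v hv
  · rw [nv_eq_zero fun a ha => hv (hT a v ha.1 ha.2)]; simp

lemma nv_prod {α β : Type*} [Fintype α] [Fintype β] (P : α × β → Prop) :
    nv P = ∑ a, nv (fun b => P (a, b)) := by
  classical
  simp only [nv_eq_sum]
  exact Fintype.sum_prod_type _

/-- The relation space carrying the Maslov form. -/
def Rel (A B C : Submodule F W) : Submodule F (W × W) :=
  A.prod B ⊓ C.comap (LinearMap.fst F W W - LinearMap.snd F W W)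

omit [Fintype F] [Fintype W] in
lemma mem_Rel {A B C : Submodule F W} {x : W × W} :
    x ∈ Rel A B C ↔ x.1 ∈ A ∧ x.2 ∈ B ∧ x.1 - x.2 ∈ C := by
  simp [Rel, and_assoc]

/-- The Maslov form. -/
def mas (ω : LinearMap.BilinForm F W) : (W × W) →ₗ[F] (W × W) →ₗ[F] F :=
  ω.compl₁₂ (LinearMap.snd F W W) (LinearMap.fst F W W)

omit [Fintype F] [Fintype W] in
lemma mas_apply (x y : W × W) : mas ω x y = ω x.2 y.1 := rfl

omit [Fintype F] [Fintype W] in
lemma mas_symm (hs : Sp ω n) {A B C : Submodule F W} (hA : Isot ω A) (hB : Isot ω B)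
    (hC : Isot ω C) : ∀ x ∈ Rel A B C, ∀ y ∈ Rel A B C, mas ω x y = mas ω y x := by
  intro x hx y hy
  rw [mem_Rel] at hx hy
  have h1 := hC _ hx.2.2 _ hy.2.2
  simp only [map_sub, LinearMap.sub_apply, hA _ hx.1 _ hy.1, hB _ hx.2.1 _ hy.2.1] at h1
  rw [mas_apply, mas_apply, hs.skew y.2]
  linear_combination -h1

/-- isotropic vectors -/
def IsoV (ω : LinearMap.BilinForm F W) (A B C : Submodule F W) (v : W) : Prop :=
  v ∈ A ∧ ∃ u ∈ B, v - u ∈ C ∧ ω u v = 0

omit [Fintype F] in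
lemma dm_X (hs : Sp ω n) {A B C : Submodule F W} (hA : Lag ω n A) (hB : Lag ω n B)
    (hC : Lag ω n C) : dm (A ⊓ (B ⊔ C)) + dm (B ⊓ C) = n + dm (A ⊓ B ⊓ C) := by
  have h1 := dm_sup_inf A (B ⊔ C)
  have h2 := dm_sup_inf B C
  have h3 := dm_sup3 hs hA hB hC
  have h4 : A ⊔ B ⊔ C ≤ ω.orthogonal (A ⊓ B ⊓ C) :=
    sup_le (sup_le (fun v hv w hw => hA.iso w hw.1.1 v hv) (fun v hv w hw => hB.iso w hw.1.2 v hv))
      (fun v hv w hw => hC.iso w hw.2 v hv)
  have h5 := dm_mono h4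
  have h6 := dm_orth hs (A ⊓ B ⊓ C)
  rw [← sup_assoc] at h1
  have := hA.dim
  have := hB.dim
  have := hC.dim
  omega

lemma dm_Rel (hs : Sp ω n) {A B C : Submodule F W} (hA : Lag ω n A) (hB : Lag ω n B)
    (hC : Lag ω n C) : dm (Rel A B C) = n + dm (A ⊓ B ⊓ C) := by
  classical
  rw [← dm_X hs hA hB hC]
  apply Nat.pow_right_injective (Fintype.one_lt_card (α := F))
  simp only
  rw [pow_add, ← nv_mem, ← nv_mem, ← nv_mem, nv_prod, nv_eq_sum, sum_mul]
  refine sum_congr rfl fun v _ => ?_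
  split_ifs with hv
  · obtain ⟨u, hu, w, hw, rfl⟩ := mem_sup.1 hv.2
    rw [one_mul, ← nv_equiv (Equiv.addRight u)]
    refine nv_congr fun x => ?_
    simp only [mem_Rel, Equiv.coe_addRight, Submodule.mem_inf, B.add_mem_iff_left hu]
    rw [show u + w - (x + u) = w - x by abel, C.sub_mem_iff_right hw]
    exact ⟨fun h => h.2, fun h => ⟨hv.1, h⟩⟩
  · rw [zero_mul]
    refine nv_eq_zero fun u hu => hv ?_
    rw [mem_Rel] at hu
    exact ⟨hu.1, by simpa using add_mem_sup hu.2.1 hu.2.2⟩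

lemma isoV_le {A B C : Submodule F W} (hB : Isot ω B) (hC : Isot ω C) :
    nv (IsoV ω A B C) * Fintype.card F ^ dm (B ⊓ C)
      ≤ nv (fun x => x ∈ Rel A B C ∧ mas ω x x = 0) := by
  classical
  rw [nv_prod, nv_eq_sum, sum_mul]
  refine sum_le_sum fun v _ => ?_
  split_ifs with hv
  · obtain ⟨hv, u, hu, hw, h0⟩ := hv
    rw [one_mul, ← nv_mem, ← nv_equiv (Equiv.addRight u) (fun b => (v, b) ∈ Rel A B C ∧ _)]
    refine nv_mono fun x hx => ?_
    simp only [mem_Rel, Equiv.coe_addRight, mas_apply]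
    refine ⟨⟨hv, B.add_mem hx.1 hu, ?_⟩, ?_⟩
    · rw [show v - (x + u) = (v - u) - x by abel]; exact C.sub_mem hw hx.2
    · have h1 := hC x hx.2 _ hw
      have h2 := hB x hx.1 _ hu
      simp only [map_sub, map_add, LinearMap.add_apply] at h1 ⊢
      linear_combination h0 + h1 + h2
  · simp

lemma isoV_triv (hs : Sp ω n) {A B C : Submodule F W} (hA : Lag ω n A) (hB : Lag ω n B)
    (hC : Lag ω n C) :
    (nv (IsoV ω A B C) : ℝ) ≤ qp F (n + dm (A ⊓ B ⊓ C) - dm (B ⊓ C)) := by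
  have h1 : nv (IsoV ω A B C) ≤ nv (fun v => v ∈ A ⊓ (B ⊔ C)) := by
    refine nv_mono fun v hv => ?_
    obtain ⟨hv, u, hu, hw, -⟩ := hv
    exact ⟨hv, by simpa using add_mem_sup hu hw⟩
  have h2 : (dm (A ⊓ (B ⊔ C)) : ℝ) + dm (B ⊓ C) = n + dm (A ⊓ B ⊓ C) := by
    exact_mod_cast dm_X hs hA hB hC
  rw [← h2, add_sub_cancel_right, ← nv_mem']
  exact_mod_cast h1

omit [Fintype F] in
lemma mas_rad (hs : Sp ω n) {A B C : Submodule F W} (hA : Lag ω n A) (hB : Lag ω n B)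
    (hC : Lag ω n C) {x : W × W} (hx : x ∈ Rel A B C) (h : ∀ y ∈ Rel A B C, mas ω x y = 0) :
    x.2 ∈ (A ⊓ B) ⊔ (B ⊓ C) ∧ x.1 ∈ (A ⊓ B) ⊔ (A ⊓ C) := by
  have hx' := mem_Rel.1 hx
  constructor
  · refine rad_mem hs hA hB hC hx'.2.1 fun w hw hw' => ?_
    obtain ⟨a, ha, b, hb, rfl⟩ := mem_sup.1 hw'
    have := h (a, -b) (mem_Rel.2 ⟨ha, B.neg_mem hb, by simpa using hw⟩)
    rw [mas_apply] at this
    simp only [map_add, this, hB.iso _ hx'.2.1 _ hb, add_zero]
  · rw [inf_comm A B]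
    refine rad_mem hs hB hA hC hx'.1 fun w hw hw' => ?_
    obtain ⟨b, hb, a, ha, rfl⟩ := mem_sup.1 hw'
    have hy : (a, -b) ∈ Rel A B C := mem_Rel.2 ⟨ha, B.neg_mem hb, by simpa [add_comm] using hw⟩
    have := h _ hy
    rw [mas_symm hs hA.iso hB.iso hC.iso _ hx _ hy, mas_apply] at this
    simp only [map_neg, LinearMap.neg_apply, neg_eq_zero] at this
    simp only [map_add, hs.symm0 this, hA.iso _ hx'.1 _ ha, add_zero]

lemma isoV_crude (h2 : (2 : F) ≠ 0) (hs : Sp ω n) {A B C : Submodule F W} (hA : Lag ω n A)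
    (hB : Lag ω n B) (hC : Lag ω n C) {x : W × W} (hx : x ∈ Rel A B C)
    (h : x.2 ∉ (A ⊓ B) ⊔ (B ⊓ C)) :
    (nv (IsoV ω A B C) : ℝ) ≤ 2 * qp F (n + dm (A ⊓ B ⊓ C) - dm (B ⊓ C) - 1) := by
  obtain ⟨y, hy, hxy⟩ : ∃ y ∈ Rel A B C, mas ω x y ≠ 0 := by
    by_contra hc
    push Not at hc
    exact h (mas_rad hs hA hB hC hx hc).1
  obtain ⟨w, hw, hw0⟩ := exists_anis h2 (mas ω) _ (mas_symm hs hA.iso hB.iso hC.iso) hx hy hxy
  have h1 := zeros_crude (mas ω) _ hw hw0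
  have h3 := isoV_le (A := A) hB.iso hC.iso
  rw [dm_Rel hs hA hB hC] at h1
  have h4 : nv (IsoV ω A B C) * Fintype.card F ^ dm (B ⊓ C) * Fintype.card F
      ≤ 2 * Fintype.card F ^ (n + dm (A ⊓ B ⊓ C)) := le_trans (by gcongr) h1
  have h5 : (nv (IsoV ω A B C) : ℝ) * qp F (dm (B ⊓ C) + 1) ≤ 2 * qp F (n + dm (A ⊓ B ⊓ C)) := by
    rw [qp_add, qp_add, qp_one, qp_nat, qp_nat, qp_nat, ← pow_add, ← mul_assoc]
    exact_mod_cast h4
  refine le_of_mul_le_mul_right ?_ (qp_pos (F := F) (dm (B ⊓ C) + 1))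
  rw [mul_assoc, ← qp_add, show (n : ℝ) + dm (A ⊓ B ⊓ C) - dm (B ⊓ C) - 1 + (dm (B ⊓ C) + 1)
    = n + dm (A ⊓ B ⊓ C) by ring]
  exact h5

lemma isoV_sharp (h2 : (2 : F) ≠ 0) (hs : Sp ω n) {A B C I : Submodule F W} (hA : Lag ω n A)
    (hB : Lag ω n B) (hC : Lag ω n C) (hAB : A ⊓ B = I) (hAC : A ⊓ C = I) (hBC : B ⊓ C = I)
    (hd : dm I + 3 ≤ n) :
    (nv (IsoV ω A B C) : ℝ) ≤ (1 + 2 / Fintype.card F) * qp F (n - 1) := by
  have hABC : A ⊓ B ⊓ C = I := by
    rw [hAB]; exact inf_eq_left.2 (hAC ▸ inf_le_right)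
  have hR := dm_Rel hs hA hB hC
  rw [hABC] at hR
  have hI : dm (I.prod I) = dm I + dm I := by
    apply Nat.pow_right_injective (Fintype.one_lt_card (α := F))
    simp only
    classical
    rw [pow_add, ← nv_mem, ← nv_mem, nv_prod, nv_eq_sum (fun v => v ∈ I), sum_mul]
    refine sum_congr rfl fun v _ => ?_
    split_ifs with hv
    · rw [one_mul, ← nv_eq_sum]; exact nv_congr fun u => by simp [hv]
    · rw [zero_mul]; exact nv_eq_zero fun u => by simp [hv]
  have h1 := zeros_sharp h2 (mas ω) (Rel A B C) (I.prod I) (mas_symm hs hA.iso hB.iso hC.iso)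
    (fun x hx h => by
      have := mas_rad hs hA hB hC hx h
      rw [hAB, hAC, hBC, sup_idem] at this
      exact ⟨this.2, this.1⟩) (by omega)
  have h3 := isoV_le (A := A) hB.iso hC.iso
  rw [hR] at h1
  rw [hBC] at h3
  have h4 : nv (IsoV ω A B C) * Fintype.card F ^ dm I * Fintype.card F ^ 2
      ≤ (Fintype.card F + 2) * Fintype.card F ^ (n + dm I) := le_trans (by gcongr) h1
  have h5 : (nv (IsoV ω A B C) : ℝ) * qp F (dm I + 2)
      ≤ (Fintype.card F + 2) * qp F (n + dm I) := by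
    have e2 : qp F 2 = (Fintype.card F : ℝ) ^ 2 := by exact_mod_cast qp_nat (F := F) 2
    rw [qp_add, qp_add, e2, qp_nat, qp_nat, ← mul_assoc, ← pow_add]
    exact_mod_cast h4
  refine le_of_mul_le_mul_right ?_ (qp_pos (F := F) (dm I + 2))
  rw [mul_assoc, ← qp_add, show (n : ℝ) - 1 + (dm I + 2) = 1 + (n + dm I) by ring, qp_add 1, qp_one,
    ← mul_assoc]
  have hq := two_le_q (F := F)
  rw [show (1 + 2 / (Fintype.card F : ℝ)) * Fintype.card F = Fintype.card F + 2 by field_simp]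
  exact h5

/-- Number of Lagrangians containing a given subspace. -/
lemma cnt_base (hs : Sp ω n) (j : ℕ) : ∀ I : Submodule F W, dm I + j = n →
    (nv (fun L => Lag ω n L ∧ I ≤ L) : ℝ) ≤ 2 ^ j * qp F (j * (j + 1) / 2) := by
  induction j with
  | zero =>
    intro I hI
    have : nv (fun L => Lag ω n L ∧ I ≤ L) ≤ 1 := nv_le_one fun L M hL hM => by
      rw [← eq_of_le_dm hL.2 (by rw [hL.1.dim]; omega), ← eq_of_le_dm hM.2 (by rw [hM.1.dim]; omega)]
    simpa [qp_zero] using this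
  | succ j ih =>
    intro I hI
    have h := dc1 (fun L => Lag ω n L ∧ I ≤ L) (fun L v => v ∈ L ∧ v ∉ I)
      (fun v => v ∈ ω.orthogonal I ∧ v ∉ I) (c := qp F n / 2)
      (b := 2 ^ j * qp F (j * (j + 1) / 2))
      (fun L hL => by
        have := nv_diff' (I := I) (M := L) (by rw [hL.1.dim]; omega)
        rwa [hL.1.dim] at this)
      (fun L v hL hv => ⟨fun u hu => hL.1.iso u (hL.2 hu) v hv.1, hv.2⟩)
      (fun v hv => le_trans (nv_mono' fun L hL => ⟨hL.1.1, sup_le hL.1.2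
          ((span_singleton_le_iff_mem v L).2 hL.2.1)⟩)
        (ih (I ⊔ span F {v}) (by rw [dm_sup_span hv.2]; omega)))
    have h1 : (nv (fun v => v ∈ ω.orthogonal I ∧ v ∉ I) : ℝ) ≤ qp F (n + (j + 1)) := by
      have h2 := dm_orth hs I
      have h3 : (dm (ω.orthogonal I) : ℝ) = n + (j + 1) := by
        exact_mod_cast (by omega : dm (ω.orthogonal I) = n + (j + 1))
      rw [← h3, ← nv_mem']
      exact nv_mono' fun v hv => hv.1
    have hp := qp_pos (F := F) (j * (j + 1) / 2)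
    have h4 := h.trans (mul_le_mul_of_nonneg_right h1 (by positivity))
    refine le_of_mul_le_mul_right ?_ (half_pos (qp_pos (F := F) n))
    refine h4.trans (le_of_eq ?_)
    push_cast
    rw [show ((j : ℝ) + 1) * (j + 1 + 1) / 2 = (j + 1) + j * (j + 1) / 2 by ring, qp_add (j + 1),
      qp_add n]
    ring

end Vale.Agent.P050
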