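import Vale.Agent.P050.Lag2

/-! The pattern counting lemma. -/

namespace Vale.Agent.P050

open Module Submodule Finset

variable {F : Type*} [Field F] [Fintype F] {W : Type*} [AddCommGroup W] [Module F W] [Fintype W]
variable {ω : LinearMap.BilinForm F W} {n : ℕ}

/-- counting exponent relative to a common subspace of dimension `i` -/
noncomputable def exi (n i : ℕ) (s : St) (p : Pat) : ℝ :=
  ex n s p + ((n : ℝ) - i) * (n - i + 1) / 2 - i * ((s.m : ℝ) - n)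
    + ((p.a : ℝ) * (p.a + 1) - (p.a - i) * (p.a - i + 1)) / 2

def SS (ω : LinearMap.BilinForm F W) (n : ℕ) (I A B C : Submodule F W) (p : Pat)
    (L : Submodule F W) : Prop := Lag ω n L ∧ I ≤ L ∧ pat A B C L = p

def Bd (ω : LinearMap.BilinForm F W) (n : ℕ) (K : ℝ) (I A B C : Submodule F W) (p : Pat) : Prop :=
  (nv (SS ω n I A B C p) : ℝ) ≤ K * qp F (exi n (dm I) (st A B C) p)

def Claim (ω : LinearMap.BilinForm F W) (n j : ℕ) : Prop :=
  ∀ (I A B C : Submodule F W) (p : Pat), Lag ω n A → Lag ω n B → Lag ω n C → I ≤ A ⊓ B ⊓ C →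
    dm I + j = n → Bd ω n (6 ^ j) I A B C p

lemma fin_step {N T K x y z w : ℝ} (h : N * (qp F x / 2) ≤ T * (K * qp F y)) (hT : T ≤ qp F z)
    (hK : 0 ≤ K) (hw : z + y - x ≤ w) : N ≤ 6 * K * qp F w := by
  have hy := qp_pos (F := F) y
  have h1 := h.trans (mul_le_mul_of_nonneg_right hT (by positivity))
  have h2 : qp F z * qp F y ≤ qp F w * qp F x := by
    rw [← qp_add, ← qp_add]; exact qp_mono (by linarith)
  have hx := qp_pos (F := F) x
  have hw := qp_pos (F := F) w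
  refine le_of_mul_le_mul_right ?_ (half_pos hx)
  nlinarith [mul_le_mul_of_nonneg_left h2 hK, mul_nonneg hK (mul_pos hw hx).le]

omit [Fintype F] in
lemma dm_red2 {M C : Submodule F W} {v : W} (hM : Isot ω M) (hv : v ∈ M) (hC : v ∉ C) :
    dm (M ⊓ red ω C v) = dm (M ⊓ C) + 1 := by
  rw [inf_red hM hv, dm_sup_span (M := M ⊓ C) fun h => hC h.2]

omit [Fintype F] in
lemma dm_red2' {M C : Submodule F W} {v : W} (hM : Isot ω M) (hv : v ∈ M) (hC : v ∉ C) :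
    dm (red ω C v ⊓ M) = dm (C ⊓ M) + 1 := by
  rw [inf_comm, dm_red2 hM hv hC, inf_comm]

omit [Fintype F] in
lemma dm_red3 {X L C : Submodule F W} {v : W} (hL : Isot ω L) (hX : v ∈ X) (hv : v ∈ L)
    (hC : v ∉ C) : dm (X ⊓ red ω C v ⊓ L) = dm (X ⊓ C ⊓ L) + 1 := by
  rw [inf_right_comm, dm_red2 (hL.mono inf_le_right) ⟨hX, hv⟩ hC, inf_right_comm]

lemma case1 {j : ℕ} (ih : Claim ω n j) {I A B C : Submodule F W} {p : Pat} (hA : Lag ω n A)
    (hB : Lag ω n B) (hC : Lag ω n C) (hI : I ≤ A ⊓ B ⊓ C) (hj : dm I + (j + 1) = n)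
    (ha : dm I < p.a) : Bd ω n (6 ^ (j + 1)) I A B C p := by
  have h := dc1 (SS ω n I A B C p) (fun L v => v ∈ A ⊓ B ⊓ C ⊓ L ∧ v ∉ I)
    (fun v => v ∈ A ⊓ B ⊓ C ∧ v ∉ I) (c := qp F p.a / 2)
    (b := 6 ^ j * qp F (exi n (dm I + 1) (st A B C) p))
    (fun L hL => by
      have e : dm (A ⊓ B ⊓ C ⊓ L) = p.a := congrArg Pat.a hL.2.2
      have := nv_diff' (I := I) (M := A ⊓ B ⊓ C ⊓ L) (by omega)
      rwa [e] at this)
    (fun L v _ hv => ⟨hv.1.1, hv.2⟩)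
    (fun v hv => by
      have := ih (I ⊔ span F {v}) A B C p hA hB hC
        (sup_le hI ((span_singleton_le_iff_mem v _).2 hv.1)) (by rw [dm_sup_span hv.2]; omega)
      rw [Bd, dm_sup_span hv.2] at this
      exact le_trans (nv_mono' fun L hL => ⟨hL.1.1, sup_le hL.1.2.1
        ((span_singleton_le_iff_mem v L).2 hL.2.1.2), hL.1.2.2⟩) this)
  have h1 : (nv (fun v => v ∈ A ⊓ B ⊓ C ∧ v ∉ I) : ℝ) ≤ qp F (st A B C).m := by
    simp only [st]
    rw [← nv_mem']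
    exact nv_mono' fun v hv => hv.1
  rw [Bd, pow_succ, mul_comm _ (6 : ℝ)]
  refine fin_step h h1 (by positivity) (le_of_eq ?_)
  simp only [exi]
  push_cast
  ring

lemma case2 (hs : Sp ω n) {j : ℕ} (ih : Claim ω n j) {I A B C : Submodule F W} {p : Pat}
    (hA : Lag ω n A) (hB : Lag ω n B) (hC : Lag ω n C) (hI : I ≤ A ⊓ B ⊓ C)
    (hj : dm I + (j + 1) = n) (ha : p.a = dm I) (hv : dm I < p.v12) :
    Bd ω n (6 ^ (j + 1)) I A B C p := by
  have h := dc1 (SS ω n I A B C p) (fun L v => v ∈ A ⊓ B ⊓ L ∧ v ∉ I)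
    (fun v => v ∈ A ⊓ B ∧ v ∉ C) (c := qp F p.v12 / 2)
    (b := 6 ^ j * qp F (exi n (dm I + 1) ⟨(st A B C).m + 1, (st A B C).k12, (st A B C).k13 + 1,
      (st A B C).k23 + 1⟩ ⟨p.a + 1, p.v12, p.v13 + 1, p.v23 + 1, p.r1, p.r2, p.r3 + 1⟩))
    (fun L hL => by
      have e : dm (A ⊓ B ⊓ L) = p.v12 := congrArg Pat.v12 hL.2.2
      have := nv_diff' (I := I) (M := A ⊓ B ⊓ L) (by omega)
      rwa [e] at this)
    (fun L v hL hv => ⟨hv.1.1, fun hc => hv.2 (by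
      have e : dm (A ⊓ B ⊓ C ⊓ L) = p.a := congrArg Pat.a hL.2.2
      rw [eq_of_le_dm (le_inf hI hL.2.1) (by omega)]
      exact ⟨⟨hv.1.1, hc⟩, hv.1.2⟩)⟩)
    (fun v hv => by
      have hvI : v ∉ I := fun h => hv.2 (hI h).2
      have := ih (I ⊔ span F {v}) A B (red ω C v)
        ⟨p.a + 1, p.v12, p.v13 + 1, p.v23 + 1, p.r1, p.r2, p.r3 + 1⟩ hA hB (hC.red hs v)
        (le_inf (sup_le (hI.trans inf_le_left) ((span_singleton_le_iff_mem v _).2 hv.1))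
          (le_red (hI.trans inf_le_right) fun u hu => hA.iso v hv.1.1 u (hI hu).1.1))
        (by rw [dm_sup_span hvI]; omega)
      have e : st A B (red ω C v) = ⟨(st A B C).m + 1, (st A B C).k12, (st A B C).k13 + 1,
          (st A B C).k23 + 1⟩ := by
        simp only [st, dm_red2 (hA.iso.mono inf_le_left) hv.1 hv.2, dm_red2 hA.iso hv.1.1 hv.2,
          dm_red2 hB.iso hv.1.2 hv.2]
      rw [Bd, dm_sup_span hvI, e] at this
      refine le_trans (nv_mono' fun L hL => ⟨hL.1.1, sup_le hL.1.2.1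
        ((span_singleton_le_iff_mem v L).2 hL.2.1.2), ?_⟩) this
      have hL' := hL.1.1.iso
      have hvL := hL.2.1.2
      rw [← hL.1.2.2]
      simp only [pat, dm_red3 hL' hv.1 hvL hv.2, dm_red3 hL' hv.1.1 hvL hv.2,
        dm_red3 hL' hv.1.2 hvL hv.2, dm_red2' hL' hvL hv.2])
  have h1 : (nv (fun v => v ∈ A ⊓ B ∧ v ∉ C) : ℝ) ≤ qp F (st A B C).k12 := by
    simp only [st]
    rw [← nv_mem']
    exact nv_mono' fun v hv => hv.1
  rw [Bd, pow_succ, mul_comm _ (6 : ℝ)]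
  refine fin_step h h1 (by positivity) (le_of_eq ?_)
  simp only [exi, ex, ha]
  push_cast
  ring

omit [Fintype F] in
lemma case3_pat {I A B C L : Submodule F W} {p : Pat} (hI : I ≤ A ⊓ B ⊓ C)
    (h12 : p.v12 = dm I) (h13 : p.v13 = dm I) (h23 : p.v23 = dm I) (hL : SS ω n I A B C p L)
    {v : W} (hvA : v ∈ A) (hvL : v ∈ L) (hvI : v ∉ I) :
    v ∉ B ∧ v ∉ C ∧
    (pat A (red ω B v) (red ω C v) L =
      ⟨dm I + 1, dm I + 1, dm I + 1, dm I + 1, p.r1, p.r2 + 1, p.r3 + 1⟩ ∨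
    (pat A (red ω B v) (red ω C v) L =
      ⟨dm I + 1, dm I + 1, dm I + 1, dm I + 2, p.r1, p.r2 + 1, p.r3 + 1⟩ ∧
      ∃ u ∈ B ⊓ L, v - u ∈ C)) := by
  obtain ⟨hL, hIL, rfl⟩ := hL
  simp only [pat] at h12 h13 h23
  have e12 : I = A ⊓ B ⊓ L := eq_of_le_dm (le_inf (hI.trans inf_le_left) hIL) h12.le
  have e13 : I = A ⊓ C ⊓ L :=
    eq_of_le_dm (fun u hu => ⟨⟨(hI hu).1.1, (hI hu).2⟩, hIL hu⟩) h13.le
  have e23 : I = B ⊓ C ⊓ L :=
    eq_of_le_dm (fun u hu => ⟨⟨(hI hu).1.2, (hI hu).2⟩, hIL hu⟩) h23.le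
  have hvB : v ∉ B := fun h => hvI (by rw [e12]; exact ⟨⟨hvA, h⟩, hvL⟩)
  have hvC : v ∉ C := fun h => hvI (by rw [e13]; exact ⟨⟨hvA, h⟩, hvL⟩)
  refine ⟨hvB, hvC, ?_⟩
  have d12 := dm_red3 hL.iso hvA hvL hvB
  have d13 := dm_red3 hL.iso hvA hvL hvC
  have d23 := dm_red3 hL.iso (mem_red_self (ω := ω) B v) hvL hvC
  have da := dm_red3 hL.iso (X := A ⊓ red ω B v) ⟨hvA, mem_red_self (ω := ω) B v⟩ hvL hvC
  have da1 : dm (A ⊓ red ω B v ⊓ C ⊓ L) ≤ dm (A ⊓ C ⊓ L) :=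
    dm_mono fun u hu => ⟨⟨hu.1.1.1, hu.1.2⟩, hu.2⟩
  have hIB : I ≤ red ω B v := le_sup_left.trans
    (le_red (hI.trans (inf_le_left.trans inf_le_right)) fun u hu => hL.iso v hvL u (hIL hu))
  have da2 : dm I ≤ dm (A ⊓ red ω B v ⊓ C ⊓ L) :=
    dm_mono fun u hu => ⟨⟨⟨(hI hu).1.1, hIB hu⟩, (hI hu).2⟩, hIL hu⟩
  have hI3 : I ≤ red ω B v ⊓ C ⊓ L := fun u hu => ⟨⟨hIB hu, (hI hu).2⟩, hIL hu⟩
  have d1 := dm_mono hI3
  have d2 : dm (red ω B v ⊓ C ⊓ L) ≤ dm I + 1 := by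
    have := dm_inf_red_le (ω := ω) (C ⊓ L) B v
    rw [inf_comm (C ⊓ L), inf_comm (C ⊓ L), ← inf_assoc, ← inf_assoc] at this
    omega
  have d3 := dm_red2' hL.iso hvL hvB
  have d4 := dm_red2' hL.iso hvL hvC
  by_cases hc : dm (red ω B v ⊓ C ⊓ L) = dm I
  · left
    simp only [pat, Pat.mk.injEq, true_and]
    omega
  · right
    refine ⟨by simp only [pat, Pat.mk.injEq, true_and]; omega, ?_⟩
    obtain ⟨w, hw, hwI⟩ : ∃ w ∈ red ω B v ⊓ C ⊓ L, w ∉ I := by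
      by_contra hcon
      push Not at hcon
      have := dm_mono (L := red ω B v ⊓ C ⊓ L) (M := I) hcon
      omega
    have hw' : w ∈ L ⊓ red ω B v := ⟨hw.2, hw.1.1⟩
    rw [inf_red hL.iso hvL] at hw'
    obtain ⟨u, hu, b, hb, rfl⟩ := mem_sup.1 hw'
    obtain ⟨t, rfl⟩ := mem_span_singleton.1 hb
    have ht : t ≠ 0 := by
      rintro rfl
      apply hwI
      rw [e23]
      exact ⟨⟨by simpa using hu.2, hw.1.2⟩, hw.2⟩
    refine ⟨-(t⁻¹ • u), ⟨B.neg_mem (B.smul_mem _ hu.2), L.neg_mem (L.smul_mem _ hu.1)⟩, ?_⟩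
    have := C.smul_mem t⁻¹ hw.1.2
    rwa [smul_add, smul_smul, inv_mul_cancel₀ ht, one_smul, add_comm, ← sub_neg_eq_add] at this

lemma case3_iso (h2 : (2 : F) ≠ 0) (hs : Sp ω n) {I A B C L : Submodule F W} {p : Pat}
    (hA : Lag ω n A) (hB : Lag ω n B) (hC : Lag ω n C) (hI : I ≤ A ⊓ B ⊓ C)
    (h12 : p.v12 = dm I) (h23 : p.v23 = dm I) (hL : SS ω n I A B C p L)
    {v u : W} (hvA : v ∈ A) (hvC : v ∉ C) (hu : u ∈ B ⊓ L) (hvu : v - u ∈ C) :
    (nv (IsoV ω A B C) : ℝ)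
      ≤ 2 * qp F (2 * n + 2 * dm I - (st A B C).k23 - 1 - p.r2 - p.r3) := by
  have hf := pat_feas hs hA.iso hB.iso hC.iso hL.1.iso
  rw [hL.2.2] at hf
  have w := hf.w23
  have m := (st_feas hs hA.iso hB.iso hC.iso).m23
  simp only [st] at w m ⊢
  rw [h23] at w
  have w' : (p.r2 : ℝ) + p.r3 + dm (B ⊓ C) ≤ n + 2 * dm I := by exact_mod_cast w
  rcases m.lt_or_eq with m | m
  · have m' : (dm (A ⊓ B ⊓ C) : ℝ) + 1 ≤ dm (B ⊓ C) := by exact_mod_cast m
    refine (isoV_triv hs hA hB hC).trans ?_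
    have := qp_mono (F := F) (x := n + dm (A ⊓ B ⊓ C) - dm (B ⊓ C))
      (y := 2 * n + 2 * dm I - dm (B ⊓ C) - 1 - p.r2 - p.r3) (by linarith)
    linarith [qp_pos (F := F) (n + dm (A ⊓ B ⊓ C) - dm (B ⊓ C))]
  · have e : A ⊓ B ⊓ C = B ⊓ C := eq_of_le_dm (fun x hx => ⟨hx.1.2, hx.2⟩) m.ge
    have e12 : I = A ⊓ B ⊓ L := eq_of_le_dm (le_inf (hI.trans inf_le_left) hL.2.1) (by
      have : dm (A ⊓ B ⊓ L) = p.v12 := congrArg Pat.v12 hL.2.2
      omega)
    have := isoV_crude h2 hs hA hB hC (x := (v, u)) (mem_Rel.2 ⟨hvA, hu.1, hvu⟩) (by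
      rw [← e, sup_eq_left.2 inf_le_left]
      intro h
      have : u ∈ I := by rw [e12]; exact ⟨h, hu.2⟩
      exact hvC (by simpa using C.add_mem hvu (hI this).2))
    refine this.trans ?_
    have m' : (dm (A ⊓ B ⊓ C) : ℝ) = dm (B ⊓ C) := by exact_mod_cast m
    gcongr
    exact qp_mono (by linarith)

lemma case3 (h2 : (2 : F) ≠ 0) (hs : Sp ω n) {j : ℕ} (ih : Claim ω n j) {I A B C : Submodule F W}
    {p : Pat} (hA : Lag ω n A) (hB : Lag ω n B) (hC : Lag ω n C) (hI : I ≤ A ⊓ B ⊓ C)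
    (hj : dm I + (j + 1) = n) (ha : p.a = dm I) (h12 : p.v12 = dm I) (h13 : p.v13 = dm I)
    (h23 : p.v23 = dm I) (hr : dm I < p.r1) : Bd ω n (6 ^ (j + 1)) I A B C p := by
  classical
  set E := exi n (dm I) (st A B C) p with hE
  have h := dc0 (SS ω n I A B C p) (fun L v => v ∈ A ⊓ L ∧ v ∉ I) (c := qp F p.r1 / 2)
    (fun L hL => by
      have e : dm (A ⊓ L) = p.r1 := congrArg Pat.r1 hL.2.2
      have := nv_diff' (I := I) (M := A ⊓ L) (by omega)
      rwa [e] at this)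
  set y : ℝ := 2 * n + 2 * dm I - (st A B C).k23 - 1 - p.r2 - p.r3 with hy
  let T : W → Prop := fun v => IsoV ω A B C v ∧ (nv (IsoV ω A B C) : ℝ) ≤ 2 * qp F y
  have hT : (nv T : ℝ) ≤ 2 * qp F y := by
    by_cases hc : (nv (IsoV ω A B C) : ℝ) ≤ 2 * qp F y
    · exact le_trans (nv_mono' fun v hv => hv.1) hc
    · rw [nv_eq_zero fun v hv => hc hv.2]
      simpa using (qp_pos (F := F) y).le
  have hb : ∀ v, (nv (fun L => SS ω n I A B C p L ∧ v ∈ A ⊓ L ∧ v ∉ I) : ℝ) ≤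
      (if v ∈ A then 6 ^ j * qp F (E + p.r1 - n) else 0)
        + (if T v then 6 ^ j * qp F (E + p.r1 - y) else 0) := by
    intro v
    by_cases hex : ∃ L, SS ω n I A B C p L ∧ v ∈ A ⊓ L ∧ v ∉ I
    swap
    · rw [nv_eq_zero fun L hL => hex ⟨L, hL⟩]
      have := qp_pos (F := F) (E + p.r1 - n)
      have := qp_pos (F := F) (E + p.r1 - y)
      push_cast
      positivity
    obtain ⟨L0, hL0, hv0, hvI⟩ := hex
    have hvA : v ∈ A := hv0.1
    obtain ⟨hvB, hvC, -⟩ := case3_pat hI h12 h13 h23 hL0 hvA hv0.2 hvI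
    have hI' : I ⊔ span F {v} ≤ A ⊓ red ω B v ⊓ red ω C v :=
      le_inf (le_inf (sup_le (fun u hu => (hI hu).1.1) ((span_singleton_le_iff_mem v _).2 hvA))
        (le_red (fun u hu => (hI hu).1.2) fun u hu => hA.iso v hvA u (hI hu).1.1))
        (le_red (fun u hu => (hI hu).2) fun u hu => hA.iso v hvA u (hI hu).1.1)
    have i1 := ih _ _ _ _ ⟨dm I + 1, dm I + 1, dm I + 1, dm I + 1, p.r1, p.r2 + 1, p.r3 + 1⟩
      hA (hB.red hs v) (hC.red hs v) hI' (by rw [dm_sup_span hvI]; omega)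
    have i2 := ih _ _ _ _ ⟨dm I + 1, dm I + 1, dm I + 1, dm I + 2, p.r1, p.r2 + 1, p.r3 + 1⟩
      hA (hB.red hs v) (hC.red hs v) hI' (by rw [dm_sup_span hvI]; omega)
    rw [Bd, dm_sup_span hvI] at i1 i2
    have k1 : exi n (dm I + 1) (st A (red ω B v) (red ω C v))
        ⟨dm I + 1, dm I + 1, dm I + 1, dm I + 1, p.r1, p.r2 + 1, p.r3 + 1⟩ = E + p.r1 - n := by
      simp only [hE, exi, ex, ha, h12, h13, h23]
      push_cast
      ring
    have k2 : exi n (dm I + 1) (st A (red ω B v) (red ω C v))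
        ⟨dm I + 1, dm I + 1, dm I + 1, dm I + 2, p.r1, p.r2 + 1, p.r3 + 1⟩ ≤ E + p.r1 - y := by
      have c1 := dm_inf_red_le (ω := ω) (red ω B v) C v
      have c2 := dm_inf_red_le (ω := ω) C B v
      rw [inf_comm C, inf_comm C] at c2
      have c3 : ((st A (red ω B v) (red ω C v)).k23 : ℝ) ≤ (st A B C).k23 + 2 := by
        simp only [st]
        exact_mod_cast (by omega : dm (red ω B v ⊓ red ω C v) ≤ dm (B ⊓ C) + 2)
      simp only [hE, hy, exi, ex, ha, h12, h13, h23]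
      push_cast
      linarith
    rw [k1] at i1
    have i3 := i2.trans (mul_le_mul_of_nonneg_left (qp_mono k2) (by positivity))
    rw [if_pos hvA]
    have sp : (nv (fun L => SS ω n I A B C p L ∧ v ∈ A ⊓ L ∧ v ∉ I) : ℝ) ≤
        nv (SS ω n (I ⊔ span F {v}) A (red ω B v) (red ω C v)
          ⟨dm I + 1, dm I + 1, dm I + 1, dm I + 1, p.r1, p.r2 + 1, p.r3 + 1⟩)
        + nv (fun L => SS ω n (I ⊔ span F {v}) A (red ω B v) (red ω C v)
          ⟨dm I + 1, dm I + 1, dm I + 1, dm I + 2, p.r1, p.r2 + 1, p.r3 + 1⟩ L ∧ T v) := by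
      rw [← Nat.cast_add]
      refine le_trans (nv_mono' fun L hL => ?_) (Nat.cast_le.2 (nv_or _ _))
      have hle : I ⊔ span F {v} ≤ L :=
        sup_le hL.1.2.1 ((span_singleton_le_iff_mem v L).2 hL.2.1.2)
      rcases (case3_pat hI h12 h13 h23 hL.1 hvA hL.2.1.2 hvI).2.2 with h | ⟨h, u, hu, hvu⟩
      · exact Or.inl ⟨hL.1.1, hle, h⟩
      · exact Or.inr ⟨⟨hL.1.1, hle, h⟩, ⟨hvA, u, hu.1, hvu, hL.1.1.iso u hu.2 v hL.2.1.2⟩,
          case3_iso h2 hs hA hB hC hI h12 h23 hL.1 hvA hvC hu hvu⟩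
    refine sp.trans (add_le_add i1 ?_)
    split_ifs with hTv
    · exact le_trans (nv_mono' fun L hL => hL.1) i3
    · rw [nv_eq_zero fun L hL => hTv hL.2]; simp
  have h3 := h.trans (sum_le_sum fun v _ => hb v)
  rw [sum_add_distrib, sum_ite_nv, sum_ite_nv, nv_mem', hA.dim] at h3
  have p1 := qp_pos (F := F) (E + p.r1 - y)
  have e1 : qp F n * qp F (E + p.r1 - n) = qp F E * qp F p.r1 := by
    rw [← qp_add, ← qp_add]; congr 1; ring
  have e2 : qp F y * qp F (E + p.r1 - y) = qp F E * qp F p.r1 := by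
    rw [← qp_add, ← qp_add]; congr 1; ring
  rw [Bd]
  refine le_of_mul_le_mul_right ?_ (half_pos (qp_pos (F := F) p.r1))
  refine h3.trans ?_
  calc _ ≤ qp F n * (6 ^ j * qp F (E + p.r1 - n)) + 2 * qp F y * (6 ^ j * qp F (E + p.r1 - y)) := by
        gcongr
    _ = 6 ^ j * (qp F n * qp F (E + p.r1 - n)) + 2 * 6 ^ j * (qp F y * qp F (E + p.r1 - y)) := by
        ring
    _ = _ := by rw [e1, e2]; ring

def Pat.sw12 (p : Pat) : Pat := ⟨p.a, p.v12, p.v23, p.v13, p.r2, p.r1, p.r3⟩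
def Pat.sw23 (p : Pat) : Pat := ⟨p.a, p.v13, p.v12, p.v23, p.r1, p.r3, p.r2⟩

lemma Bd.sw12 {K : ℝ} (hK : 0 ≤ K) {I A B C : Submodule F W} {p : Pat}
    (h : Bd ω n K I B A C p.sw12) : Bd ω n K I A B C p := by
  rw [Bd] at h ⊢
  have e : exi n (dm I) (st B A C) p.sw12 = exi n (dm I) (st A B C) p := by
    simp only [exi, ex, st, Pat.sw12, inf_comm B A]; ring
  rw [e] at h
  refine le_trans (nv_mono' fun L hL => ⟨hL.1, hL.2.1, ?_⟩) h
  rw [← hL.2.2]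
  simp only [pat, Pat.sw12, inf_comm B A]

lemma Bd.sw23 {K : ℝ} (hK : 0 ≤ K) {I A B C : Submodule F W} {p : Pat}
    (h : Bd ω n K I A C B p.sw23) : Bd ω n K I A B C p := by
  rw [Bd] at h ⊢
  have e : exi n (dm I) (st A C B) p.sw23 = exi n (dm I) (st A B C) p := by
    simp only [exi, ex, st, Pat.sw23, inf_comm C B, inf_right_comm A C B]; ring
  rw [e] at h
  refine le_trans (nv_mono' fun L hL => ⟨hL.1, hL.2.1, ?_⟩) h
  rw [← hL.2.2]
  simp only [pat, Pat.sw23, inf_comm C B, inf_right_comm A C B]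

lemma claim_base (hs : Sp ω n) {j : ℕ} {I A B C : Submodule F W} {p : Pat} (hj : dm I + j = n)
    (ha : p.a = dm I) (h12 : p.v12 = dm I) (h13 : p.v13 = dm I) (h23 : p.v23 = dm I)
    (h1 : p.r1 = dm I) (h2 : p.r2 = dm I) (h3 : p.r3 = dm I) : Bd ω n (6 ^ j) I A B C p := by
  have h := cnt_base hs j I hj
  have e : exi n (dm I) (st A B C) p = j * (j + 1) / 2 := by
    simp only [exi, ex, ha, h12, h13, h23, h1, h2, h3, ← hj]; push_cast; ring
  rw [Bd, e]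
  refine le_trans (nv_mono' fun L hL => ⟨hL.1, hL.2.1⟩) (h.trans ?_)
  have := qp_pos (F := F) (j * (j + 1) / 2)
  gcongr
  norm_num

theorem claim_all (h2 : (2 : F) ≠ 0) (hs : Sp ω n) (j : ℕ) : Claim ω n j := by
  induction j with
  | zero =>
    intro I A B C p hA hB hC hI hj
    by_cases hex : ∃ L, SS ω n I A B C p L
    swap
    · rw [Bd, nv_eq_zero fun L hL => hex ⟨L, hL⟩]
      simpa using (qp_pos _).le
    obtain ⟨L, hL, hIL, rfl⟩ := hex
    have hf := pat_feas hs hA.iso hB.iso hC.iso hL.iso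
    have i1 : dm I ≤ (pat A B C L).a := dm_mono (le_inf hI hIL)
    have r1 : (pat A B C L).r1 ≤ n := (hL.iso.mono inf_le_right).dim_le hs
    have r2 : (pat A B C L).r2 ≤ n := (hL.iso.mono inf_le_right).dim_le hs
    have r3 : (pat A B C L).r3 ≤ n := (hL.iso.mono inf_le_right).dim_le hs
    obtain ⟨-, a12, a13, a23, -, -, -, p1, p2, p3, -⟩ := hf
    exact claim_base hs hj (by omega) (by omega) (by omega) (by omega) (by omega) (by omega)
      (by omega)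
  | succ j ih =>
    intro I A B C p hA hB hC hI hj
    have hK : (0 : ℝ) ≤ 6 ^ (j + 1) := by positivity
    by_cases hex : ∃ L, SS ω n I A B C p L
    swap
    · rw [Bd, nv_eq_zero fun L hL => hex ⟨L, hL⟩]
      have := qp_pos (F := F) (exi n (dm I) (st A B C) p)
      push_cast
      positivity
    obtain ⟨L, hL, hIL, hp⟩ := hex
    have hf := pat_feas hs hA.iso hB.iso hC.iso hL.iso
    have i1 : dm I ≤ (pat A B C L).a := dm_mono (le_inf hI hIL)
    rw [hp] at hf i1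
    obtain ⟨-, a12, a13, a23, -, -, -, p1, p2, p3, -⟩ := hf
    have hI2 : I ≤ A ⊓ C ⊓ B := by rwa [inf_right_comm]
    have hI3 : I ≤ B ⊓ C ⊓ A := by rwa [inf_right_comm, inf_comm B A]
    have hI4 : I ≤ B ⊓ A ⊓ C := by rwa [inf_comm B A]
    have hI5 : I ≤ C ⊓ A ⊓ B := by rwa [inf_comm C A]
    by_cases ha : dm I < p.a
    · exact case1 ih hA hB hC hI hj ha
    have ha' : p.a = dm I := by omega
    by_cases h12 : dm I < p.v12
    · exact case2 hs ih hA hB hC hI hj ha' h12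
    by_cases h13 : dm I < p.v13
    · exact Bd.sw23 hK (case2 hs ih hA hC hB hI2 hj ha' h13)
    by_cases h23 : dm I < p.v23
    · exact Bd.sw12 hK (Bd.sw23 hK (case2 hs ih hB hC hA hI3 hj ha' h23))
    have e12 : p.v12 = dm I := by omega
    have e13 : p.v13 = dm I := by omega
    have e23 : p.v23 = dm I := by omega
    by_cases r1 : dm I < p.r1
    · exact case3 h2 hs ih hA hB hC hI hj ha' e12 e13 e23 r1
    by_cases r2 : dm I < p.r2
    · exact Bd.sw12 hK (case3 h2 hs ih hB hA hC hI4 hj ha' e12 e23 e13 r2)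
    by_cases r3 : dm I < p.r3
    · exact Bd.sw23 hK (Bd.sw12 hK (case3 h2 hs ih hC hA hB hI5 hj ha' e13 e23 e12 r3))
    exact claim_base hs hj ha' e12 e13 e23 (by omega) (by omega) (by omega)

/-- The pattern counting lemma. -/
theorem cnt_pat (h2 : (2 : F) ≠ 0) (hs : Sp ω n) {A B C : Submodule F W} (hA : Lag ω n A)
    (hB : Lag ω n B) (hC : Lag ω n C) (p : Pat) :
    (nv (fun L => Lag ω n L ∧ pat A B C L = p) : ℝ)
      ≤ 6 ^ n * qp F (n * (n + 1) / 2 + ex n (st A B C) p) := by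
  have h := claim_all h2 hs n ⊥ A B C p hA hB hC bot_le (by simp [dm])
  have e : exi n (dm (⊥ : Submodule F W)) (st A B C) p = n * (n + 1) / 2 + ex n (st A B C) p := by
    simp only [exi, dm, finrank_bot]; push_cast; ring
  rw [Bd, e] at h
  exact le_trans (nv_mono' fun L hL => ⟨hL.1, bot_le, hL.2⟩) h

end Vale.Agent.P050
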