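import Vale.Agent.P050.Lag3

/-! Sharp counts for transversal pairs and triples. -/

namespace Vale.Agent.P050

open Module Submodule Finset

variable {F : Type*} [Field F] [Fintype F] {W : Type*} [AddCommGroup W] [Module F W] [Fintype W]
variable {ω : LinearMap.BilinForm F W} {n : ℕ}

/-- loss factor per step -/
noncomputable def th (F : Type*) [Fintype F] : ℝ :=
  (1 + 2 / (Fintype.card F : ℝ)) / (1 - 1 / (Fintype.card F : ℝ))

lemma one_sub_pos : (0 : ℝ) < 1 - 1 / (Fintype.card F : ℝ) := by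
  have hq := two_le_q (F := F)
  have : 1 / (Fintype.card F : ℝ) ≤ 1 / 2 := one_div_le_one_div_of_le (by norm_num) hq
  linarith

lemma th_mul : th F * (1 - 1 / (Fintype.card F : ℝ)) = 1 + 2 / (Fintype.card F : ℝ) :=
  div_mul_cancel₀ _ one_sub_pos.ne'

lemma th_pos : 0 < th F := div_pos (by positivity) one_sub_pos

lemma sharp_step {N T K c x y z : ℝ}
    (h : N * (qp F x * (1 - 1 / (Fintype.card F : ℝ))) ≤ T * (K * qp F y))
    (hT : T ≤ c * (1 + 2 / (Fintype.card F : ℝ)) * qp F z) (hK : 0 ≤ K) :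
    N ≤ c * K * th F * qp F (z + y - x) := by
  have hy := qp_pos (F := F) y
  have h1 := h.trans (mul_le_mul_of_nonneg_right hT (by positivity))
  refine le_of_mul_le_mul_right (h1.trans (le_of_eq ?_)) (mul_pos (qp_pos x) one_sub_pos)
  have e : qp F (z + y - x) * qp F x = qp F z * qp F y := by
    rw [← qp_add, ← qp_add]; congr 1; ring
  rw [← th_mul]
  linear_combination (-(c * K * th F * (1 - 1 / (Fintype.card F : ℝ)))) * e

theorem cnt_pair (hs : Sp ω n) (j : ℕ) : ∀ I A B : Submodule F W, Lag ω n A → Lag ω n B →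
    A ⊓ B = I → (nv (fun L => Lag ω n L ∧ I ≤ L ∧ dm (A ⊓ L) = dm I + j ∧ dm (B ⊓ L) + j = n) : ℝ)
      ≤ th F ^ j * qp F (j * (n - dm I - j)) := by
  induction j with
  | zero =>
    intro I A B _ hB _
    have key : ∀ L, Lag ω n L → dm (B ⊓ L) + 0 = n → L = B := fun L hL h => by
      rw [← eq_of_le_dm (inf_le_right : B ⊓ L ≤ L) (by rw [hL.dim]; omega)]
      exact eq_of_le_dm inf_le_left (by rw [hB.dim]; omega)
    have : nv (fun L => Lag ω n L ∧ I ≤ L ∧ dm (A ⊓ L) = dm I + 0 ∧ dm (B ⊓ L) + 0 = n) ≤ 1 :=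
      nv_le_one fun L M hL hM => by rw [key L hL.1 hL.2.2.2, key M hM.1 hM.2.2.2]
    simpa [qp_zero] using this
  | succ j ih =>
    intro I A B hA hB hI
    have h := dc1 (fun L => Lag ω n L ∧ I ≤ L ∧ dm (A ⊓ L) = dm I + (j + 1) ∧
        dm (B ⊓ L) + (j + 1) = n) (fun L v => v ∈ A ⊓ L ∧ v ∉ I) (fun v => v ∈ A ∧ v ∉ I)
      (c := qp F (dm I + (j + 1) : ℕ) * (1 - 1 / (Fintype.card F : ℝ)))
      (b := th F ^ j * qp F (j * (n - (dm I + 1 : ℕ) - j)))
      (fun L hL => by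
        have := nv_diff (I := I) (M := A ⊓ L) (by omega)
        rwa [hL.2.2.1] at this)
      (fun L v _ hv => ⟨hv.1.1, hv.2⟩)
      (fun v hv => by
        have hvB : v ∉ B := fun h => hv.2 (hI ▸ ⟨hv.1, h⟩)
        have := ih (I ⊔ span F {v}) A (red ω B v) hA (hB.red hs v)
          (by rw [inf_red hA.iso hv.1, hI])
        rw [dm_sup_span hv.2] at this
        refine le_trans (nv_mono' fun L hL => ⟨hL.1.1, sup_le hL.1.2.1
          ((span_singleton_le_iff_mem v L).2 hL.2.1.2), by omega, ?_⟩) this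
        rw [dm_red2' hL.1.1.iso hL.2.1.2 hvB]
        omega)
    have h1 : (nv (fun v => v ∈ A ∧ v ∉ I) : ℝ) ≤ 1 * (1 + 2 / (Fintype.card F : ℝ)) * qp F n := by
      have h2 : (nv (fun v => v ∈ A ∧ v ∉ I) : ℝ) ≤ qp F n := by
        rw [← hA.dim, ← nv_mem']
        exact nv_mono' fun v hv => hv.1
      have : (0 : ℝ) ≤ 2 / (Fintype.card F : ℝ) := by positivity
      nlinarith [qp_pos (F := F) n]
    refine (sharp_step h h1 (pow_pos th_pos j).le).trans (le_of_eq ?_)
    rw [one_mul, ← pow_succ]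
    congr 2
    push_cast
    ring

omit [Fintype F] in
lemma trip_dec {I B C L : Submodule F W} {j : ℕ} (hBC : B ⊓ C = I) (hL : Lag ω n L)
    (hn : dm I + 2 * j = n) (hB : dm (B ⊓ L) = dm I + j) (hC : dm (C ⊓ L) = dm I + j) {v : W}
    (hv : v ∈ L) : ∃ u ∈ B ⊓ L, v - u ∈ C := by
  have h1 := dm_sup_inf (B ⊓ L) (C ⊓ L)
  have h2 : dm ((B ⊓ L) ⊓ (C ⊓ L)) ≤ dm I := dm_mono fun u hu => hBC ▸ ⟨hu.1.1, hu.2.1⟩
  have h3 : B ⊓ L ⊔ C ⊓ L = L :=
    eq_of_le_dm (sup_le inf_le_right inf_le_right) (by rw [hL.dim]; omega)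
  rw [← h3] at hv
  obtain ⟨u, hu, w, hw, rfl⟩ := mem_sup.1 hv
  exact ⟨u, hu, by simpa using hw.1⟩

theorem cnt_trip (h2 : (2 : F) ≠ 0) (hs : Sp ω n) (j : ℕ) : ∀ I A B C : Submodule F W,
    Lag ω n A → Lag ω n B → Lag ω n C → A ⊓ B = I → A ⊓ C = I → B ⊓ C = I → dm I + 2 * j = n →
    (nv (fun L => Lag ω n L ∧ I ≤ L ∧ dm (A ⊓ L) = dm I + j ∧ dm (B ⊓ L) = dm I + j ∧
      dm (C ⊓ L) = dm I + j) : ℝ)
      ≤ (if j = 0 then 1 else 2) * th F ^ j * qp F (j * (j - 1) / 2) := by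
  induction j with
  | zero =>
    intro I A B C _ _ _ _ _ _ hn
    have key : ∀ L, Lag ω n L → I ≤ L → L = I := fun L hL h =>
      (eq_of_le_dm h (by rw [hL.dim]; omega)).symm
    have : nv (fun L => Lag ω n L ∧ I ≤ L ∧ dm (A ⊓ L) = dm I + 0 ∧ dm (B ⊓ L) = dm I + 0 ∧
      dm (C ⊓ L) = dm I + 0) ≤ 1 :=
      nv_le_one fun L M hL hM => by rw [key L hL.1 hL.2.1, key M hM.1 hM.2.1]
    simpa [qp_zero] using this
  | succ j ih =>
    intro I A B C hA hB hC hAB hAC hBC hn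
    have hu0 : ∀ {v u : W}, v ∈ A → v ∉ I → u ∈ B → v - u ∈ C → u ∉ A := by
      intro v u hv hvI hu hvu huA
      have h1 : u ∈ C := (hAC ▸ inf_le_right : I ≤ C) (hAB ▸ ⟨huA, hu⟩)
      exact hvI (hAC ▸ ⟨hv, by simpa using C.add_mem hvu h1⟩)
    have h := dc1 (fun L => Lag ω n L ∧ I ≤ L ∧ dm (A ⊓ L) = dm I + (j + 1) ∧
        dm (B ⊓ L) = dm I + (j + 1) ∧ dm (C ⊓ L) = dm I + (j + 1))
      (fun L v => v ∈ A ⊓ L ∧ v ∉ I) (fun v => IsoV ω A B C v ∧ v ∉ I)
      (c := qp F (dm I + (j + 1) : ℕ) * (1 - 1 / (Fintype.card F : ℝ)))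
      (b := ((if j = 0 then 1 else 2) * th F ^ j) * qp F (j * (j - 1) / 2))
      (fun L hL => by
        have := nv_diff (I := I) (M := A ⊓ L) (by omega)
        rwa [hL.2.2.1] at this)
      (fun L v hL hv => by
        obtain ⟨u, hu, hvu⟩ := trip_dec hBC hL.1 hn hL.2.2.2.1 hL.2.2.2.2 hv.1.2
        exact ⟨⟨hv.1.1, u, hu.1, hvu, hL.1.iso u hu.2 v hv.1.2⟩, hv.2⟩)
      (fun v hv => by
        obtain ⟨⟨hvA, u, huB, hvu, h0⟩, hvI⟩ := hv
        have huA := hu0 hvA hvI huB hvu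
        have hvB : v ∉ B := fun h => hvI (hAB ▸ ⟨hvA, h⟩)
        have hvC : v ∉ C := fun h => hvI (hAC ▸ ⟨hvA, h⟩)
        have huB' : u ∈ red ω B v := mem_sup_left ⟨huB, hs.symm0 h0⟩
        have huC' : u ∈ red ω C v := by
          have h1 : v - u ∈ red ω C v :=
            mem_sup_left ⟨hvu, by simp [hs.alt, hs.symm0 h0]⟩
          simpa using (red ω C v).sub_mem (mem_red_self C v) h1
        have e1 : red ω A u ⊓ red ω B v = I ⊔ span F {v} ⊔ span F {u} := by
          rw [inf_comm, inf_red (hB.red hs v).iso huB', inf_comm, inf_red hA.iso hvA, hAB]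
        have e2 : red ω A u ⊓ red ω C v = I ⊔ span F {v} ⊔ span F {u} := by
          rw [inf_comm, inf_red (hC.red hs v).iso huC', inf_comm, inf_red hA.iso hvA, hAC]
        have d : dm (I ⊔ span F {v} ⊔ span F {u}) = dm I + 2 := by
          rw [dm_sup_span (M := I ⊔ span F {v}) fun h => huA ((sup_le (hAB ▸ inf_le_left)
            ((span_singleton_le_iff_mem v A).2 hvA) : I ⊔ span F {v} ≤ A) h), dm_sup_span hvI]
        have e3 : red ω B v ⊓ red ω C v = I ⊔ span F {v} ⊔ span F {u} := by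
          symm
          refine eq_of_le_dm (le_inf (e1 ▸ inf_le_right) (e2 ▸ inf_le_right)) ?_
          have c1 := dm_inf_red_le (ω := ω) (red ω B v) C v
          have c2 := dm_inf_red_le (ω := ω) C B v
          rw [inf_comm C, inf_comm C, hBC] at c2
          omega
        have := ih _ _ _ _ (hA.red hs u) (hB.red hs v) (hC.red hs v) e1 e2 e3 (by omega)
        refine le_trans (nv_mono' fun L hL => ?_) this
        obtain ⟨⟨hL, hIL, r1, r2, r3⟩, ⟨-, hvL⟩, -⟩ := hL
        obtain ⟨u', hu', hvu'⟩ := trip_dec hBC hL hn r2 r3 hvL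
        have huL : u ∈ L := by
          have h1 : u - u' ∈ I := by
            rw [← hBC]
            refine ⟨B.sub_mem huB hu'.1, ?_⟩
            have := C.sub_mem hvu' hvu
            rwa [show v - u' - (v - u) = u - u' by abel] at this
          simpa using L.add_mem (hIL h1) hu'.2
        refine ⟨hL, sup_le (sup_le hIL ((span_singleton_le_iff_mem v L).2 hvL))
          ((span_singleton_le_iff_mem u L).2 huL), ?_, ?_, ?_⟩
        · rw [dm_red2' hL.iso huL huA]; omega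
        · rw [dm_red2' hL.iso hvL hvB]; omega
        · rw [dm_red2' hL.iso hvL hvC]; omega)
    have hABC : A ⊓ B ⊓ C = I := by
      rw [hAB]; exact inf_eq_left.2 (hAC ▸ inf_le_right)
    have h1 : (nv (fun v => IsoV ω A B C v ∧ v ∉ I) : ℝ)
        ≤ (if j = 0 then 2 else 1) * (1 + 2 / (Fintype.card F : ℝ)) * qp F (n - 1) := by
      have hp := qp_pos (F := F) (n - 1)
      split_ifs with hj
      · by_cases hex : ∃ v, IsoV ω A B C v ∧ v ∉ I
        · obtain ⟨v, ⟨hvA, u, huB, hvu, -⟩, hvI⟩ := hex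
          have := isoV_crude h2 hs hA hB hC (x := (v, u)) (mem_Rel.2 ⟨hvA, huB, hvu⟩) (by
            rw [hAB, hBC, sup_idem]
            exact fun h => hu0 hvA hvI huB hvu ((hAB ▸ inf_le_left : I ≤ A) h))
          rw [hABC, hBC, add_sub_cancel_right] at this
          refine le_trans (nv_mono' fun v hv => hv.1) (this.trans ?_)
          have : (0 : ℝ) ≤ 2 / (Fintype.card F : ℝ) := by positivity
          nlinarith
        · rw [nv_eq_zero fun v hv => hex ⟨v, hv⟩]
          push_cast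
          positivity
      · rw [one_mul]
        exact le_trans (nv_mono' fun v hv => hv.1)
          (isoV_sharp h2 hs hA hB hC hAB hAC hBC (by omega))
    have hth := th_pos (F := F)
    refine (sharp_step h h1 (by split_ifs <;> positivity)).trans (le_of_eq ?_)
    have e : (n : ℝ) - 1 + j * (j - 1) / 2 - (dm I + (j + 1) : ℕ)
        = (j + 1 : ℕ) * ((j + 1 : ℕ) - 1) / 2 := by
      rw [← hn]; push_cast; ring
    rw [e, if_neg (Nat.succ_ne_zero j)]
    split_ifs <;> ring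

end Vale.Agent.P050
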