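import Vale.Agent.P050.Cert
import Vale.Agent.P050.Gadget

/-! The random sign vectors at a corner and their moments. -/

namespace Vale.Agent.P050

open Finset

abbrev Out := Option (Bool × Bool × Bool)

def sb (s : Bool) : SignType := if s then 1 else -1

def eps (c : Cor) : SignType := if c = (0, 0) then -1 else 1

/-- the sign vector of an outcome -/
def bv (c : Cor) : Out → Fin 12 → SignType
  | none, _ => 0
  | some (m, s, t), d =>
    if d = c.1 then (if m then sb s else 0)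
    else if d = ac c.1 (c.2 + 1) then sb t
    else if d = ac c.1 (c.2 + 2) then (if m then eps c else -eps c) * sb t else 0

/-- the weight of an outcome -/
noncomputable def ow (π : ℝ) : Out → ℝ
  | none => 1 - π
  | some _ => π / 8

lemma ow_nonneg {π : ℝ} (h0 : 0 ≤ π) (h1 : π ≤ 1) (o : Out) : 0 ≤ ow π o := by
  cases o <;> simp only [ow] <;> linarith

lemma sum_ow (π : ℝ) : ∑ o, ow π o = 1 := by
  simp [Fintype.sum_option, ow]; ring

/-- mixed moments -/
noncomputable def MM (π : ℝ) (β : Out → Fin 12 → SignType) (S T : Finset (Fin 12)) : ℝ :=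
  ∑ o, ow π o * ((∏ d ∈ S, (β o d : ℝ)) * ∏ d ∈ T, (β o d : ℝ))

lemma MM_empty (π : ℝ) (β : Out → Fin 12 → SignType) : MM π β ∅ ∅ = 1 := by
  simp only [MM, prod_empty, mul_one, sum_ow]

lemma abs_prod_sign (S : Finset (Fin 12)) (f : Fin 12 → SignType) : |∏ d ∈ S, (f d : ℝ)| ≤ 1 := by
  rw [abs_prod]
  exact prod_le_one (fun _ _ => abs_nonneg _) fun _ _ => abs_sign_le _

lemma abs_MM_le {π : ℝ} (h0 : 0 ≤ π) {β : Out → Fin 12 → SignType} (hβ : ∀ d, β none d = 0)
    {S T : Finset (Fin 12)} (hS : S.Nonempty ∨ T.Nonempty) : |MM π β S T| ≤ π := by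
  have e : (∏ d ∈ S, (β none d : ℝ)) * ∏ d ∈ T, (β none d : ℝ) = 0 := by
    rcases hS with ⟨d, hd⟩ | ⟨d, hd⟩
    · rw [prod_eq_zero hd (by simp [hβ]), zero_mul]
    · rw [prod_eq_zero hd (by simp [hβ]), mul_zero]
  rw [MM, Fintype.sum_option, e, mul_zero, zero_add]
  refine (abs_sum_le_sum_abs _ _).trans ((sum_le_card_nsmul _ _ (π / 8) fun o _ => ?_).trans ?_)
  · rw [abs_mul, abs_mul]
    simp only [ow]
    rw [abs_of_nonneg (by positivity)]
    exact mul_le_of_le_one_right (by positivity)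
      (mul_le_one₀ (abs_prod_sign _ _) (abs_nonneg _) (abs_prod_sign _ _))
  · simp; linarith

/-- the three components used at a corner -/
def cmp (c : Cor) : Finset (Fin 12) := {c.1, ac c.1 (c.2 + 1), ac c.1 (c.2 + 2)}

lemma cmp_ne : ∀ c : Cor, c.1 ≠ ac c.1 (c.2 + 1) ∧ c.1 ≠ ac c.1 (c.2 + 2) ∧
    ac c.1 (c.2 + 1) ≠ ac c.1 (c.2 + 2) := by decide +kernel

lemma bv_out {c : Cor} {d : Fin 12} (h : d ∉ cmp c) (o : Out) : bv c o d = 0 := by
  simp only [cmp, mem_insert, mem_singleton, not_or] at h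
  rcases o with _ | ⟨m, s, t⟩ <;> simp [bv, h]

lemma MM_out (π : ℝ) {c : Cor} {S T : Finset (Fin 12)} {d : Fin 12} (h : d ∉ cmp c)
    (hd : d ∈ S ∨ d ∈ T) : MM π (bv c) S T = 0 := by
  refine sum_eq_zero fun o _ => ?_
  rcases hd with hd | hd
  · rw [prod_eq_zero hd (by simp [bv_out h]), zero_mul, mul_zero]
  · rw [prod_eq_zero hd (by simp [bv_out h]), mul_zero, mul_zero]

lemma prod_bv {c : Cor} {S : Finset (Fin 12)} (hS : S ⊆ cmp c) (m s t : Bool) :
    ∏ d ∈ S, (bv c (some (m, s, t)) d : ℝ) =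
      (if c.1 ∈ S then (if m then (sb s : ℝ) else 0) else 1) *
      ((if ac c.1 (c.2 + 1) ∈ S then (sb t : ℝ) else 1) *
      (if ac c.1 (c.2 + 2) ∈ S then (if m then (eps c : ℝ) else -eps c) * sb t else 1)) := by
  obtain ⟨h1, h2, h3⟩ := cmp_ne c
  rw [← inter_eq_right.2 hS, ← prod_ite_mem, cmp, prod_insert (by simp [h1, h2]),
    prod_insert (by simp [h3]), prod_singleton]
  simp only [inter_eq_right.2 (show S ⊆ {c.1, ac c.1 (c.2 + 1), ac c.1 (c.2 + 2)} from hS)]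
  cases m <;> simp [bv, h1.symm, h2.symm, h3.symm]

lemma MM_formula (π : ℝ) {c : Cor} {S T : Finset (Fin 12)} (hS : S ⊆ cmp c) (hT : T ⊆ cmp c)
    (hne : S.Nonempty ∨ T.Nonempty) :
    MM π (bv c) S T = π / 8 * ∑ m : Bool, ∑ s : Bool, ∑ t : Bool,
      ((if c.1 ∈ S then (if m then (sb s : ℝ) else 0) else 1) *
      ((if ac c.1 (c.2 + 1) ∈ S then (sb t : ℝ) else 1) *
      (if ac c.1 (c.2 + 2) ∈ S then (if m then (eps c : ℝ) else -eps c) * sb t else 1))) *
      ((if c.1 ∈ T then (if m then (sb s : ℝ) else 0) else 1) *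
      ((if ac c.1 (c.2 + 1) ∈ T then (sb t : ℝ) else 1) *
      (if ac c.1 (c.2 + 2) ∈ T then (if m then (eps c : ℝ) else -eps c) * sb t else 1))) := by
  have e : (∏ d ∈ S, (bv c none d : ℝ)) * ∏ d ∈ T, (bv c none d : ℝ) = 0 := by
    rcases hne with ⟨d, hd⟩ | ⟨d, hd⟩
    · rw [prod_eq_zero hd (by simp [bv]), zero_mul]
    · rw [prod_eq_zero hd (by simp [bv]), mul_zero]
  rw [MM, Fintype.sum_option, e, mul_zero, zero_add]
  simp only [ow, ← mul_sum, Fintype.sum_prod_type, prod_bv hS, prod_bv hT]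

lemma MM_zero_of (π : ℝ) {c : Cor} {S T : Finset (Fin 12)}
    (h : (S ⊆ cmp c → T ⊆ cmp c → MM π (bv c) S T = 0)) : MM π (bv c) S T = 0 := by
  by_cases hS : S ⊆ cmp c
  · by_cases hT : T ⊆ cmp c
    · exact h hS hT
    · obtain ⟨d, hd, hd'⟩ := not_subset.1 hT
      exact MM_out π hd' (Or.inr hd)
  · obtain ⟨d, hd, hd'⟩ := not_subset.1 hS
    exact MM_out π hd' (Or.inl hd)

lemma MM_par (π : ℝ) {c : Cor} {S T : Finset (Fin 12)} (h : ¬ (c.1 ∈ S ↔ c.1 ∈ T)) :
    MM π (bv c) S T = 0 := by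
  refine MM_zero_of π fun hS hT => ?_
  by_cases h1 : c.1 ∈ S
  · have h2 : c.1 ∉ T := fun k => h (by simp [h1, k])
    rw [MM_formula π hS hT (Or.inl ⟨_, h1⟩)]
    simp [h1, h2, sb]
  · have h2 : c.1 ∈ T := by tauto
    rw [MM_formula π hS hT (Or.inr ⟨_, h2⟩)]
    simp [h1, h2, sb]

lemma MM_disj (π : ℝ) {c : Cor} {S T : Finset (Fin 12)} (h : Disjoint S T)
    (hne : S.Nonempty ∨ T.Nonempty) : MM π (bv c) S T = 0 := by
  by_cases h0 : c.1 ∈ S ↔ c.1 ∈ T
  swap
  · exact MM_par π h0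
  have d0 := disjoint_left.1 h
  have a1 : c.1 ∉ S := fun k => d0 k (h0.1 k)
  have a2 : c.1 ∉ T := fun k => a1 (h0.2 k)
  refine MM_zero_of π fun hS hT => ?_
  rw [MM_formula π hS hT hne]
  by_cases b1 : ac c.1 (c.2 + 1) ∈ S <;> by_cases b2 : ac c.1 (c.2 + 2) ∈ S <;>
    by_cases b3 : ac c.1 (c.2 + 1) ∈ T <;> by_cases b4 : ac c.1 (c.2 + 2) ∈ T <;>
    first
    | exact absurd b3 (d0 b1)
    | exact absurd b4 (d0 b2)
    | (simp [a1, a2, b1, b2, b3, b4, sb]; done)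
    | skip
  exfalso
  rcases hne with ⟨d, hd⟩ | ⟨d, hd⟩
  · have := hS hd
    simp only [cmp, mem_insert, mem_singleton] at this
    rcases this with rfl | rfl | rfl <;> contradiction
  · have := hT hd
    simp only [cmp, mem_insert, mem_singleton] at this
    rcases this with rfl | rfl | rfl <;> contradiction

lemma MM_main (π : ℝ) (c : Cor) :
    MM π (bv c) {c.1, ac c.1 (c.2 + 1)} {c.1, ac c.1 (c.2 + 2)} = eps c * (π / 2) := by
  obtain ⟨h1, h2, h3⟩ := cmp_ne c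
  rw [MM_formula π (by intro d; simp [cmp]; tauto) (by intro d; simp [cmp]; tauto)
    (Or.inl (by simp))]
  simp [h1.symm, h2.symm, h3, h3.symm, sb]
  ring

/-- expansion of the main term -/
lemma expand (π : Cor → ℝ) (β : Cor → Out → Fin 12 → SignType) :
    ∑ o : Cor → Out, (∏ c, ow (π c) (o c)) * ∏ d, ∏ e, AA (fun j k => β (j, k) (o (j, k)) d) e
      = ∑ S : Fin 18 → Finset (Fin 12),
        ∏ c : Cor, MM (π c) (β c) (S (eo c.1 (c.2 + 1))) (S (eo c.1 (c.2 + 2))) := by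
  have e1 : ∀ o : Cor → Out, ∏ d, ∏ e, AA (fun j k => β (j, k) (o (j, k)) d) e
      = ∑ S : Fin 18 → Finset (Fin 12), ∏ c : Cor,
        ((∏ d ∈ S (eo c.1 (c.2 + 1)), (β c (o c) d : ℝ))
          * ∏ d ∈ S (eo c.1 (c.2 + 2)), (β c (o c) d : ℝ)) := by
    intro o
    rw [prod_comm]
    simp only [AA, prod_one_add, powerset_univ]
    rw [prod_univ_sum, Fintype.piFinset_univ]
    refine sum_congr rfl fun S _ => ?_
    have := prod_cor (fun c => ∏ d ∈ S (eo c.1 c.2), cc (fun j k => β (j, k) (o (j, k)) d) c)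
    simp only [eo_sd] at this
    simp only [prod_mul_distrib] at this ⊢
    rw [← this, ← prod_mul_distrib, Fintype.prod_prod_type, Fintype.prod_prod_type]
    refine prod_congr rfl fun j _ => ?_
    have a0 : (0 + 1 : Fin 3) = 1 := rfl
    have a1 : (1 + 1 : Fin 3) = 2 := rfl
    have a2 : (2 + 1 : Fin 3) = 0 := rfl
    have a3 : (0 + 2 : Fin 3) = 2 := rfl
    have a4 : (1 + 2 : Fin 3) = 0 := rfl
    have a5 : (2 + 2 : Fin 3) = 1 := rfl
    simp only [cc, prod_mul_distrib, Fin.prod_univ_three, a0, a1, a2, a3, a4, a5]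
    ring
  simp only [e1, mul_sum, MM]
  rw [sum_comm]
  refine sum_congr rfl fun S _ => ?_
  rw [prod_univ_sum, Fintype.piFinset_univ]
  exact sum_congr rfl fun o _ => prod_mul_distrib.symm

end Vale.Agent.P050
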