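import Vale.Agent.P050.Lag1

/-! Counting zeros of quadratic forms over a finite field. -/

namespace Vale.Agent.P050

open Module Submodule Finset

variable {F : Type*} [Field F] [Fintype F] {U : Type*} [AddCommGroup U] [Module F U] [Fintype U]

open Classical in
/-- number of vectors with a property -/
noncomputable def nv {α : Type*} [Fintype α] (P : α → Prop) : ℕ := (univ.filter P).card

lemma nv_mono {α : Type*} [Fintype α] {P Q : α → Prop} (h : ∀ a, P a → Q a) : nv P ≤ nv Q := by
  classical
  unfold nv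
  exact card_le_card fun a ha => by simpa using h a (by simpa using ha)

lemma nv_congr {α : Type*} [Fintype α] {P Q : α → Prop} (h : ∀ a, P a ↔ Q a) : nv P = nv Q :=
  le_antisymm (nv_mono fun a => (h a).1) (nv_mono fun a => (h a).2)

lemma nv_or {α : Type*} [Fintype α] (P Q : α → Prop) : nv (fun a => P a ∨ Q a) ≤ nv P + nv Q := by
  classical
  unfold nv
  refine le_trans (card_le_card ?_) (card_union_le _ _)
  intro a ha
  simpa using ha

lemma nv_eq_sum {α : Type*} [Fintype α] (P : α → Prop) [DecidablePred P] :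
    nv P = ∑ a, if P a then 1 else 0 := by
  unfold nv
  rw [card_filter]
  exact sum_congr rfl fun a _ => by congr

lemma nv_eq_zero {α : Type*} [Fintype α] {P : α → Prop} (h : ∀ a, ¬ P a) : nv P = 0 := by
  classical
  simp [nv_eq_sum, h]

lemma nv_le_one {α : Type*} [Fintype α] {P : α → Prop} (h : ∀ a b, P a → P b → a = b) :
    nv P ≤ 1 := by
  classical
  unfold nv
  exact card_le_one.2 fun a ha b hb => h a b (by simpa using ha) (by simpa using hb)

lemma nv_mem (H : Submodule F U) : nv (fun v => v ∈ H) = Fintype.card F ^ dm H := by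
  classical
  rw [dm, ← Module.card_eq_pow_finrank, Fintype.card_subtype]
  unfold nv; congr

lemma nv_equiv {α β : Type*} [Fintype α] [Fintype β] (e : α ≃ β) (P : β → Prop) :
    nv (fun a => P (e a)) = nv P := by
  classical
  rw [nv_eq_sum, nv_eq_sum]
  exact Equiv.sum_comp e (fun b => if P b then 1 else 0)

/-- double counting -/
lemma nv_double {α β : Type*} [Fintype α] [Fintype β] (r : α → β → Prop) :
    ∑ a, nv (fun b => r a b) = ∑ b, nv (fun a => r a b) := by
  classical
  simp only [nv_eq_sum]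
  exact sum_comm

lemma nv_line (H : Submodule F U) {w : U} (hw : w ∈ H) (P : U → Prop) {c : ℕ}
    (h : ∀ v ∈ H, nv (fun t : F => P (v + t • w)) ≤ c) :
    nv (fun v => v ∈ H ∧ P v) * Fintype.card F ≤ c * Fintype.card F ^ dm H := by
  classical
  have h1 := nv_double (fun (v : U) (t : F) => v ∈ H ∧ P (v + t • w))
  have h2 : ∀ t : F, nv (fun v => v ∈ H ∧ P (v + t • w)) = nv (fun v => v ∈ H ∧ P v) := by
    intro t
    rw [← nv_equiv (Equiv.addRight (t • w)) (fun v => v ∈ H ∧ P v)]
    refine nv_congr fun v => ?_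
    simp [H.add_mem_iff_left (H.smul_mem t hw)]
  simp only [h2, sum_const, card_univ, smul_eq_mul] at h1
  rw [mul_comm, ← h1, ← nv_mem, nv_eq_sum, mul_sum]
  refine sum_le_sum fun v _ => ?_
  by_cases hv : v ∈ H
  · simpa [hv] using h v hv
  · simp [hv, nv_eq_zero]

lemma quad_roots {a : F} (ha : a ≠ 0) (b c : F) : nv (fun t : F => a * t ^ 2 + b * t + c = 0) ≤ 2 := by
  classical
  have h0 : (Polynomial.C a * Polynomial.X ^ 2 + Polynomial.C b * Polynomial.X + Polynomial.C c)
      ≠ 0 := by
    intro h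
    have := Polynomial.degree_quadratic (b := b) (c := c) ha
    rw [h] at this
    simp at this
  have h1 := Polynomial.card_roots'
    (Polynomial.C a * Polynomial.X ^ 2 + Polynomial.C b * Polynomial.X + Polynomial.C c)
  have h2 := Polynomial.natDegree_quadratic_le (a := a) (b := b) (c := c)
  refine le_trans ?_ (le_trans (Multiset.toFinset_card_le _) (h1.trans h2))
  unfold nv
  refine card_le_card fun t ht => ?_
  simp only [mem_filter, mem_univ, true_and] at ht
  simp [Polynomial.mem_roots h0, ht]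

lemma zeros_crude (B : U →ₗ[F] U →ₗ[F] F) (H : Submodule F U) {w : U} (hw : w ∈ H)
    (h : B w w ≠ 0) :
    nv (fun v => v ∈ H ∧ B v v = 0) * Fintype.card F ≤ 2 * Fintype.card F ^ dm H := by
  refine nv_line H hw (fun v => B v v = 0) fun v _ => ?_
  refine le_trans (nv_mono fun t ht => ?_) (quad_roots h (B v w + B w v) (B v v))
  simp only [map_add, map_smul, LinearMap.add_apply, LinearMap.smul_apply, smul_eq_mul] at ht
  linear_combination ht

lemma exists_anis (h2 : (2 : F) ≠ 0) (B : U →ₗ[F] U →ₗ[F] F) (H : Submodule F U)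
    (hsym : ∀ x ∈ H, ∀ y ∈ H, B x y = B y x) {x y : U} (hx : x ∈ H) (hy : y ∈ H)
    (h : B x y ≠ 0) : ∃ w ∈ H, B w w ≠ 0 := by
  by_contra hc
  push Not at hc
  have := hc (x + y) (H.add_mem hx hy)
  simp only [map_add, LinearMap.add_apply, hc x hx, hc y hy, hsym y hy x hx] at this
  apply h
  apply mul_left_cancel₀ h2
  linear_combination this

lemma zeros_sharp (h2 : (2 : F) ≠ 0) (B : U →ₗ[F] U →ₗ[F] F) (R Rad : Submodule F U)
    (hsym : ∀ x ∈ R, ∀ y ∈ R, B x y = B y x)
    (hrad : ∀ x ∈ R, (∀ y ∈ R, B x y = 0) → x ∈ Rad) (hd : dm Rad + 3 ≤ dm R) :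
    nv (fun v => v ∈ R ∧ B v v = 0) * Fintype.card F ^ 2
      ≤ (Fintype.card F + 2) * Fintype.card F ^ dm R := by
  have hq : 1 ≤ Fintype.card F := Fintype.card_pos
  by_cases hall : ∀ x ∈ R, B x x = 0 → x ∈ Rad
  · have h1 : nv (fun v => v ∈ R ∧ B v v = 0) ≤ Fintype.card F ^ dm Rad := by
      rw [← nv_mem]; exact nv_mono fun v hv => hall v hv.1 hv.2
    calc _ ≤ Fintype.card F ^ dm Rad * Fintype.card F ^ 2 := by gcongr
      _ ≤ Fintype.card F ^ dm R := by
        rw [← pow_add]; exact Nat.pow_le_pow_right hq (by omega)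
      _ ≤ _ := Nat.le_mul_of_pos_left _ (by omega)
  · push Not at hall
    obtain ⟨e, heR, he0, heRad⟩ := hall
    obtain ⟨f, hfR, hef⟩ : ∃ f ∈ R, B e f ≠ 0 := by
      by_contra hc
      push Not at hc
      exact heRad (hrad e heR hc)
    set H := R ⊓ LinearMap.ker (B e) with hH
    have hHR : dm H + 1 ≤ dm R := by
      have : H < R := lt_of_le_of_ne inf_le_left fun h => hef (by
        have : f ∈ H := h ▸ hfR
        exact this.2)
      exact Submodule.finrank_lt_finrank_of_lt this
    have hHR' : dm R ≤ dm H + 1 := dm_inf_ker R (B e)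
    obtain ⟨w, hwH, hw⟩ : ∃ w ∈ H, B w w ≠ 0 := by
      by_contra hc
      have hz : ∀ x ∈ H, ∀ y ∈ H, B x y = 0 := by
        intro x hx y hy
        by_contra hne
        exact hc (exists_anis h2 B H (fun a ha b hb => hsym a ha.1 b hb.1) hx hy hne)
      have h3 : H ⊓ LinearMap.ker (B f) ≤ Rad := by
        intro x hx
        refine hrad x hx.1.1 fun y hy => ?_
        have hy' : y - (B e y / B e f) • f ∈ H := by
          refine ⟨R.sub_mem hy (R.smul_mem _ hfR), ?_⟩
          simp [hef]
        have h4 := hz x hx.1 _ hy'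
        have h5 : B x f = 0 := by rw [hsym x hx.1.1 f hfR]; exact hx.2
        simpa [h5] using h4
      have := dm_mono h3
      have := dm_inf_ker H (B f)
      omega
    have z2 := zeros_crude B H hwH hw
    have z1 : nv (fun v => v ∈ R ∧ (B v v = 0 ∧ B e v ≠ 0)) * Fintype.card F
        ≤ 1 * Fintype.card F ^ dm R := by
      refine nv_line R heR (fun v => B v v = 0 ∧ B e v ≠ 0) fun v hv => nv_le_one ?_
      intro s t hs ht
      simp only [map_add, map_smul, LinearMap.add_apply, LinearMap.smul_apply, smul_eq_mul, he0,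
        mul_zero, add_zero, hsym v hv e heR] at hs ht
      apply mul_left_cancel₀ (mul_ne_zero h2 hs.2)
      linear_combination hs.1 - ht.1
    have z0 : nv (fun v => v ∈ R ∧ B v v = 0) ≤
        nv (fun v => v ∈ R ∧ (B v v = 0 ∧ B e v ≠ 0)) + nv (fun v => v ∈ H ∧ B v v = 0) := by
      refine le_trans (nv_mono fun v hv => ?_) (nv_or _ _)
      by_cases h : B e v = 0
      · exact Or.inr ⟨⟨hv.1, h⟩, hv.2⟩
      · exact Or.inl ⟨hv.1, hv.2, h⟩
    have e1 : Fintype.card F ^ dm R = Fintype.card F ^ dm H * Fintype.card F := by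
      rw [← pow_succ]; congr 1; omega
    rw [e1] at z1 ⊢
    generalize Fintype.card F ^ dm H = A at *
    generalize Fintype.card F = q at *
    nlinarith [Nat.mul_le_mul_right (q ^ 2) z0, Nat.mul_le_mul_right q z1,
      Nat.mul_le_mul_right q z2]

end Vale.Agent.P050
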