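import Vale.Agent.P050.Sign

/-! Signed corank relations. -/

namespace Vale.Agent.P050

open Module Submodule Finset Matrix

variable {F : Type*} [Field F] [Fintype F] {r : ℕ}

abbrev II (r : ℕ) := Fin r ⊕ Fin r

lemma card_II (r : ℕ) : Fintype.card (II r) = 2 * r := by simp [two_mul]

/-- corank `r` and sign `δ` -/
def Rs (δ : ℝ) (z : Sy (II r) F) : Prop :=
  cork z = r ∧ ∃ (C : Matrix (Fin r) (II r) F) (A : Matrix (Fin r) (Fin r) F),
    mat z = Cᵀ * A * C ∧ eta A.det = δ

omit [Fintype F] in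
lemma cork_neg {ι : Type*} [Fintype ι] (z : Sy ι F) : cork (-z) = cork z := by
  refine dm_congr fun u => ?_
  simp [mat_neg]

lemma Rs.neg (hr : Even r) {δ : ℝ} {z : Sy (II r) F} (h : Rs δ z) : Rs δ (-z) := by
  obtain ⟨h1, C, A, h2, h3⟩ := h
  refine ⟨by rw [cork_neg, h1], C, -A, by rw [mat_neg, h2]; simp, ?_⟩
  rw [det_neg, Fintype.card_fin, hr.neg_one_pow, one_mul, h3]

lemma Rs.pair (hr : Even r) {a b : ℝ} {z w : Sy (II r) F} (hz : Rs a z) (hw : Rs b w)
    (h : (mat (z - w)).det ≠ 0) : sg (z - w) = a * b := by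
  obtain ⟨-, C, A, h2, rfl⟩ := hz
  obtain ⟨-, D, B, h3, rfl⟩ := hw
  have e : mat (z - w) = (fromRows C D)ᵀ * fromBlocks A 0 0 (-B) * fromRows C D := by
    rw [mat_sub, h2, h3, transpose_fromRows, fromCols_mul_fromBlocks, fromCols_mul_fromRows]
    simp [sub_eq_add_neg]
  have e2 : (mat (z - w)).det = (fromRows C D).det * (fromRows C D).det * (A.det * B.det) := by
    rw [e, det_mul, det_mul, det_transpose, det_fromBlocks_zero₂₁, det_neg, Fintype.card_fin,
      hr.neg_one_pow]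
    ring
  have h4 : (fromRows C D).det ≠ 0 := by
    intro h0; rw [e2, h0] at h; simp at h
  rw [sg, e2, eta_mul, eta_mul, eta_mul, eta_mul_self h4, one_mul]

/-- explicit family of corank `r` matrices -/
def fam (B : Matrix (Fin r) (Fin r) F) (A : Sy (Fin r) F) : Sy (II r) F :=
  ofSym ((fromCols 1 B)ᵀ * mat A * fromCols 1 B) (by
    rw [transpose_mul, transpose_mul, transpose_transpose, mat_symm, Matrix.mul_assoc])

omit [Fintype F] in
lemma mat_fam (B : Matrix (Fin r) (Fin r) F) (A : Sy (Fin r) F) :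
    mat (fam B A) = fromBlocks (mat A) (mat A * B) (Bᵀ * mat A) (Bᵀ * mat A * B) := by
  rw [fam, mat_ofSym, transpose_fromCols, fromRows_mul, fromRows_mul_fromCols]
  simp

omit [Fintype F] in
lemma cork_fam (B : Matrix (Fin r) (Fin r) F) {A : Sy (Fin r) F} (hA : (mat A).det ≠ 0) :
    cork (fam B A) = r := by
  have h1 := (mat (fam B A)).mulVecLin.finrank_range_add_finrank_ker
  have h2 : (mat (fam B A)).rank ≤ r := by
    rw [fam, mat_ofSym]
    exact (rank_mul_le_right _ _).trans (by simpa using rank_le_card_height (fromCols 1 B))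
  have h3 : r ≤ (mat (fam B A)).rank := by
    have e : mat A = fromCols (1 : Matrix (Fin r) (Fin r) F) (0 : Matrix (Fin r) (Fin r) F)
        * mat (fam B A)
        * fromRows (1 : Matrix (Fin r) (Fin r) F) (0 : Matrix (Fin r) (Fin r) F) := by
      rw [mat_fam, fromCols_mul_fromBlocks, fromCols_mul_fromRows]
      simp
    have := rank_of_isUnit (mat A) ((isUnit_iff_isUnit_det _).2 (isUnit_iff_ne_zero.2 hA))
    rw [Fintype.card_fin] at this
    refine this.symm.le.trans ?_
    nth_rewrite 1 [e]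
    exact (rank_mul_le_left _ _).trans (rank_mul_le_right _ _)
  simp only [Matrix.rank] at h2 h3
  simp only [finrank_fintype_fun_eq_card, card_II] at h1
  simp only [cork, dm]
  omega

lemma fam_Rs (B : Matrix (Fin r) (Fin r) F) {A : Sy (Fin r) F} (hA : (mat A).det ≠ 0) :
    Rs 1 (fam B A) ∨ Rs (-1) (fam B A) := by
  rcases eta_cases hA with h | h
  · exact Or.inl ⟨cork_fam B hA, _, _, rfl, h⟩
  · exact Or.inr ⟨cork_fam B hA, _, _, rfl, h⟩

/-- the density of the relation -/
noncomputable def p0 (F : Type*) [Field F] [Fintype F] (r : ℕ) : ℝ :=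
  ((nv (Rs (F := F) (r := r) 1) : ℝ) + nv (Rs (F := F) (r := r) (-1)))
    / (2 * Fintype.card (Sy (II r) F))

/-- the probability of being nonsingular, lower bound -/
noncomputable def mu (F : Type*) [Fintype F] (r : ℕ) : ℝ := 1 - KK r / Fintype.card F

lemma p0_ge (h2 : (2 : F) ≠ 0) : mu F r / 2 * qp F (-(r * (r + 1) / 2)) ≤ p0 F r := by
  classical
  have h1 : nv (fun p : Matrix (Fin r) (Fin r) F × Sy (Fin r) F => (mat p.2).det ≠ 0)
      ≤ nv (fun z : Sy (II r) F => Rs 1 z ∨ Rs (-1) z) := by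
    unfold nv
    refine card_le_card_of_injOn (fun p => fam p.1 p.2) (fun p hp => ?_) fun p hp p' _ h => ?_
    · simp only [coe_filter, mem_univ, true_and, Set.mem_ofPred_eq] at hp ⊢
      exact fam_Rs _ hp
    · simp only [coe_filter, mem_univ, true_and, Set.mem_ofPred_eq] at hp
      have := congrArg mat h
      simp only [mat_fam, fromBlocks_inj] at this
      have e1 := mat_inj this.1
      have e2 := this.2.1
      rw [← e1] at e2
      have hu : IsUnit (mat p.2) := (isUnit_iff_isUnit_det _).2 (isUnit_iff_ne_zero.2 hp)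
      exact Prod.ext (hu.mul_left_cancel e2) e1
  have h3 := h1.trans (nv_or _ _)
  have h4 : (nv (fun p : Matrix (Fin r) (Fin r) F × Sy (Fin r) F => (mat p.2).det ≠ 0) : ℝ)
      = qp F (r * r) * nv (fun A : Sy (Fin r) F => (mat A).det ≠ 0) := by
    rw [nv_prod]
    simp only [sum_const, card_univ, smul_eq_mul]
    push_cast
    congr 1
    rw [← Nat.cast_mul, qp_nat]
    have : Fintype.card (Matrix (Fin r) (Fin r) F) = Fintype.card (Fin r → Fin r → F) := rfl
    rw [this, Fintype.card_fun, Fintype.card_fun]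
    simp [pow_mul]
  have h5 : mu F r * qp F (r * (r + 1) / 2) ≤ nv (fun A : Sy (Fin r) F => (mat A).det ≠ 0) := by
    have h6 := av_sing (ι := Fin r) h2
    have h7 := av_ite (fun A : Sy (Fin r) F => (mat A).det ≠ 0)
    have h8 : av (fun A : Sy (Fin r) F => if (mat A).det ≠ 0 then (1 : ℝ) else 0)
        = 1 - av (fun A : Sy (Fin r) F => if (mat A).det = 0 then (1 : ℝ) else 0) := by
      rw [eq_sub_iff_add_eq, ← av_add]
      refine Eq.trans (av_congr fun A => ?_) (av_const 1)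
      by_cases h : (mat A).det = 0 <;> simp [h]
    rw [card_Sy, Fintype.card_fin] at h7
    rw [Fintype.card_fin] at h6
    rw [← le_div_iff₀ (qp_pos _), ← h7, h8, mu]
    linarith
  rw [p0, card_Sy, card_II, le_div_iff₀ (mul_pos two_pos (qp_pos _))]
  have h9 : qp F (-(r * (r + 1) / 2)) * qp F (((2 * r : ℕ) : ℝ) * ((2 * r : ℕ) + 1) / 2)
      = qp F (r * r) * qp F (r * (r + 1) / 2) := by
    rw [← qp_add, ← qp_add]; congr 1; push_cast; ring
  have h10 : (nv (fun p : Matrix (Fin r) (Fin r) F × Sy (Fin r) F => (mat p.2).det ≠ 0) : ℝ)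
      ≤ (nv (Rs (F := F) (r := r) 1) : ℝ) + nv (Rs (F := F) (r := r) (-1)) := by
    exact_mod_cast h3
  have h11 := mul_le_mul_of_nonneg_left h5 (qp_pos (F := F) (r * r)).le
  calc _ = mu F r * (qp F (-(r * (r + 1) / 2))
        * qp F (((2 * r : ℕ) : ℝ) * ((2 * r : ℕ) + 1) / 2)) := by ring
    _ = qp F (r * r) * (mu F r * qp F (r * (r + 1) / 2)) := by rw [h9]; ring
    _ ≤ _ := by linarith

omit [Fintype F] in
lemma gr_inf_bot {x y : Sy (II r) F} (h : (mat (x - y)).det ≠ 0) : gr x ⊓ gr y = ⊥ := by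
  have := dm_gr_inf x y
  rw [cork_eq_zero.2 h, dm, Submodule.finrank_eq_zero] at this
  exact this

lemma nv_pair {x y : Sy (II r) F} (h : (mat (x - y)).det ≠ 0) :
    (nv (fun w => cork (x - w) = r ∧ cork (y - w) = r) : ℝ) ≤ th F ^ r * qp F (r * r) := by
  have h1 := cnt_pair om_sp r ⊥ _ _ (gr_lag x) (gr_lag y) (gr_inf_bot h)
  have h2 := nv_gr_le (F := F) (ι := II r) (fun L => ⊥ ≤ L ∧
    dm (gr x ⊓ L) = dm (⊥ : Submodule F ((II r → F) × (II r → F))) + r ∧
      dm (gr y ⊓ L) + r = Fintype.card (II r))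
  have h3 : dm (⊥ : Submodule F ((II r → F) × (II r → F))) = 0 := by simp [dm]
  rw [h3] at h1 h2
  refine le_trans (le_trans (nv_mono' fun w hw => ?_) (Nat.cast_le.2 h2)) (h1.trans (le_of_eq ?_))
  · simp only [dm_gr_inf, card_II, hw.1, hw.2]
    exact ⟨bot_le, by omega, by omega⟩
  · rw [card_II]; congr 2; push_cast; ring

lemma nv_trip (h2 : (2 : F) ≠ 0) {x y z : Sy (II r) F} (hxy : (mat (x - y)).det ≠ 0)
    (hxz : (mat (x - z)).det ≠ 0) (hyz : (mat (y - z)).det ≠ 0) :
    (nv (fun w => cork (x - w) = r ∧ cork (y - w) = r ∧ cork (z - w) = r) : ℝ)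
      ≤ 2 * th F ^ r * qp F (r * (r - 1) / 2) := by
  have h3 : dm (⊥ : Submodule F ((II r → F) × (II r → F))) = 0 := by simp [dm]
  have h1 := cnt_trip h2 om_sp r ⊥ _ _ _ (gr_lag x) (gr_lag y) (gr_lag z) (gr_inf_bot hxy)
    (gr_inf_bot hxz) (gr_inf_bot hyz) (by rw [h3, card_II]; omega)
  have h2 := nv_gr_le (F := F) (ι := II r) (fun L => ⊥ ≤ L ∧
    dm (gr x ⊓ L) = dm (⊥ : Submodule F ((II r → F) × (II r → F))) + r ∧
    dm (gr y ⊓ L) = dm (⊥ : Submodule F ((II r → F) × (II r → F))) + r ∧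
    dm (gr z ⊓ L) = dm (⊥ : Submodule F ((II r → F) × (II r → F))) + r)
  rw [h3] at h1 h2
  refine le_trans (le_trans (nv_mono' fun w hw => ?_) (Nat.cast_le.2 h2)) (h1.trans ?_)
  · simp only [dm_gr_inf, hw.1, hw.2.1, hw.2.2]
    exact ⟨bot_le, by omega, by omega, by omega⟩
  · have := th_pos (F := F)
    have := qp_pos (F := F) (r * (r - 1) / 2)
    gcongr
    split_ifs <;> norm_num

end Vale.Agent.P050
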