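import Vale.Agent.P050.Chart

/-! Quasirandomness of the determinant sign. -/

namespace Vale.Agent.P050

open Module Submodule Finset Matrix

variable {F : Type*} [Field F] [Fintype F] {ι : Type*} [Fintype ι] [DecidableEq ι]

open Classical in
/-- the quadratic character, real valued -/
noncomputable def eta (a : F) : ℝ := (quadraticChar F a : ℤ)

lemma eta_mul (a b : F) : eta (a * b) = eta a * eta b := by
  simp only [eta, map_mul, Int.cast_mul]

lemma eta_zero : eta (0 : F) = 0 := by simp [eta]

lemma eta_cases {a : F} (ha : a ≠ 0) : eta a = 1 ∨ eta a = -1 := by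
  classical
  rcases quadraticChar_dichotomy ha with h | h
  · left; simp only [eta]; exact_mod_cast h
  · right; simp only [eta]; exact_mod_cast h

lemma eta_mul_self {a : F} (ha : a ≠ 0) : eta a * eta a = 1 := by
  rcases eta_cases ha with h | h <;> simp [h]

lemma abs_eta_le (a : F) : |eta a| ≤ 1 := by
  by_cases ha : a = 0
  · simp [ha, eta_zero]
  · rcases eta_cases ha with h | h <;> simp [h]

omit [Fintype F] in
lemma ringChar_ne (h2 : (2 : F) ≠ 0) : ringChar F ≠ 2 := by
  intro h
  apply h2
  have := ringChar.Nat.cast_ringChar (R := F)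
  rw [h] at this
  exact_mod_cast this

lemma sum_eta (h2 : (2 : F) ≠ 0) : ∑ a : F, eta a = 0 := by
  classical
  have := quadraticChar_sum_zero (ringChar_ne h2)
  simp only [eta]
  exact_mod_cast this

lemma sum_eta_jac (h2 : (2 : F) ≠ 0) : ∑ a : F, eta a * eta (1 - a) = - eta (-1 : F) := by
  classical
  have h := jacobiSum_nontrivial_inv (quadraticChar_ne_one (ringChar_ne h2))
  rw [(quadraticChar_isQuadratic F).inv, jacobiSum] at h
  simp only [eta]
  exact_mod_cast h

lemma corr1 (h2 : (2 : F) ≠ 0) {a b : F} (hab : a ≠ b) :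
    |av (fun t : F => eta (1 + t * a) * eta (1 + t * b))| ≤ 1 / Fintype.card F := by
  have lin : ∀ c : F, c ≠ 0 → ∑ t : F, eta (1 + t * c) = 0 := fun c hc => by
    rw [← sum_eta h2]
    exact Equiv.sum_comp ((Equiv.mulRight₀ c hc).trans (Equiv.addLeft 1)) eta
  have e1 : eta (1 : F) = 1 := by simp [eta]
  rw [av, abs_div, Nat.abs_cast]
  gcongr
  by_cases ha : a = 0
  · subst ha; simp [e1, lin b hab.symm]
  by_cases hb : b = 0
  · subst hb; simp [e1, lin a hab]
  have hc : (b - a) / (a * b) ≠ 0 := div_ne_zero (sub_ne_zero.2 hab.symm) (mul_ne_zero ha hb)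
  rw [← Equiv.sum_comp ((Equiv.mulRight₀ _ hc).trans (Equiv.addRight (-a⁻¹)))]
  have key : ∀ x : F, eta (1 + (x * ((b - a) / (a * b)) + -a⁻¹) * a)
      * eta (1 + (x * ((b - a) / (a * b)) + -a⁻¹) * b)
      = eta (-((b - a) * (b - a)) / (a * b)) * (eta x * eta (1 - x)) := by
    intro x
    rw [← eta_mul, ← eta_mul, ← eta_mul]
    congr 1
    field_simp
    ring
  simp only [Equiv.trans_apply, Equiv.mulRight₀_apply, Equiv.coe_addRight, key]
  rw [← mul_sum, sum_eta_jac h2, abs_mul, abs_neg]
  exact mul_le_one₀ (abs_eta_le _) (abs_nonneg _) (abs_eta_le _)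

/-- rank one symmetric matrix -/
def outer (u : ι → F) : Sy ι F := Sym2.lift ⟨fun i j => u i * u j, fun _ _ => mul_comm _ _⟩

omit [Fintype F] in
lemma det_line {x : Sy ι F} (hx : (mat x).det ≠ 0) (u : ι → F) (t : F) :
    (mat (x + t • outer u)).det = (mat x).det * (1 + t * (u ⬝ᵥ (mat x)⁻¹ *ᵥ u)) := by
  have e : mat (x + t • outer u) = mat x + replicateCol Unit (t • u) * replicateRow Unit u := by
    rw [← vecMulVec_eq]
    ext i j
    simp [mat, outer, vecMulVec_apply]
  rw [e, det_add_replicateCol_mul_replicateRow (isUnit_iff_ne_zero.2 hx)]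
  congr 1
  rw [Matrix.mul_assoc, ← replicateCol_mulVec, det_unique, Matrix.add_apply, one_apply_eq,
    replicateRow_mul_replicateCol_apply, mulVec_smul, dotProduct_smul, smul_eq_mul]

/-- the determinant sign -/
noncomputable def sg (x : Sy ι F) : ℝ := eta (mat x).det

lemma abs_sg_le (x : Sy ι F) : |sg x| ≤ 1 := abs_eta_le _

open Classical in
lemma av_form (h2 : (2 : F) ≠ 0) {M : Matrix ι ι F} (hM : Mᵀ = M) (h0 : M ≠ 0) :
    av (fun u : ι → F => if u ⬝ᵥ M *ᵥ u = 0 then (1 : ℝ) else 0) ≤ 2 / Fintype.card F := by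
  obtain ⟨i, j, hij⟩ : ∃ i j, M i j ≠ 0 := by
    by_contra hc
    push Not at hc
    exact h0 (by ext i j; exact hc i j)
  obtain ⟨w, -, hw⟩ := exists_anis h2 (Matrix.toLinearMap₂' F M) ⊤
    (fun x _ y _ => by
      simp only [toLinearMap₂'_apply']
      rw [dotProduct_mulVec, ← mulVec_transpose, hM, dotProduct_comm])
    (x := Pi.single i 1) (y := Pi.single j 1) trivial trivial
    (by simpa [toLinearMap₂'_apply'] using hij)
  have h := zeros_crude (Matrix.toLinearMap₂' F M) ⊤ trivial hw
  have hq := two_le_q (F := F)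
  have hc : (Fintype.card (ι → F) : ℝ) = Fintype.card F ^ dm (⊤ : Submodule F (ι → F)) := by
    simp [dm]
  rw [av_ite, hc, div_le_div_iff₀ (by positivity) (by linarith)]
  rw [nv_congr (Q := fun v => v ∈ (⊤ : Submodule F (ι → F)) ∧ Matrix.toLinearMap₂' F M v v = 0)
    fun v => by simp [toLinearMap₂'_apply']]
  exact_mod_cast h

lemma autocorr (h2 : (2 : F) ≠ 0) {d : Sy ι F} (hd : d ≠ 0) :
    |av (fun x : Sy ι F => sg x * sg (x + d))|
      ≤ (2 * KK (Fintype.card ι) + 3) / Fintype.card F := by
  classical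
  have h1 : av (fun x : Sy ι F => sg x * sg (x + d)) = av (fun x : Sy ι F => av fun u : ι → F =>
      av fun t : F => sg (x + t • outer u) * sg (x + d + t • outer u)) := by
    rw [av_comm, ← av_const (α := ι → F) (av _)]
    refine av_congr fun u => ?_
    rw [av_comm, ← av_const (α := F) (av _)]
    refine av_congr fun t => ?_
    rw [← av_add_right (t • outer u)]
    exact av_congr fun x => by rw [add_right_comm x d]
  have hs1 := av_sing (ι := ι) h2
  have hs2 : av (fun w : Sy ι F => if (mat (w + d)).det = 0 then (1 : ℝ) else 0)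
      ≤ KK (Fintype.card ι) / Fintype.card F :=
    (av_add_right d (fun w => if (mat w).det = 0 then (1 : ℝ) else 0)).le.trans hs1
  have hq := two_le_q (F := F)
  rw [h1]
  refine (abs_av_le _).trans (le_trans (av_mono (g := fun x =>
    (if (mat x).det = 0 then (1 : ℝ) else 0) + (if (mat (x + d)).det = 0 then (1 : ℝ) else 0)
      + 3 / Fintype.card F) fun x => ?_) ?_)
  · have hb : ∀ u : ι → F,
        |av fun t : F => sg (x + t • outer u) * sg (x + d + t • outer u)| ≤ 1 := fun u =>
      (abs_av_le _).trans (av_le_const fun t => by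
        rw [abs_mul]; exact mul_le_one₀ (abs_sg_le _) (abs_nonneg _) (abs_sg_le _))
    have h3 : (0 : ℝ) ≤ 3 / Fintype.card F := by positivity
    refine (abs_av_le _).trans ?_
    by_cases hx : (mat x).det = 0
    · refine (av_le_const hb).trans ?_
      rw [if_pos hx]; split_ifs <;> linarith
    by_cases hy : (mat (x + d)).det = 0
    · refine (av_le_const hb).trans ?_
      rw [if_pos hy, if_neg hx]; linarith
    rw [if_neg hx, if_neg hy]
    have hM : (mat x)⁻¹ - (mat (x + d))⁻¹ ≠ 0 := by
      rw [sub_ne_zero]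
      intro h
      have := Matrix.inv_inj h (by
        simp [hx, hy])
      exact hd (by simpa using mat_inj this)
    have hf := av_form h2 (M := (mat x)⁻¹ - (mat (x + d))⁻¹)
      (by rw [transpose_sub, transpose_nonsing_inv, transpose_nonsing_inv, mat_symm, mat_symm]) hM
    refine le_trans (av_mono (g := fun u =>
      (if u ⬝ᵥ ((mat x)⁻¹ - (mat (x + d))⁻¹) *ᵥ u = 0 then (1 : ℝ) else 0) + 1 / Fintype.card F)
      fun u => ?_) ?_
    · split_ifs with hu
      · have : (0 : ℝ) ≤ 1 / Fintype.card F := by positivity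
        linarith [hb u]
      · rw [sub_mulVec, dotProduct_sub, sub_eq_zero] at hu
        simp only [sg, det_line hx, det_line hy, eta_mul]
        rw [av_congr (g := fun t => (eta (mat x).det * eta (mat (x + d)).det) *
          (eta (1 + t * (u ⬝ᵥ (mat x)⁻¹ *ᵥ u)) * eta (1 + t * (u ⬝ᵥ (mat (x + d))⁻¹ *ᵥ u))))
          fun t => by ring, av_mul_left, abs_mul, abs_mul, zero_add]
        have := corr1 h2 hu
        exact mul_le_of_le_one_left (abs_nonneg _)
          (mul_le_one₀ (abs_eta_le _) (abs_nonneg _) (abs_eta_le _)) |>.trans this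
    · rw [av_add, av_const]
      have : (3 : ℝ) / Fintype.card F = 2 / Fintype.card F + 1 / Fintype.card F := by ring
      linarith
  · rw [av_add, av_add, av_const, add_div, mul_div_assoc]
    linarith

/-- cut bound for the sign kernel -/
theorem sg_cut (h2 : (2 : F) ≠ 0) [Nonempty ι] (f g : Sy ι F → ℝ) (hf : ∀ x, |f x| ≤ 1)
    (hg : ∀ x, |g x| ≤ 1) :
    (av fun x => av fun y => sg (x - y) * f x * g y) ^ 2
      ≤ (2 * KK (Fintype.card ι) + 4) / Fintype.card F := by
  classical
  have hq := two_le_q (F := F)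
  refine (av_sq_le _).trans ?_
  have h1 : ∀ x, (av fun y => sg (x - y) * f x * g y) ^ 2
      ≤ av fun y => av fun y' => g y * g y' * (sg (x - y) * sg (x - y')) := by
    intro x
    have e : (av fun y => sg (x - y) * f x * g y) = f x * av fun y => sg (x - y) * g y := by
      rw [← av_mul_left]; exact av_congr fun y => by ring
    have e2 : (av fun y => sg (x - y) * g y) ^ 2
        = av fun y => av fun y' => g y * g y' * (sg (x - y) * sg (x - y')) := by
      rw [sq, ← av_mul_right]
      refine av_congr fun y => ?_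
      rw [← av_mul_left]
      exact av_congr fun y' => by ring
    rw [e, mul_pow, ← e2]
    exact mul_le_of_le_one_left (sq_nonneg _) (by rw [sq_le_one_iff_abs_le_one]; exact hf x)
  refine (av_mono h1).trans ?_
  rw [av_comm]
  refine av_le_const fun y => ?_
  rw [av_comm]
  refine le_trans (av_mono (g := fun y' => (if y' = y then (1 : ℝ) else 0)
    + (2 * KK (Fintype.card ι) + 3) / Fintype.card F) fun y' => ?_) ?_
  · rw [av_mul_left]
    refine (le_abs_self _).trans ?_
    rw [abs_mul, abs_mul]
    refine (mul_le_of_le_one_left (abs_nonneg _)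
      (mul_le_one₀ (hg _) (abs_nonneg _) (hg _))).trans ?_
    have hK := KK_nonneg (Fintype.card ι)
    split_ifs with h
    · have : (0 : ℝ) ≤ (2 * KK (Fintype.card ι) + 3) / Fintype.card F := by positivity
      refine le_trans ((abs_av_le _).trans (av_le_const (c := 1) fun t => ?_)) (by linarith)
      rw [abs_mul]; exact mul_le_one₀ (abs_sg_le _) (abs_nonneg _) (abs_sg_le _)
    · have := autocorr h2 (d := y - y') (sub_ne_zero.2 (Ne.symm h))
      rw [← av_add_right (-y)] at this
      simpa [sub_eq_add_neg, add_assoc] using this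
  · rw [av_add, av_const, av_ite]
    have h3 : (nv (fun y' => y' = y) : ℝ) ≤ 1 := by
      exact_mod_cast nv_le_one (P := fun y' => y' = y) fun a b ha hb => ha.trans hb.symm
    have h4 : (Fintype.card F : ℝ) ≤ Fintype.card (Sy ι F) := by
      rw [card_Sy, ← qp_one]
      have : (1 : ℝ) ≤ Fintype.card ι := by exact_mod_cast Fintype.card_pos
      exact qp_mono (by nlinarith)
    have h5 : (nv (fun y' => y' = y) : ℝ) / Fintype.card (Sy ι F) ≤ 1 / Fintype.card F := by
      gcongr
    have : (2 * KK (Fintype.card ι) + 4) / Fintype.card F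
        = 1 / Fintype.card F + (2 * KK (Fintype.card ι) + 3) / Fintype.card F := by ring
    linarith

end Vale.Agent.P050
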