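import Vale.Agent.P050.Mom

/-! Evaluation of the main terms. -/

namespace Vale.Agent.P050

open Finset

abbrev Cfg := Fin 18 → Finset (Fin 12)

noncomputable def term (π : Cor → ℝ) (β : Cor → Out → Fin 12 → SignType) (S : Cfg) : ℝ :=
  ∏ c : Cor, MM (π c) (β c) (S (eo c.1 (c.2 + 1))) (S (eo c.1 (c.2 + 2)))

def Good (π : ℝ) (β : Out → Fin 12 → SignType) : Prop :=
  (∀ d, β none d = 0) ∧ ∀ S T, Disjoint S T → S.Nonempty ∨ T.Nonempty → MM π β S T = 0

lemma good_bv (π : ℝ) (c : Cor) : Good π (bv c) := ⟨fun _ => rfl, fun _ _ => MM_disj π⟩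

lemma good_zero (π : ℝ) : Good π (fun _ _ => 0) := by
  refine ⟨fun _ => rfl, fun S T _ h => sum_eq_zero fun o _ => ?_⟩
  rcases h with ⟨d, hd⟩ | ⟨d, hd⟩
  · rw [prod_eq_zero hd (by simp), zero_mul, mul_zero]
  · rw [prod_eq_zero hd (by simp), mul_zero, mul_zero]

variable {π : Cor → ℝ} {β : Cor → Out → Fin 12 → SignType}

lemma term_empty : term π β (fun _ => ∅) = 1 := by simp [term, MM_empty]

lemma term_ne (hg : ∀ c, Good (π c) (β c)) {S : Cfg} (hS : S ≠ fun _ => ∅)
    (h : term π β S ≠ 0) (e : Fin 18) : (S e).Nonempty := by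
  have key : ∀ j k, S (eo j (k + 1)) = ∅ ↔ S (eo j (k + 2)) = ∅ := by
    intro j k
    have h1 := prod_ne_zero_iff.1 h (j, k) (mem_univ _)
    constructor
    · intro h2
      by_contra h3
      exact h1 ((hg _).2 _ _ (by simp [h2]) (Or.inr (nonempty_iff_ne_empty.2 h3)))
    · intro h2
      by_contra h3
      exact h1 ((hg _).2 _ _ (by simp [h2]) (Or.inl (nonempty_iff_ne_empty.2 h3)))
  have := medial_conn (fun e => S e = ∅) key
  rw [nonempty_iff_ne_empty]
  intro he
  exact hS (funext fun e' => (this e').2 ((this e).1 he))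

lemma abs_term_le (h0 : ∀ c, 0 ≤ π c) (hg : ∀ c, Good (π c) (β c)) {S : Cfg}
    (hS : S ≠ fun _ => ∅) : |term π β S| ≤ ∏ c, π c := by
  by_cases h : term π β S = 0
  · rw [h, abs_zero]; exact prod_nonneg fun c _ => h0 c
  · rw [term, abs_prod]
    exact prod_le_prod (fun _ _ => abs_nonneg _) fun c _ =>
      abs_MM_le (h0 c) (hg c).1 (Or.inl (term_ne hg hS h _))

lemma sum_le_add_card {α : Type*} [Fintype α] (f : α → ℝ) (a : α) {M : ℝ} (hM : 0 ≤ M)
    (h : ∀ b, b ≠ a → f b ≤ M) : ∑ b, f b ≤ f a + Fintype.card α * M := by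
  classical
  rw [← add_sum_erase _ _ (mem_univ a)]
  gcongr
  refine (sum_le_card_nsmul _ _ M fun S hS => h _ (ne_of_mem_erase hS)).trans ?_
  rw [nsmul_eq_mul]
  exact mul_le_mul_of_nonneg_right (Nat.cast_le.2 (card_le_univ _)) hM

lemma sum_eq_two {α : Type*} [Fintype α] (f : α → ℝ) {a a' : α} (hne : a ≠ a')
    (h : ∀ b, b ≠ a → f b ≠ 0 → b = a') : ∑ b, f b = f a + f a' :=
  Fintype.sum_eq_add a a' hne fun b hb => by_contra fun hc => hb.2 (h b hb.1 hc)

lemma Z_le (h0 : ∀ c, 0 ≤ π c) (hg : ∀ c, Good (π c) (β c)) :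
    ∑ S, term π β S ≤ 1 + Fintype.card Cfg * ∏ c, π c := by
  rw [← term_empty (π := π) (β := β)]
  exact sum_le_add_card _ _ (prod_nonneg fun c _ => h0 c) fun S hS =>
    (le_abs_self _).trans (abs_term_le h0 hg hS)

lemma cmp_inter : ∀ j k d, d ∈ cmp (j, k + 1) → d ∈ cmp (j, k + 2) → d = j ∨ d = ac j k := by
  decide +kernel

lemma fin3_a : ∀ k : Fin 3, k + 1 + 2 = k := by decide
lemma fin3_b : ∀ k : Fin 3, k + 2 + 1 = k := by decide
lemma fin3_c : ∀ k : Fin 3, k + 2 + 2 = k + 1 := by decide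

lemma term_id {S : Cfg} (hS : S ≠ fun _ => ∅) (h : term π bv S ≠ 0) : S = Sst := by
  have hne := term_ne (fun c => good_bv (π c) c) hS h
  have h1 := fun c => prod_ne_zero_iff.1 h c (mem_univ _)
  have s1 : ∀ j k, ∀ d ∈ S (eo j k), d = j ∨ d = ac j k := by
    intro j k d hd
    refine cmp_inter j k d ?_ ?_
    · by_contra hc
      exact h1 (j, k + 1) (MM_out _ hc (Or.inr (by simpa only [fin3_a] using hd)))
    · by_contra hc
      exact h1 (j, k + 2) (MM_out _ hc (Or.inl (by simpa only [fin3_b] using hd)))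
  have s2 : ∀ j k, j ∈ S (eo j k) := by
    intro j k
    by_contra hc
    have h2 := h1 (j, k + 2)
    simp only [fin3_b, fin3_c] at h2
    have h3 : j ∉ S (eo j (k + 1)) := fun h4 => h2 (MM_par _ (by simp [hc, h4]))
    refine h2 (MM_disj _ (disjoint_left.2 fun d hd hd' => ?_) (Or.inl (hne _)))
    rcases s1 j k d hd with rfl | rfl
    · exact hc hd
    · rcases s1 j (k + 1) _ hd' with h5 | h5
      · exact (ac_ne j k).1 h5.symm
      · exact (ac_ne j k).2.1 h5
  funext e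
  rw [← eo_sd e 0, Sst_eo]
  generalize (sd e 0).1 = j
  generalize (sd e 0).2 = k
  ext d
  simp only [mem_insert, mem_singleton]
  refine ⟨s1 j k d, ?_⟩
  rintro (rfl | rfl)
  · exact s2 _ _
  · obtain ⟨k', hk'⟩ := eo_other j k
    rw [← hk']
    exact s2 _ _

lemma prod_eps : ∏ c : Cor, (eps c : ℝ) = -1 := by
  rw [prod_eq_single (0, 0)]
  · simp [eps]
  · intro c _ hc; simp [eps, hc]
  · simp

lemma Z_id : ∑ S, term π bv S = 1 - (∏ c, π c) / 2 ^ 36 := by
  have hne : Sst ≠ fun _ => ∅ := fun h => by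
    have := congrFun h 0
    simp [Sst] at this
  rw [sum_eq_two _ hne.symm fun S => term_id, term_empty]
  simp only [term, Sst_eo, MM_main, prod_mul_distrib, prod_eps, prod_div_distrib]
  simp [sub_eq_add_neg]

end Vale.Agent.P050
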